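import Vale.Agent.P073.H911.ColM

/-! # The a priori bound for the collapse theorem (helper605's [COL]), variable scale

A chain `G 0 ≥ G 1 ≥ …` of convex functions, `G 0 = h|y|²/2`, with `(1+h)|y|²/2 - G j` convex,
such that every slope `p` has a minimiser `z` of `G (j+1) - p` with
`G (j+1) z = G j z` if `z ∉ V`.  If `V` is thin at the scales `r ≥ τ y`, then
`0 ≤ G 0 - G k ≤ h τ²/2` and `G 0 - G k` vanishes far from `V` (at the scale `τ`). -/

open MeasureTheory Set Filter Metric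
open scoped ENNReal NNReal Topology

namespace Vale.Agent.P073.H582.Col

open Vale.Agent.P073.H911

variable {E : Type*} [NormedAddCommGroup E] [InnerProductSpace ℝ E] [FiniteDimensional ℝ E]

/-- the chain of [COL]: `G j = h|y|²/2 - v_j`. -/
structure Chain (V : Set E) (h : ℝ) (G : ℕ → E → ℝ) : Prop where
  zero : ∀ y, G 0 y = h / 2 * ‖y‖ ^ 2
  conv : ∀ j, ConvexOn ℝ univ (G j)
  coconv : ∀ j, ConvexOn ℝ univ (fun y => (1 + h) / 2 * ‖y‖ ^ 2 - G j y)
  anti : ∀ j y, G (j + 1) y ≤ G j y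
  off : ∀ j, ∃ R, ∀ y, R ≤ ‖y‖ → G j y = G 0 y
  contact : ∀ j p, ∃ z, IsMin (G (j + 1)) p z ∧ (z ∉ V → G (j + 1) z = G j z)

variable {V : Set E} {h : ℝ} {τ : E → ℝ} {G : ℕ → E → ℝ}

omit [FiniteDimensional ℝ E] in
theorem Chain.le_zero (H : Chain V h G) (k : ℕ) (y : E) : G k y ≤ G 0 y := by
  induction k with
  | zero => exact le_rfl
  | succ k ih => exact (H.anti k y).trans ih

theorem Chain.cont (H : Chain V h G) (k : ℕ) : Continuous (G k) :=
  (H.conv k).locallyLipschitz.continuous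

theorem Chain.bddv (H : Chain V h G) (k : ℕ) : ∃ C, 0 ≤ C ∧ ∀ y, G 0 y - G k y ≤ C := by
  obtain ⟨R, hR⟩ := H.off k
  obtain ⟨C, hC⟩ := (isCompact_closedBall (0 : E) R).exists_bound_of_continuousOn
    ((H.cont 0).sub (H.cont k)).continuousOn
  refine ⟨|C|, abs_nonneg _, fun y => ?_⟩
  by_cases hy : R ≤ ‖y‖
  · rw [hR y hy, sub_self]; exact abs_nonneg _
  · have h1 := hC y (by rw [mem_closedBall, dist_zero_right]; exact (not_le.1 hy).le)
    rw [Real.norm_eq_abs] at h1
    exact (le_abs_self _).trans (h1.trans (le_abs_self _))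

theorem Chain.grows (H : Chain V h G) (hh : 0 < h) (k : ℕ) : Grows (G k) := by
  obtain ⟨C, _, hC⟩ := H.bddv k
  refine ⟨h / 2, C, by positivity, fun y => ?_⟩
  have := hC y
  rw [H.zero y] at this
  linarith

omit [FiniteDimensional ℝ E] in
/-- outside `V`, at a good slope, nothing has moved. -/
theorem Chain.claim (H : Chain V h G) {p y : E} (hy : y ∉ V) :
    ∀ k, (∀ j ≤ k, ∀ y z, IsMin (G j) p y → IsMin (G j) p z → y = z) →
      IsMin (G k) p y → G k y = G 0 y := by
  intro k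
  induction k with
  | zero => intro _ _; rfl
  | succ k ih =>
    intro hu hm
    obtain ⟨z, hz, hzV⟩ := H.contact k p
    have hzy : z = y := hu (k + 1) le_rfl z y hz hm
    rw [hzy] at hzV
    have e1 := hzV hy
    have hm' : IsMin (G k) p y := by
      intro w
      have h1 := hm w
      have h2 := H.anti k w
      linarith
    rw [e1]
    exact ih (fun j hj => hu j (hj.trans (Nat.le_succ k))) hm'

section Meas

variable [MeasurableSpace E] [BorelSpace E]

/-- the volume inequality. -/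
theorem Chain.volume_ineq (μ : Measure E) [μ.IsAddHaarMeasure] (H : Chain V h G) (hh : 0 < h)
    {k : ℕ} {a y1 : E} {κ r : ℝ} (hκ : 0 < κ) (hr : 0 < r)
    (low : ∀ y, G k y1 + inner ℝ a (y - y1) + κ / 2 * ‖y - y1‖ ^ 2 ≤ G k y)
    (hpos : ∀ y ∈ ball y1 r, G k y ≠ G 0 y) :
    ENNReal.ofReal ((κ / (2 * (1 + h))) ^ Module.finrank ℝ E) * μ (ball y1 r)
      ≤ μ (V ∩ ball y1 r) := by
  obtain ⟨g, hg, hglow, -, -, -, hgL⟩ := exists_grad (by linarith : (0 : ℝ) < 1 + h)
    (H.conv k) (H.coconv k)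
  set L : ℝ≥0 := ⟨1 + h, by linarith⟩ with hL
  have hL0 : 0 < L := by
    rw [← NNReal.coe_pos]; change (0 : ℝ) < 1 + h; linarith
  have hgLip : LipschitzWith L g := by
    refine LipschitzWith.of_dist_le_mul fun x y => ?_
    rw [dist_comm x y, dist_comm (g x), dist_eq_norm, dist_eq_norm]
    exact hgL x y
  have hnull : μ (g '' (ball y1 r ∩ Vᶜ)) = 0 := by
    have hsub : g '' (ball y1 r ∩ Vᶜ)
        ⊆ ⋃ j, {p | ∃ y z, y ≠ z ∧ IsMin (G j) p y ∧ IsMin (G j) p z} := by
      rintro _ ⟨y, ⟨hyb, hyV⟩, rfl⟩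
      by_contra hno
      simp only [mem_iUnion, mem_ofPred_eq, not_exists, not_and] at hno
      refine hpos y hyb (H.claim hyV k (p := g y) (fun j _ u w hu hw => ?_) ?_)
      · by_contra hne
        exact hno j u w hne hu hw
      · intro z
        have := hglow y z
        rw [inner_sub_right] at this
        linarith
    refine measure_mono_null hsub ?_
    rw [measure_iUnion_null_iff]
    exact fun j => null_mult μ (H.cont j) (H.grows hh j)
  have h1 := measure_lower_bound μ hκ hr hgLip (fun y _ => hg y) (H.cont k).continuousOn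
    (fun y _ => low y) hnull
  have hLn0 : (L : ℝ≥0∞) ^ Module.finrank ℝ E ≠ 0 :=
    pow_ne_zero _ (by exact_mod_cast hL0.ne')
  have hLnt : (L : ℝ≥0∞) ^ Module.finrank ℝ E ≠ ∞ := ENNReal.pow_ne_top ENNReal.coe_ne_top
  refine (ENNReal.mul_le_mul_iff_right hLn0 hLnt).1 (le_trans (le_of_eq ?_) h1)
  have hLe : (L : ℝ≥0∞) = ENNReal.ofReal (1 + h) := by
    rw [hL, ENNReal.ofReal]
    congr 1
    exact (Real.toNNReal_of_nonneg _).symm
  rw [hLe, ← mul_assoc, ← ENNReal.ofReal_pow (by linarith), ← ENNReal.ofReal_pow (by positivity),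
    ← ENNReal.ofReal_mul (by positivity), ← mul_pow]
  congr 3
  field_simp


/-- a touching parabola at a point of `{v > 0}`. -/
theorem Chain.touch (μ : Measure E) [μ.IsAddHaarMeasure] (H : Chain V h G) (hh : 0 < h)
    (hτ0 : ∀ y, 0 ≤ τ y)
    (thin : ∀ y r, 0 < r → τ y ≤ r → μ (V ∩ ball y r)
      < ENNReal.ofReal ((h / (4 * (1 + h))) ^ Module.finrank ℝ E) * μ (ball y r))
    {k : ℕ} {a y1 : E}
    (low : ∀ y, G k y1 + inner ℝ a (y - y1) + (h / 2) / 2 * ‖y - y1‖ ^ 2 ≤ G k y)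
    (hpos : 0 < G 0 y1 - G k y1) :
    0 < τ y1 ∧ G 0 y1 - G k y1 < h / 2 * τ y1 ^ 2 ∧ ∃ w ∈ V, dist y1 w < τ y1 := by
  have hthin : ENNReal.ofReal ((h / (4 * (1 + h))) ^ Module.finrank ℝ E)
      = ENNReal.ofReal (((h / 2) / (2 * (1 + h))) ^ Module.finrank ℝ E) := by
    congr 2; field_simp; norm_num
  -- zeros of `v` at every admissible scale
  have hz : ∀ r, 0 < r → τ y1 ≤ r → G 0 y1 - G k y1 < h / 2 * r ^ 2 := by
    intro r hr hτr
    have hz1 : ∃ z ∈ ball y1 r, G k z = G 0 z := by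
      by_contra hno
      push Not at hno
      have := H.volume_ineq μ hh (by positivity : 0 < h / 2) hr low hno
      rw [← hthin] at this
      exact absurd (thin y1 r hr hτr) (not_lt.2 this)
    obtain ⟨z, hzb, hz⟩ := hz1
    have hc : ConvexOn ℝ univ (fun y => h / 2 * ‖y‖ ^ 2 - (G 0 y - G k y)) := by
      have := H.conv k
      convert this using 2 with y
      rw [H.zero y]; ring
    have h1 := le_of_zero hh.le (v := fun y => G 0 y - G k y)
      (fun y => sub_nonneg.2 (H.le_zero k y)) hc (z := z) (by simp only [hz, sub_self]) y1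
    have h2 : ‖y1 - z‖ < r := by
      rw [mem_ball, dist_comm, dist_eq_norm] at hzb; exact hzb
    have h3 : ‖y1 - z‖ ^ 2 < r ^ 2 := by
      have := norm_nonneg (y1 - z)
      nlinarith
    have h4 : h / 2 * ‖y1 - z‖ ^ 2 < h / 2 * r ^ 2 := mul_lt_mul_of_pos_left h3 (by positivity)
    linarith
  have hτpos : 0 < τ y1 := by
    rcases (hτ0 y1).eq_or_lt with h0 | h0
    · exfalso
      set d := G 0 y1 - G k y1 with hd
      set r := min 1 (d / h) with hr
      have hr0 : 0 < r := lt_min one_pos (by positivity)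
      have h1 := hz r hr0 (by rw [← h0]; exact hr0.le)
      have h2 : r ≤ 1 := min_le_left _ _
      have h3 : r ≤ d / h := min_le_right _ _
      have h4 : h * r ≤ d := by
        rw [le_div_iff₀ hh] at h3; linarith
      nlinarith
    · exact h0
  refine ⟨hτpos, hz _ hτpos le_rfl, ?_⟩
  -- a point of `V` in the ball
  by_contra hno
  push Not at hno
  have hVe : V ∩ ball y1 (τ y1) = ∅ := by
    apply eq_empty_of_forall_notMem
    rintro w ⟨hw, hwb⟩
    have := hno w hw
    rw [mem_ball, dist_comm] at hwb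
    linarith
  have hopen : ∀ᶠ y in 𝓝 y1, G k y ≠ G 0 y := by
    have h1 : ∀ᶠ y in 𝓝 y1, 0 < G 0 y - G k y :=
      (((H.cont 0).sub (H.cont k)).continuousAt (x := y1)).eventually (lt_mem_nhds hpos)
    filter_upwards [h1] with y hy heq
    rw [heq, sub_self] at hy
    exact lt_irrefl _ hy
  obtain ⟨ρ, hρ, hρb⟩ := Metric.eventually_nhds_iff_ball.1 hopen
  set r := min ρ (τ y1) with hr
  have hr0 : 0 < r := lt_min hρ hτpos
  have h1 := H.volume_ineq μ hh (by positivity : 0 < h / 2) hr0 low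
    (fun y hy => hρb y (ball_subset_ball (min_le_left _ _) hy))
  have h2 : V ∩ ball y1 r ⊆ V ∩ ball y1 (τ y1) :=
    inter_subset_inter_right _ (ball_subset_ball (min_le_right _ _))
  rw [hVe, subset_empty_iff] at h2
  rw [h2, measure_empty, nonpos_iff_eq_zero, mul_eq_zero] at h1
  rcases h1 with h1 | h1
  · rw [ENNReal.ofReal_eq_zero] at h1
    have : 0 < ((h / 2) / (2 * (1 + h))) ^ Module.finrank ℝ E := by positivity
    linarith
  · exact (measure_ball_pos μ y1 hr0).ne' h1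

/-- **The a priori bound.** -/
theorem Chain.bound (μ : Measure E) [μ.IsAddHaarMeasure] (H : Chain V h G) (hh : 0 < h)
    (hτ0 : ∀ y, 0 ≤ τ y) (hτc : ConvexOn ℝ univ (fun y => ‖y‖ ^ 2 / 2 - τ y ^ 2))
    (thin : ∀ y r, 0 < r → τ y ≤ r → μ (V ∩ ball y r)
      < ENNReal.ofReal ((h / (4 * (1 + h))) ^ Module.finrank ℝ E) * μ (ball y r))
    (k : ℕ) (y : E) : G 0 y - G k y ≤ h / 2 * τ y ^ 2 := by
  by_contra hlt
  push Not at hlt
  set F : E → ℝ := fun y => G 0 y - G k y + h / 2 * (‖y‖ ^ 2 / 2 - τ y ^ 2)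
    - h / 2 * (‖y‖ ^ 2 / 2) with hF
  have hFe : ∀ y, F y = G 0 y - G k y - h / 2 * τ y ^ 2 := by
    intro y; simp only [hF]; ring
  have hFc : Continuous F := by
    have h0 := H.cont 0
    have hk := H.cont k
    have ht := hτc.locallyLipschitz.continuous
    simp only [hF]
    exact ((h0.sub hk).add (continuous_const.mul ht)).sub (by fun_prop)
  obtain ⟨R, hR⟩ := H.off k
  have hyR : ‖y‖ < R := by
    by_contra hge
    push Not at hge
    rw [hR y hge, sub_self] at hlt
    have : 0 ≤ h / 2 * τ y ^ 2 := by positivity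
    linarith
  obtain ⟨y1, -, hm⟩ := (isCompact_closedBall (0 : E) R).exists_isMaxOn
    ⟨y, by rw [mem_closedBall, dist_zero_right]; exact hyR.le⟩ hFc.continuousOn
  have hFy : 0 < F y := by rw [hFe]; linarith
  have hFy1 : F y ≤ F y1 := hm (by rw [mem_closedBall, dist_zero_right]; exact hyR.le)
  have hall : ∀ w, F w ≤ F y1 := by
    intro w
    by_cases hw : R ≤ ‖w‖
    · have : F w ≤ 0 := by
        rw [hFe, hR w hw, sub_self]
        have : 0 ≤ h / 2 * τ w ^ 2 := by positivity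
        linarith
      linarith
    · exact hm (by rw [mem_closedBall, dist_zero_right]; exact (not_le.1 hw).le)
  obtain ⟨b, hb⟩ := exists_subgradient hτc y1
  have hpos : 0 < G 0 y1 - G k y1 := by
    have h1 := hFe y1
    have : 0 ≤ h / 2 * τ y1 ^ 2 := by positivity
    linarith
  have low : ∀ w, G k y1 + inner ℝ ((h / 2) • (y1 + b)) (w - y1) + (h / 2) / 2 * ‖w - y1‖ ^ 2
      ≤ G k w := by
    intro w
    have h1 := hall w
    rw [hFe, hFe, H.zero w, H.zero y1] at h1
    have h2 := hb w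
    have e1 : ‖w‖ ^ 2 = ‖y1‖ ^ 2 + 2 * inner ℝ y1 (w - y1) + ‖w - y1‖ ^ 2 := by
      have : w = y1 + (w - y1) := by abel
      conv_lhs => rw [this]
      rw [norm_add_sq_real]
    rw [real_inner_smul_left, inner_add_left]
    have h3 := mul_le_mul_of_nonneg_left h2 (by positivity : 0 ≤ h / 2)
    rw [e1] at h1 h3
    linarith
  obtain ⟨-, h2, -⟩ := H.touch μ hh hτ0 thin low hpos
  have := hFe y1
  linarith

/-- **The support of `v_k`.** -/
theorem Chain.support (μ : Measure E) [μ.IsAddHaarMeasure] (H : Chain V h G) (hh : 0 < h)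
    (hτ0 : ∀ y, 0 ≤ τ y)
    (thin : ∀ y r, 0 < r → τ y ≤ r → μ (V ∩ ball y r)
      < ENNReal.ofReal ((h / (4 * (1 + h))) ^ Module.finrank ℝ E) * μ (ball y r))
    {k : ℕ} {y0 : E} (hv : G k y0 ≠ G 0 y0) :
    ∃ y1 w, w ∈ V ∧ 0 < τ y1 ∧ ‖y1 - y0‖ ^ 2 < 2 * τ y1 ^ 2 ∧ dist y1 w < τ y1 := by
  have hv0 : 0 < G 0 y0 - G k y0 := by
    rcases (H.le_zero k y0).lt_or_eq with h1 | h1
    · linarith
    · exact absurd h1 hv
  obtain ⟨C, hC0, hC⟩ := H.bddv k
  set F : E → ℝ := fun y => G 0 y - G k y - h / 4 * ‖y - y0‖ ^ 2 with hF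
  have hFc : Continuous F := by
    have h0 := H.cont 0
    have hk := H.cont k
    simp only [hF]
    fun_prop
  have hmax : ∃ y1, ∀ y, F y ≤ F y1 := by
    set R : ℝ := 4 * (C + 1) / h + 1 with hR
    have hR1 : 1 ≤ R := by
      have : (0 : ℝ) ≤ 4 * (C + 1) / h := by positivity
      linarith
    obtain ⟨y1, hy1, hm⟩ := (isCompact_closedBall y0 R).exists_isMaxOn
      ⟨y0, mem_closedBall_self (by linarith)⟩ hFc.continuousOn
    refine ⟨y1, fun y => ?_⟩
    by_cases hy : y ∈ closedBall y0 R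
    · exact hm hy
    · have h1 : R < ‖y - y0‖ := by
        rw [mem_closedBall, dist_eq_norm, not_le] at hy; exact hy
      have h2 : F y0 ≤ F y1 := hm (mem_closedBall_self (by linarith))
      have h3 : F y ≤ F y0 := by
        simp only [hF]
        rw [sub_self, norm_zero]
        have h4 := hC y
        have h5 : h * R ≤ h * ‖y - y0‖ := mul_le_mul_of_nonneg_left h1.le hh.le
        have h6 : h * R = 4 * (C + 1) + h := by rw [hR]; field_simp
        have h7 : ‖y - y0‖ ≤ ‖y - y0‖ ^ 2 := by nlinarith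
        nlinarith
      exact h3.trans h2
  obtain ⟨y1, hy1⟩ := hmax
  have hv1 : G 0 y0 - G k y0 + h / 4 * ‖y1 - y0‖ ^ 2 ≤ G 0 y1 - G k y1 := by
    have := hy1 y0
    simp only [hF] at this
    rw [sub_self, norm_zero] at this
    linarith
  have hv1pos : 0 < G 0 y1 - G k y1 := by
    have : 0 ≤ h / 4 * ‖y1 - y0‖ ^ 2 := by positivity
    linarith
  have low : ∀ y, G k y1 + inner ℝ (h • y1 - (h / 2) • (y1 - y0)) (y - y1)
      + (h / 2) / 2 * ‖y - y1‖ ^ 2 ≤ G k y := by
    intro y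
    have h1 := hy1 y
    simp only [hF] at h1
    rw [H.zero y, H.zero y1] at h1
    have e1 : ‖y‖ ^ 2 = ‖y1‖ ^ 2 + 2 * inner ℝ y1 (y - y1) + ‖y - y1‖ ^ 2 := by
      have : y = y1 + (y - y1) := by abel
      conv_lhs => rw [this]
      rw [norm_add_sq_real]
    have e2 : ‖y - y0‖ ^ 2 = ‖y1 - y0‖ ^ 2 + 2 * inner ℝ (y1 - y0) (y - y1) + ‖y - y1‖ ^ 2 := by
      have : y - y0 = (y1 - y0) + (y - y1) := by abel
      conv_lhs => rw [this]
      rw [norm_add_sq_real]
    rw [e1, e2] at h1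
    rw [inner_sub_left, real_inner_smul_left, real_inner_smul_left]
    linarith
  obtain ⟨h1, h2, w, hw, hwd⟩ := H.touch μ hh hτ0 thin low hv1pos
  refine ⟨y1, w, hw, h1, ?_, hwd⟩
  have h3 : h / 4 * ‖y1 - y0‖ ^ 2 < h / 4 * (2 * τ y1 ^ 2) := by linarith
  exact lt_of_mul_lt_mul_left h3 (by positivity)

end Meas

end Vale.Agent.P073.H582.Col
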