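import Vale.Agent.P073.H582.E2c
import Vale.Agent.P073.H304.R1CostB
import Vale.Agent.P073.H304.R1Deep
import Vale.Agent.P073.H696.BSpec2

/-!
# P073, block B09, [SUM]: the mesh sums of Round 2
-/

open Set Metric Topology Filter MeasureTheory
open scoped ENNReal

namespace Vale.Agent.P073.H582

open Vale.Agent.P073
open Vale.Agent.P073.St (V Mat)
open Vale.Agent.P073.SQ (ev)
open Vale.Agent.P073.AB Vale.Agent.P073.AB.P86
open Vale.Agent.P073.H73 (MinEdge segP onSeg)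
open Vale.Agent.P073.H194 (cellT)
open Vale.Agent.P073.H687
open Vale.Agent.P073.H803 (meshsum)
open Vale.Agent.P073.H851 (M3 LocLip)
open Vale.Agent.P073.H696
open _root_.P073 (ConHomeo)
open _root_.P073.Net (dyc dyo len)

/-- **[LIPSUM]** -/
theorem specLipSum {p : ℝ} (hp : 1 ≤ p) : SpecLipSum p (24 * 4 ^ p) := by
  intro Ω v I h L q hΩ hI hq hL hlip
  have h1 := H304.meshsum_le_lip (p := p) hp hΩ hI
    (ℓ := fun e => len (onSeg h (segP v e)) (Icc 0 1)) hq (K := ENNReal.ofReal (2 * L))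
    fun e _ heq => H304.elen_le_lip hL heq hlip
  refine le_trans h1 ?_
  rw [volume_dyc, ENNReal.ofReal_rpow_of_nonneg (by positivity) (by linarith)]
  gcongr ?_ * _
  rw [← ENNReal.ofReal_ofNat, ← ENNReal.ofReal_mul (by norm_num)]
  apply ENNReal.ofReal_le_ofReal
  rw [Real.mul_rpow (by norm_num) hL, mul_assoc]
  gcongr
  norm_num

namespace R2

variable {p Cu : ℝ} {Lc : M3 → ℝ} {δ : ℝ} {j : ℕ} {ε : ℝ} {Ω Λ : Set V} {f : V → V} {F : V → Mat}
  {v : V}

/-- the length of an edge whose image is off the cores -/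
theorem ell_le (X : H696.R2 p Cu Lc δ j ε Ω Λ f F v) {e : Idx × Fin 3} (he : edge v e ⊆ Ω)
    (hc : ∀ y ∈ edge v e, X.h₁.toFun y ∉ X.Core) :
    X.ℓ e ≤ ENNReal.ofReal (2 * Cu) * H304.elen X.h₁.toFun v e := by
  have hseg : ∀ t ∈ Icc (0:ℝ) 1, (segP v e).1 + t • ((segP v e).2 - (segP v e).1) ∈ edge v e := by
    intro t ht
    show _ ∈ segment ℝ _ _
    rw [segment_eq_image']
    exact ⟨t, ht, rfl⟩
  have hcont : ContinuousOn (onSeg X.h₁.toFun (segP v e)) (Icc 0 1) := by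
    refine X.h₁.cont.comp (by fun_prop) fun t ht => he (hseg t ht)
  have h1 := H851.len_le_of_locLip (f := X.Tt.toFun) zero_le_one hcont
    (L := Cu) (by linarith [X.hCu]) fun t ht =>
      X.tg.lip0 _ (X.h₁.mapsTo (he (hseg t ht))) (hc _ (hseg t ht))
  exact h1

theorem ref (X : H696.R2 p Cu Lc δ j ε Ω Λ f F v) {ng : Idx → ℕ} (hG : X.Geo ng) :
    Ref v X.I₁ X.S (X.I₂ ng) where
  sub := X.st.sub
  keep := fun q hq hS => Or.inl (Or.inl ⟨hq, hS⟩)
  fine := by
    rintro q ((hq | hq) | ⟨q', hq', h1, h2, h3⟩) hn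
    · exact absurd hq hn
    · obtain ⟨-, q', hq', h1, -⟩ := hG.cell q hq
      exact ⟨q', hq', h1⟩
    · exact ⟨q', hq', h2⟩

theorem speed_pow (hp : 1 ≤ p) (hCu : 1 ≤ Cu) {C : ℝ} (hC : 0 ≤ C) (m : ℕ) :
    ENNReal.ofReal (4 * Cu * C) ^ p * ENNReal.ofReal (1 / 2 ^ m) =
      ENNReal.ofReal ((4 * Cu) ^ p) * ENNReal.ofReal (C ^ p / 2 ^ m) := by
  rw [ENNReal.ofReal_rpow_of_nonneg (by positivity) (by linarith), Real.mul_rpow (by positivity) hC,
    ← ENNReal.ofReal_mul (by positivity), ← ENNReal.ofReal_mul (by positivity)]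
  congr 1
  ring

/-- **[SUM1]** -/
theorem specSum1 (hp : 1 ≤ p) (X : H696.R2 p Cu Lc δ j ε Ω Λ f F v) :
    X.SpecSum1 (16 * 4 ^ p) := by
  intro ng hG q hq
  have hΩ : IsOpen Ω := X.hΩ.1
  have hCu := X.hCu
  have hp0 : 0 ≤ p := by linarith
  have hqΩ : dyc v q.1 q.2 ⊆ Ω := X.st.part.sub q hq.1
  have hell : ∀ e, edge v e ⊆ dyc v q.1 q.2 →
      X.ℓ e ≤ ENNReal.ofReal (2 * Cu) * H304.elen X.h₁.toFun v e := fun e he =>
    ell_le X (he.trans hqΩ) fun y hy => (hG.off q hq y (he hy)).1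
  have hlip : ∀ {A : Set V} {C : ℝ}, 0 ≤ C → A ⊆ dyc v q.1 q.2 →
      (∀ a ∈ A, ∀ b ∈ A, ‖X.h₁.toFun a - X.h₁.toFun b‖ ≤ C * ‖a - b‖) → ∀ e, edge v e ⊆ A →
      X.ℓ e ≤ ENNReal.ofReal (4 * Cu * C) * ENNReal.ofReal (1 / 2 ^ e.1.1) := by
    intro A C hC hA hl e he
    refine (hell e (he.trans hA)).trans ?_
    calc ENNReal.ofReal (2 * Cu) * H304.elen X.h₁.toFun v e
        ≤ ENNReal.ofReal (2 * Cu) * (ENNReal.ofReal (2 * C) * ENNReal.ofReal (1 / 2 ^ e.1.1)) := by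
          gcongr
          exact H304.elen_le_lip hC he hl
      _ = _ := by
          rw [← mul_assoc, ← ENNReal.ofReal_mul (by positivity)]
          congr 2
          ring
  have key := passive_sum hp (ref X hG) hΩ X.st.part hG.part hq.1 hq.2 (ℓ := X.ℓ) (H := X.H)
    (E₀ := ENNReal.ofReal ((4 * Cu) ^ p) * ENNReal.ofReal (X.Eq q)) (t := X.tol q) ?_ ?_ ?_
  · refine key.trans (le_of_eq ?_)
    have e1 : ENNReal.ofReal (16 * 4 ^ p * Cu ^ p) = 16 * ENNReal.ofReal ((4 * Cu) ^ p) := by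
      rw [Real.mul_rpow (by norm_num) (by linarith), mul_assoc, ENNReal.ofReal_mul (by norm_num),
        ENNReal.ofReal_ofNat]
    rw [e1]
    show 16 * (ENNReal.ofReal ((4 * Cu) ^ p) * ENNReal.ofReal (X.Eq q) *
      (cellT v X.I₁ univ X.H q + nSq v X.I₁ q * X.tol q)) = _
    ring
  · intro E hE hE' hEq
    calc ENNReal.ofReal ((1 / 2 ^ E.1.1) ^ (1 - p)) * X.ℓ E ^ p
        ≤ ENNReal.ofReal ((1 / 2 ^ E.1.1) ^ (1 - p)) *
          (ENNReal.ofReal (4 * Cu) * H304.elen X.h₁.toFun v E) ^ p := by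
          gcongr
          refine (hell E hEq).trans ?_
          gcongr
          linarith
      _ = ENNReal.ofReal ((4 * Cu) ^ p) * (ENNReal.ofReal ((1 / 2 ^ E.1.1) ^ (1 - p)) *
          H304.elen X.h₁.toFun v E ^ p) := by
          rw [ENNReal.mul_rpow_of_nonneg _ _ hp0,
            ENNReal.ofReal_rpow_of_nonneg (by positivity) hp0]
          ring
      _ ≤ ENNReal.ofReal ((4 * Cu) ^ p) * (ENNReal.ofReal (X.Eq q) *
          (eInt v E X.H + X.tol q)) := by
          gcongr ENNReal.ofReal ((4 * Cu) ^ p) * ?_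
          exact X.st.elen q hq E hE hEq
      _ = _ := by ring
  · intro E hE hEq hS
    obtain ⟨C, hC, hl, hC'⟩ := X.st.elip q hq E hE hEq hS
    refine ⟨ENNReal.ofReal (4 * Cu * C), fun e _ he => hlip hC hEq hl e he, ?_⟩
    rw [speed_pow hp hCu hC, mul_assoc]
    gcongr
  · intro s hs hsq hS
    obtain ⟨C, hC, hl, hC'⟩ := X.st.face q hq s hs hsq hS
    refine ⟨ENNReal.ofReal (4 * Cu * C), fun e _ he => hlip hC hsq hl e he, ?_⟩
    rw [speed_pow hp hCu hC, mul_assoc]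
    gcongr

/-- the affine map of the box -/
theorem am_eq (f : V → V) (F : V → Mat) (x : Idx → V) (k : Idx) (y : V) :
    Matrix.mulVec (Mx F x k) y + H696.bx f F x k = am f F (x k) y := by
  have h1 : ∀ w : V, cl (F (x k)) w = Matrix.mulVec (Mx F x k) w := fun w => rfl
  show _ = f (x k) + cl (F (x k)) (y - x k)
  rw [map_sub, h1, h1]
  show Matrix.mulVec (Mx F x k) y + (f (x k) - Matrix.mulVec (Mx F x k) (x k)) = _
  abel

theorem deep_sub {c : ℝ} (hc : 0 ≤ c) {n : Idx → ℕ} {k : Idx} (hn : k.1 ≤ n k) :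
    deep v n c k ⊆ dyc v k.1 k.2 := by
  refine iUnion₂_subset fun z hz => ?_
  have h1 : closedBall (H73.ctr v (n k) z) ((1 - 2 * c) / 2 / 2 ^ n k) ⊆ dyc v (n k) z := by
    rw [H304.dyc_eq_closedBall]
    refine closedBall_subset_closedBall ?_
    gcongr
    linarith
  refine h1.trans (_root_.P073.Net.NC.dyc_sub fun i => ?_)
  have hz' := hz i
  obtain ⟨d, hd⟩ := Nat.exists_eq_add_of_le hn
  have e0 : n k - k.1 = d := by omega
  rw [e0] at hz'
  have e1 : (2:ℝ) ^ n k = 2 ^ k.1 * 2 ^ d := by rw [hd, pow_add]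
  have hp : (0:ℝ) < 2 ^ k.1 := by positivity
  have hq : (0:ℝ) < 2 ^ d := by positivity
  have a1 : (2:ℤ) ^ d * k.2 i ≤ z i := by linarith [hz'.1]
  have a2 : z i + 1 ≤ (2:ℤ) ^ d * (k.2 i + 1) := by linarith [hz'.2]
  have b1 : (2:ℝ) ^ d * k.2 i ≤ z i := by exact_mod_cast a1
  have b2 : (z i : ℝ) + 1 ≤ (2:ℝ) ^ d * (k.2 i + 1) := by exact_mod_cast a2
  rw [e1]
  constructor
  · rw [div_le_div_iff₀ hp (by positivity)]
    nlinarith
  · rw [div_le_div_iff₀ (by positivity) hp]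
    nlinarith

theorem deep_anti {c c' : ℝ} (h : c ≤ c') (n : Idx → ℕ) (k : Idx) :
    deep v n c' k ⊆ deep v n c k := by
  refine iUnion₂_mono fun z _ => closedBall_subset_closedBall ?_
  gcongr

/-- boxes with a common point of which it is an inner point in one of them -/
theorem box_eq (X : H696.R2 p Cu Lc δ j ε Ω Λ f F v) {k k' : Idx} (hk : k ∈ X.K) (hk' : k' ∈ X.K)
    {x : V} (hx : x ∈ dyc v k.1 k.2) (hx' : x ∈ dyo v k'.1 k'.2) : k' = k := by
  by_contra hne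
  have h1 : x ∈ closure (dyo v k.1 k.2) := by
    rw [← H194.interior_dyc, (H194.poly_dyc v k.1 k.2).closure_interior]
    exact hx
  have ho : IsOpen (dyo v k'.1 k'.2) := by
    rw [← H194.interior_dyc]; exact isOpen_interior
  obtain ⟨y, hy, hy'⟩ := mem_closure_iff_nhds.1 h1 _ (ho.mem_nhds hx')
  exact Set.disjoint_left.1 (X.disj k' hk' k hk hne) hy hy'

/-- a point of a box off the preimage of the cores -/
theorem notMem_core (X : H696.R2 p Cu Lc δ j ε Ω Λ f F v) {k : Idx} (hk : k ∈ X.K) {x : V}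
    (hx : x ∈ dyc v k.1 k.2) (hc : x ∉ X.core k) : X.h₁.toFun x ∉ X.Core := by
  have hkb := X.box k hk
  have hxΩ : x ∈ Ω := hkb.1 hx
  have hsub : ∀ k ∈ X.K, deep v X.n (3 * X.c₀ k) k ⊆ deep v X.n (2 * X.c₀ k) k := fun k hk =>
    deep_anti (by linarith [(X.box k hk).2.2.1]) _ _
  by_cases hD : x ∈ X.D k
  · intro h
    refine hc ⟨hD, ?_⟩
    have h1 := X.st.kept k hk x (hsub k hk hD)
    rw [h1] at h
    exact h
  · have hV : X.h₁.toFun x ∈ V0 Λ (fun k : {k // k ∈ X.K} => Mx F X.x k.1)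
        (fun k => H696.bx f F X.x k.1) (fun k => deep v X.n (3 * X.c₀ k.1) k.1) := by
      refine ⟨X.h₁.mapsTo hxΩ, fun k' x' hx' he => ?_⟩
      rw [am_eq] at he
      have hx'D := interior_subset hx'
      have hkb' := X.box k'.1 k'.2
      have hsub' := deep_sub (v := v) (n := X.n) (k := k'.1) (c := 3 * X.c₀ k'.1)
        (by linarith [hkb'.2.2.1]) (by linarith [hkb'.2.1])
      have h1 := X.st.kept k'.1 k'.2 x' (hsub k'.1 k'.2 hx'D)
      rw [← h1] at he
      have h2 : x' = x := X.h₁.injOn (hkb'.1 (hsub' hx'D)) hxΩ he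
      subst h2
      have h3 : x' ∈ dyo v k'.1.1 k'.1.2 := by
        rw [← H194.interior_dyc]
        exact interior_mono hsub' hx'
      have h4 := box_eq X hk k'.2 hx h3
      apply hD
      rw [← h4]
      exact hx'D
    intro h
    exact Set.disjoint_left.1 X.tg.coreV0 h hV

end R2

end Vale.Agent.P073.H582
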