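import Vale.Agent.P073.H235.ConSpec
import Vale.Agent.P073.H989.GenRed

/-!
# P073: small shifts of the middle plane and of the middle line: `(C5)`, `(C6)` of helper235's list
-/

namespace Vale.Agent.P073.H582

open MeasureTheory Set Filter Topology Metric Vale.Agent.P073.LOC Vale.Agent.P073.St
open Vale.Agent.P073.H235
open Vale.Agent.P073.AB (cl)
open Vale.Agent.P073.SQ (ev)
open scoped ENNReal ContDiff

/-- the box as a product -/
theorem bx_eq_pi (a : V) : Bx a = Set.pi univ fun i : Fin 3 => Ioo (0 : ℝ) (a i) := by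
  ext y
  exact ⟨fun h k _ => h k, fun h k => h k (mem_univ k)⟩

theorem measurableSet_bx (a : V) : MeasurableSet (Bx a) := by
  rw [bx_eq_pi]
  exact MeasurableSet.univ_pi fun _ => measurableSet_Ioo

theorem isOpen_bx (a : V) : IsOpen (Bx a) := by
  rw [bx_eq_pi]
  exact isOpen_set_pi finite_univ fun _ _ => isOpen_Ioo

theorem measurableSet_fr (a : V) (ν : ℝ) (J : Finset (Fin 3)) : MeasurableSet (Fr a ν J) := by
  have h : Fr a ν J = ⋃ i ∈ J, ({x : V | x i ≤ ν * a i} ∪ {x : V | (1 - ν) * a i ≤ x i}) := by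
    ext x
    simp [Fr]
  rw [h]
  refine MeasurableSet.biUnion J.countable_toSet fun i _ => ?_
  exact (measurableSet_le (measurable_pi_apply i) measurable_const).union
    (measurableSet_le measurable_const (measurable_pi_apply i))

theorem measurableSet_co (a : V) (ν : ℝ) (J : Finset (Fin 3)) : MeasurableSet (Co a ν J) := by
  have h : Co a ν J = ⋂ i ∈ J, ({x : V | ν / 4 * a i ≤ x i} ∩ {x : V | x i ≤ (1 - ν / 4) * a i}) := by
    ext x
    simp [Co]
  rw [h]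
  refine MeasurableSet.biInter J.countable_toSet fun i _ => ?_
  exact (measurableSet_le measurable_const (measurable_pi_apply i)).inter
    (measurableSet_le (measurable_pi_apply i) measurable_const)

/-- the derivative of a shifted map -/
theorem fderiv_shift {g ψ : V → V} {U : Set V} {w y : V} (hU : IsOpen U)
    (hψ : ∀ x ∈ U, ψ x = x + w) (hy : y ∈ U) :
    fderiv ℝ (fun x => g (ψ x)) y = fderiv ℝ g (y + w) := by
  have h1 : (fun x => g (ψ x)) =ᶠ[𝓝 y] fun x => g (x + w) := by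
    filter_upwards [hU.mem_nhds hy] with x hx
    rw [hψ x hx]
  rw [h1.fderiv_eq, fderiv_comp_add_right]

/-- monotonicity of the energy -/
theorem en_mono {p : ℝ} {g : V → V} {J : Finset (Fin 3)} {S T : Set V} (h : S ⊆ T) :
    En p g J S ≤ En p g J T :=
  Finset.sum_le_sum fun _ _ => lintegral_mono_set h

/-- the shifted map is close to `f` near the boundary -/
theorem bdClose_shift {Ω K : Set V} {f g ψ : V → V} (hK : IsCompact K) (hKΩ : K ⊆ Ω)
    (hψ : ∀ x ∉ K, ψ x = x) (h : BdClose Ω f g) : BdClose Ω f (fun x => g (ψ x)) := by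
  intro δ hδ
  obtain ⟨K', h1, h2, h3⟩ := h δ hδ
  refine ⟨K ∪ K', union_subset hKΩ h1, hK.union h2, fun x hx => ?_⟩
  show ‖g (ψ x) - f x‖ ≤ δ
  rw [hψ x fun h => hx.2 (Or.inl h)]
  exact h3 x ⟨hx.1, fun h => hx.2 (Or.inr h)⟩

/-- a compact rectangle -/
theorem isCompact_rect (a b : V) : IsCompact {x : V | ∀ i, a i ≤ x i ∧ x i ≤ b i} := by
  have : {x : V | ∀ i, a i ≤ x i ∧ x i ≤ b i} = Icc a b := by
    ext x
    exact ⟨fun h => ⟨fun i => (h i).1, fun i => (h i).2⟩, fun h i => ⟨h.1 i, h.2 i⟩⟩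
  rw [this]
  exact isCompact_Icc

theorem fr_shift {a x y : V} {ν t : ℝ} {J : Finset (Fin 3)} (hx : x ∈ Fr a ν J)
    (h : ‖y - x‖ ≤ t) (ht : ∀ i ∈ J, t ≤ ν * a i) : y ∈ Fr a (2 * ν) J := by
  obtain ⟨i, hi, h1⟩ := hx
  refine ⟨i, hi, ?_⟩
  have h2 : |y i - x i| ≤ t := (norm_le_pi_norm (y - x) i).trans h
  have h3 := abs_le.1 h2
  have h4 := ht i hi
  rcases h1 with h1 | h1
  · left; linarith
  · right; linarith

/-- the output of smoothing, rank two: a diffeomorphism, the middle plane is `x 2 = c` -/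
def OutC1 (p C θ ν τ ε : ℝ) (L : V →L[ℝ] V) (Λ : Set V) (f : V → V) : Prop :=
  ∃ (c : ℝ) (g : V → V), |c - θ| ≤ τ ∧ St.IsDiffeo (Bx (fl θ)) Λ g ∧
    BdClose (Bx (fl θ)) (cmp (fl θ) f) g ∧
    En p g Finset.univ (Bx (fl θ)) ≤ ENNReal.ofReal (C * θ) ∧
    En p g Finset.univ (Bx (fl θ) ∩ Fr (fl θ) (2 * ν) {0, 1}) ≤ ENNReal.ofReal (C * ν * θ) ∧
    ∑ j ∈ Finset.univ.erase (2 : Fin 3), ∫⁻ x in Bx 1 ∩ Co 1 (ν / 2) {0, 1},
      ENNReal.ofReal (‖fderiv ℝ g (Function.update x 2 c) (ev j) - L (ev j)‖ ^ p) ≤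
        ENNReal.ofReal ε

/-- the output of smoothing exists -/
def SpecOutC1 (p : ℝ) (L : V →L[ℝ] V) : Prop :=
  ∃ C > 0, ∀ ν, 0 < ν → ν ≤ 1 / 4 → ∃ θ₀ > 0, ∀ θ, 0 < θ → θ ≤ θ₀ → ∀ τ > 0, τ < θ → ∀ ε > 0,
    ∃ κ > 0, ∀ (Λ : Set V) (f : V → V) (F : V → Mat), Near p κ L Λ f F → OutC1 p C θ ν τ ε L Λ f

/-- **small shift of the middle plane**, every exponent -/
theorem specFlat_of_outC1 {p : ℝ} {L : V →L[ℝ] V} (hp : 1 ≤ p) (hC3 : SpecC3)
    (h : SpecOutC1 p L) : SpecFlat p L := by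
  obtain ⟨C, hC, h⟩ := h
  have hE : 0 < (8 : ℝ) ^ p * 8 := by positivity
  refine ⟨8 ^ p * 8 * C, by positivity, fun ν hν hν4 => ?_⟩
  obtain ⟨θ₀, hθ₀, h⟩ := h ν hν hν4
  refine ⟨θ₀, hθ₀, fun θ hθ hθle ε hε => ?_⟩
  have ha : ∀ i, 0 < fl θ i := by
    intro i
    fin_cases i <;> simp [fl, hθ]
  set K₀ : Set V := {x : V | ∀ i, ![ν / 4, ν / 4, θ] i ≤ x i ∧ x i ≤ ![1 - ν / 4, 1 - ν / 4, θ] i}
    with hK₀
  have hK₀c : IsCompact K₀ := isCompact_rect _ _
  have hK₀s : K₀ ⊆ Bx (fl θ) := by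
    intro x hx i
    have h0 := hx 0
    have h1 := hx 1
    have h2 := hx 2
    simp at h0 h1 h2
    fin_cases i
    · simp [fl]; constructor <;> linarith
    · simp [fl]; constructor <;> linarith
    · simp [fl]; constructor <;> linarith
  obtain ⟨K, hKs, hK, τ₀, hτ₀, hψ⟩ := hC3 (fl θ) ha K₀ hK₀s hK₀c
  set τ : ℝ := min (min τ₀ (θ / 2)) ν with hτ
  have hτ0 : 0 < τ := lt_min (lt_min hτ₀ (by positivity)) hν
  have hτ1 : τ ≤ τ₀ := (min_le_left _ _).trans (min_le_left _ _)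
  have hτ2 : τ ≤ θ / 2 := (min_le_left _ _).trans (min_le_right _ _)
  have hτ3 : τ ≤ ν := min_le_right _ _
  obtain ⟨κ, hκ, h⟩ := h θ hθ hθle τ hτ0 (by linarith) ε hε
  refine ⟨κ, hκ, fun Λ f F hf => ?_⟩
  obtain ⟨c, g, hc, hg, hgb, hg1, hg2, hg3⟩ := h Λ f F hf
  set w : V := (c - θ) • ev 2 with hw
  have hwn : ‖w‖ ≤ τ := by
    rw [hw, norm_smul, Real.norm_eq_abs]
    have : ‖(ev 2 : V)‖ ≤ 1 := by
      refine (pi_norm_le_iff_of_nonneg zero_le_one).2 fun i => ?_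
      fin_cases i <;> simp [ev]
    calc |c - θ| * ‖(ev 2 : V)‖ ≤ |c - θ| * 1 := by gcongr
      _ ≤ τ := by linarith
  obtain ⟨ψ, hψd, ⟨U, hU, hKU, hψU⟩, hψK, hψn, hψE⟩ := hψ w (hwn.trans hτ1)
  have hψm : ∀ S : Set V, S ⊆ Bx (fl θ) → ψ '' S ⊆ Bx (fl θ) := by
    rintro S hS _ ⟨x, hx, rfl⟩
    obtain ⟨k, ⟨h1, -⟩, -⟩ := hψd
    exact (h1 x (hS hx)).1
  have hgs : ContDiffOn ℝ ∞ g (Bx (fl θ)) := AB.diffeo_smooth hg
  refine ⟨fun x => g (ψ x), ?_, bdClose_shift hK hKs hψK hgb, ?_, ?_, ?_⟩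
  · exact AB.isDiffeo_comp hψd hg
  · refine (hψE p g _ hp (measurableSet_bx _) subset_rfl hgs).trans ?_
    calc ENNReal.ofReal (8 ^ p * 8) * En p g Finset.univ (ψ '' Bx (fl θ))
        ≤ ENNReal.ofReal (8 ^ p * 8) * ENNReal.ofReal (C * θ) := by
          gcongr
          exact (en_mono (hψm _ subset_rfl)).trans hg1
      _ = _ := by
          rw [← ENNReal.ofReal_mul hE.le]
          congr 1
          ring
  · refine (hψE p g _ hp ((measurableSet_bx _).inter (measurableSet_fr _ _ _))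
      inter_subset_left hgs).trans ?_
    have hsub : ψ '' (Bx (fl θ) ∩ Fr (fl θ) ν {0, 1}) ⊆
        Bx (fl θ) ∩ Fr (fl θ) (2 * ν) {0, 1} := by
      refine subset_inter (hψm _ inter_subset_left) ?_
      rintro _ ⟨x, hx, rfl⟩
      refine fr_shift hx.2 ((hψn x).trans (hwn.trans hτ3)) fun i hi => ?_
      simp only [Finset.mem_insert, Finset.mem_singleton] at hi
      rcases hi with rfl | rfl <;> simp [fl]
    calc ENNReal.ofReal (8 ^ p * 8) * En p g Finset.univ (ψ '' (Bx (fl θ) ∩ Fr (fl θ) ν {0, 1}))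
        ≤ ENNReal.ofReal (8 ^ p * 8) * ENNReal.ofReal (C * ν * θ) := by
          gcongr
          exact (en_mono hsub).trans hg2
      _ = _ := by
          rw [← ENNReal.ofReal_mul hE.le]
          congr 1
          ring
  · have hmeas : MeasurableSet (Bx 1 ∩ Co 1 ν {0, 1}) :=
      (measurableSet_bx _).inter (measurableSet_co _ _ _)
    refine le_trans (Finset.sum_le_sum fun j _ => ?_) hg3
    calc ∫⁻ x in Bx 1 ∩ Co 1 ν {0, 1}, ENNReal.ofReal
          (‖fderiv ℝ (fun x => g (ψ x)) (Function.update x 2 θ) (ev j) - L (ev j)‖ ^ p)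
        = ∫⁻ x in Bx 1 ∩ Co 1 ν {0, 1}, ENNReal.ofReal
          (‖fderiv ℝ g (Function.update x 2 c) (ev j) - L (ev j)‖ ^ p) := by
          refine setLIntegral_congr_fun hmeas fun x hx => ?_
          have hx0 := hx.2 0 (by simp)
          have hx1 := hx.2 1 (by simp)
          simp at hx0 hx1
          have hxK : Function.update x 2 θ ∈ K₀ := by
            intro i
            fin_cases i
            · simpa using hx0
            · simpa using hx1
            · simp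
          have e1 : Function.update x 2 θ + w = Function.update x 2 c := by
            funext i
            fin_cases i <;> simp [hw, ev]
          show ENNReal.ofReal (‖fderiv ℝ (fun x => g (ψ x)) (Function.update x 2 θ) (ev j) -
            L (ev j)‖ ^ p) = _
          rw [fderiv_shift hU hψU (hKU hxK), e1]
      _ ≤ _ := by
          refine lintegral_mono_set fun x hx => ⟨hx.1, fun i hi => ?_⟩
          have := hx.2 i hi
          simp only [Pi.one_apply, mul_one] at this ⊢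
          constructor <;> linarith

/-- **(C5)** assembly, rank two -/
theorem specC5 : SpecC5 := by
  intro p L hp hp3 hC1 hC3 hCF
  obtain ⟨D, hD, hC1⟩ := hC1 p hp hp3
  obtain ⟨C, hC, hCF⟩ := hCF
  refine specFlat_of_outC1 hp hC3 ⟨D * C, by positivity, fun ν hν hν4 => ?_⟩
  obtain ⟨θ₀, hθ₀, hCF⟩ := hCF ν hν hν4
  refine ⟨θ₀, hθ₀, fun θ hθ hθle τ hτ hτθ ε hε => ?_⟩
  obtain ⟨κ, hκ, hCF⟩ := hCF θ hθ hθle τ hτ (ε / D) (div_pos hε hD)
  refine ⟨κ, hκ, fun Λ f F hf => ?_⟩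
  have h1 := hC1 C θ ν τ (ε / D) L Λ f hC hθ hν hν4 hτθ (div_pos hε hD) hf.dom hf.cont
    (hCF Λ f F hf)
  have hD' : D * (ε / D) = ε := by field_simp
  rw [hD'] at h1
  exact h1

end Vale.Agent.P073.H582
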