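import Vale.Agent.P073.H233.Tail3E

/-!
# P073, H582: **[TOP-E]**, the tiny numbers of the edges in the slots (1) and (3) of `exists_chain`

* `exists_edge_le`: a positive number for every edge below given positive numbers of the edge, of
  all faces and of all cells which contain it;
* `exists_box_le`: the same for the boxes, with finitely many demands at each of them;
* `exists_epsE1`: the numbers `εe` of ROUND T (slot (1));
* `exists_epsE3`: the numbers `εE` of the levels of ROUND P (slot (3)).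
-/

open Set

namespace Vale.Agent.P073.H582

open _root_.P073 _root_.P073.Net _root_.P073.PA691
open Vale.Agent.P073.St (V)
open Vale.Agent.P073.H73 (Mesh)
open Vale.Agent.P073.H193 (Edges edges)
open Vale.Agent.P073.H233 (Tol finite_cells_edge finite_faces_edge)

variable {Ω : Set V} {M : Mesh Ω}

/-- **a positive number for every edge**, below the numbers `g` of the edge, `γ` of its faces and
`q` of its cells -/
theorem exists_edge_le (M : Mesh Ω) {g : (edges M).ε → ℝ} (hg : ∀ e, 0 < g e) {γ : M.κ → ℝ}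
    (hγ : ∀ k, 0 < γ k) {q : M.ι → ℝ} (hq : ∀ i, 0 < q i) :
    ∃ x : (edges M).ε → ℝ, (∀ e, 0 < x e) ∧ (∀ e, x e ≤ g e) ∧
      (∀ k e, (edges M).seg e ⊆ M.F k → x e ≤ γ k) ∧
      ∀ i e, (edges M).seg e ⊆ M.Q i → x e ≤ q i := by
  obtain ⟨m₁, h1, h1'⟩ := Vale.Agent.P073.H669.exists_le_of_finite
    (R := fun (e : (edges M).ε) k => (edges M).seg e ⊆ M.F k) (finite_faces_edge M) hγ
  obtain ⟨m₂, h2, h2'⟩ := Vale.Agent.P073.H669.exists_le_of_finite
    (R := fun (e : (edges M).ε) i => (edges M).seg e ⊆ M.Q i) (finite_cells_edge M) hq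
  exact ⟨fun e => min (g e) (min (m₁ e) (m₂ e)), fun e => lt_min (hg e) (lt_min (h1 e) (h2 e)),
    fun e => min_le_left _ _,
    fun k e he => ((min_le_right _ _).trans (min_le_left _ _)).trans (h1' e k he),
    fun i e he => ((min_le_right _ _).trans (min_le_right _ _)).trans (h2' e i he)⟩

/-- **a positive number for every index `b`**, below its own number `g b` and below the numbers
`f i` of the finitely many `i` related to it -/
theorem exists_box_le {β ι : Type*} {R : β → ι → Prop} (hR : ∀ b, {i | R b i}.Finite)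
    {g : β → ℝ} (hg : ∀ b, 0 < g b) {f : ι → ℝ} (hf : ∀ i, 0 < f i) :
    ∃ x : β → ℝ, (∀ b, 0 < x b) ∧ (∀ b, x b ≤ g b) ∧ ∀ b i, R b i → x b ≤ f i := by
  obtain ⟨m, h1, h1'⟩ := Vale.Agent.P073.H669.exists_le_of_finite hR hf
  exact ⟨fun b => min (g b) (m b), fun b => lt_min (hg b) (h1 b), fun b => min_le_left _ _,
    fun b i hb => (min_le_right _ _).trans (h1' b i hb)⟩

/-- the image of an edge is not a point -/
theorem chord_pos {h : V → V} (hinj : InjOn h Ω) (e : (edges M).ε) :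
    0 < ‖h ((edges M).b e) - h ((edges M).a e)‖ :=
  norm_pos_iff.2 (sub_ne_zero.2 fun H => (edges M).ne e
    (hinj ((edges M).seg_sub_Ω e (right_mem_segment ℝ _ _))
      ((edges M).seg_sub_Ω e (left_mem_segment ℝ _ _)) H).symm)

variable {h : V → V} {ε : M.κ → ℝ} {om εL : (edges M).ε → ℝ} {lam osc : M.ι → ℝ}

/-- **slot (1)**: the numbers `εe` of ROUND T, with arbitrary further demands `g`, `γ`, `q` of the
edges, of the faces and of the cells -/
theorem exists_epsE1 (hinj : InjOn h Ω) (T : Tol M h ε om εL lam osc)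
    {g : (edges M).ε → ℝ} (hg : ∀ e, 0 < g e) {γ : M.κ → ℝ} (hγ : ∀ k, 0 < γ k) {q : M.ι → ℝ}
    (hq : ∀ i, 0 < q i) :
    ∃ εe : (edges M).ε → ℝ, (∀ e, 0 < εe e) ∧
      (∀ e, εe e ≤ ‖h ((edges M).b e) - h ((edges M).a e)‖) ∧ (∀ e, εe e ≤ om e / 16) ∧
      (∀ k e, (edges M).seg e ⊆ M.F k → 8 * εe e ≤ ε k) ∧ (∀ e, εe e ≤ g e) ∧
      (∀ k e, (edges M).seg e ⊆ M.F k → εe e ≤ γ k) ∧
      ∀ i e, (edges M).seg e ⊆ M.Q i → εe e ≤ q i := by
  obtain ⟨x, h0, h1, h2, h3⟩ := exists_edge_le M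
    (g := fun e => min (min ‖h ((edges M).b e) - h ((edges M).a e)‖ (om e / 16)) (g e))
    (fun e => lt_min (lt_min (chord_pos hinj e) (div_pos (T.om_pos e) (by norm_num))) (hg e)) hγ hq
  have h4 : ∀ e, x e ≤ om e / 16 := fun e =>
    ((h1 e).trans (min_le_left _ _)).trans (min_le_right _ _)
  exact ⟨x, h0, fun e => ((h1 e).trans (min_le_left _ _)).trans (min_le_left _ _), h4,
    fun k e he => by linarith [h4 e, T.om_le k e he, T.om_pos e],
    fun e => (h1 e).trans (min_le_right _ _), h2, h3⟩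

/-- **slot (3)**: the numbers `εE` of the levels of ROUND P -/
theorem exists_epsE3 (T : Tol M h ε om εL lam osc) {r : ℝ} (hr : 0 < r)
    {g : (edges M).ε → ℝ} (hg : ∀ e, 0 < g e) {γ : M.κ → ℝ} (hγ : ∀ k, 0 < γ k) {q : M.ι → ℝ}
    (hq : ∀ i, 0 < q i) :
    ∃ εE : (edges M).ε → ℝ, (∀ e, 0 < εE e) ∧ (∀ e, εE e ≤ om e / 16) ∧
      (∀ k e, (edges M).seg e ⊆ M.F k → 8 * (2 * εE e) ≤ ε k) ∧
      (∀ e, 4 * εE e ≤ r / 64 * ‖(edges M).b e - (edges M).a e‖) ∧ (∀ e, εE e ≤ g e) ∧
      (∀ k e, (edges M).seg e ⊆ M.F k → εE e ≤ γ k) ∧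
      ∀ i e, (edges M).seg e ⊆ M.Q i → εE e ≤ q i := by
  have hn : ∀ e, 0 < ‖(edges M).b e - (edges M).a e‖ := fun e =>
    norm_pos_iff.2 (sub_ne_zero.2 fun H => (edges M).ne e H.symm)
  obtain ⟨x, h0, h1, h2, h3⟩ := exists_edge_le M
    (g := fun e => min (min (om e / 16) (r / 256 * ‖(edges M).b e - (edges M).a e‖)) (g e))
    (fun e => lt_min (lt_min (div_pos (T.om_pos e) (by norm_num))
      (mul_pos (div_pos hr (by norm_num)) (hn e))) (hg e)) hγ hq
  have h4 : ∀ e, x e ≤ om e / 16 := fun e =>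
    ((h1 e).trans (min_le_left _ _)).trans (min_le_left _ _)
  have h5 : ∀ e, x e ≤ r / 256 * ‖(edges M).b e - (edges M).a e‖ := fun e =>
    ((h1 e).trans (min_le_left _ _)).trans (min_le_right _ _)
  exact ⟨x, h0, h4, fun k e he => by linarith [h4 e, T.om_le k e he, T.om_pos e],
    fun e => by linarith [h5 e], fun e => (h1 e).trans (min_le_right _ _), h2, h3⟩

end Vale.Agent.P073.H582
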