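import Vale.Agent.P073.H582.E2a

/-!
# P073, block B09, [E2]: sums over the minimal squares and edges of a subdivided partition
-/

open Set Metric Topology Filter MeasureTheory
open scoped ENNReal

namespace Vale.Agent.P073.H582

open Vale.Agent.P073
open Vale.Agent.P073.St (V)
open Vale.Agent.P073.SQ (ev)
open Vale.Agent.P073.AB Vale.Agent.P073.AB.P86
open Vale.Agent.P073.H73 (MinEdge segP)
open Vale.Agent.P073.H194 (cellT)
open Vale.Agent.P073.H687
open _root_.P073.Net (dyc dyo)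

variable {Ω : Set V} {v : V} {I I₁ I₂ S : Set Idx}

/-- regrouping -/
theorem sum_le_group {α β : Type*} (A : Finset α) (B : Finset β) (r : α → β → Prop)
    [∀ a b, Decidable (r a b)] (h : ∀ a ∈ A, ∃ b ∈ B, r a b) (f : α → ℝ≥0∞) :
    ∑ a ∈ A, f a ≤ ∑ b ∈ B, ∑ a ∈ A.filter fun a => r a b, f a := by
  calc ∑ a ∈ A, f a ≤ ∑ a ∈ A, ∑ b ∈ B, if r a b then f a else 0 := by
        refine Finset.sum_le_sum fun a ha => ?_
        obtain ⟨b, hb, hr⟩ := h a ha
        calc f a = if r a b then f a else 0 := by rw [if_pos hr]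
          _ ≤ _ := Finset.single_le_sum (f := fun b => if r a b then f a else 0)
            (fun _ _ => bot_le) hb
    _ = ∑ b ∈ B, ∑ a ∈ A, if r a b then f a else 0 := Finset.sum_comm
    _ = _ := Finset.sum_congr rfl fun b _ => by rw [Finset.sum_filter]

/-- a sum over a finset with at most one element -/
theorem sum_le_single {α : Type*} (A : Finset α) (f : α → ℝ≥0∞) (B : ℝ≥0∞)
    (h : ∀ a ∈ A, ∀ b ∈ A, a = b) (hB : ∀ a ∈ A, f a ≤ B) : ∑ a ∈ A, f a ≤ B := by
  rcases A.eq_empty_or_nonempty with h0 | ⟨a, ha⟩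
  · subst h0; simp
  · have h1 : A = {a} := by
      ext b
      rw [Finset.mem_singleton]
      exact ⟨fun hb => h b hb a ha, fun hb => hb ▸ ha⟩
    rw [h1, Finset.sum_singleton]
    exact hB a ha

theorem eInt_one (v : V) (e : Idx × Fin 3) :
    eInt v e (fun _ => 1) = ENNReal.ofReal (1 / 2 ^ e.1.1) := by
  unfold eInt
  simp

/-- the lengths of the minimal edges in an edge -/
theorem sum_len_le (hI : Part Ω v I) {E : Idx × Fin 3} {A : Finset (Idx × Fin 3)}
    (hA : ∀ e ∈ A, MinEdge v I e ∧ edge v e ⊆ edge v E) :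
    ∑ e ∈ A, ENNReal.ofReal (1 / 2 ^ e.1.1) ≤ ENNReal.ofReal (1 / 2 ^ E.1.1) := by
  have h1 := sum_eInt_le (v := v) (S := A) (e₀ := E) (fun e he => (hA e he).2)
    (fun e he e' he' hne x hx hx' => Gr.not_inner hI (hA e he).1 (hA e' he').1 hne hx hx')
    (fun _ => 1)
  simp_rw [eInt_one] at h1
  exact h1

/-- the lengths of the minimal edges in a minimal square -/
theorem sum_len_squ (hΩ : IsOpen Ω) (hI : Part Ω v I) {s : Idx × Fin 3} (hs : MinSq v I s) :
    ∑ e ∈ (finite_minEdge hI hs).toFinset, ENNReal.ofReal (1 / 2 ^ e.1.1) ≤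
      4 * ENNReal.ofReal (1 / 2 ^ s.1.1) := by
  have h1 := sum_minEdge_le hΩ hI hs (fun _ => 1)
  simp_rw [eInt_one] at h1
  refine h1.trans ?_
  have h2 : ∀ e ∈ sqE s, ENNReal.ofReal (1 / 2 ^ e.1.1) = ENNReal.ofReal (1 / 2 ^ s.1.1) := by
    intro e he
    rw [mem_sqE] at he
    rw [he.1]
  rw [Finset.sum_congr rfl h2, Finset.sum_const, nsmul_eq_mul]
  gcongr
  exact_mod_cast card_sqE_le s

theorem dir_of_squ {s t : Idx × Fin 3} (h : squ v s ⊆ squ v t) : s.2 = t.2 := by
  by_contra hne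
  have h1 : vectorSpan ℝ (squ v s) ≤ vectorSpan ℝ (squ v t) := vectorSpan_mono ℝ h
  rw [vectorSpan_squ, vectorSpan_squ] at h1
  have h2 : ev t.2 ∈ LinearMap.ker ((ContinuousLinearMap.proj s.2 : V →L[ℝ] ℝ) : V →ₗ[ℝ] ℝ) := by
    show ev t.2 s.2 = 0
    simp [ev, hne]
  have h3 : ev t.2 t.2 = 0 := h1 h2
  simp [ev] at h3

/-- squares with the same points are equal -/
theorem squ_inj {s t : Idx × Fin 3} (h : squ v s = squ v t) : s = t := by
  have hd := dir_of_squ h.le
  have h1 := squ_ineq hd h.le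
  have h2 := squ_ineq hd.symm h.ge
  obtain ⟨j, hj, -⟩ := fin3_third (s.2 + 1) s.2 (H194.fin3_ne1 s.2).symm
  have hg : s.1.1 = t.1.1 := by
    have a1 := h1.2 j (by rw [← hd]; exact hj)
    have a2 := h2.2 j hj
    rw [add_div, add_div] at a1 a2
    exact le_antisymm (H803.pow_le_of_div (by linarith [a1.1, a2.1, a1.2, a2.2]))
      (H803.pow_le_of_div (by linarith [a1.1, a2.1, a1.2, a2.2]))
  have hp : (0:ℝ) < 2 ^ t.1.1 := by positivity
  refine Prod.ext (Prod.ext hg ?_) hd
  funext k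
  by_cases hk : k = t.2
  · have a1 := h1.1
    rw [hg, div_left_inj' hp.ne', ← hk] at a1
    exact_mod_cast a1
  · have a1 := (h1.2 k hk).1
    have a2 := (h2.2 k (by rw [hd]; exact hk)).1
    rw [hg] at a1 a2
    have a3 := le_antisymm a2 a1
    rw [div_left_inj' hp.ne'] at a3
    exact_mod_cast a3

/-- the areas of the minimal squares in a square -/
theorem sum_area_le (hΩ : IsOpen Ω) (hI : Part Ω v I) {t : Idx × Fin 3}
    {A : Finset (Idx × Fin 3)} (hA : ∀ s ∈ A, MinSq v I s ∧ squ v s ⊆ squ v t) :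
    ∑ s ∈ A, ENNReal.ofReal ((1 / 2 ^ s.1.1) ^ 2) ≤ ENNReal.ofReal ((1 / 2 ^ t.1.1) ^ 2) := by
  have hp : (0:ℝ) < 1 / 2 ^ t.1.1 := by positivity
  have hdir : ∀ s ∈ A, s.2 = t.2 := fun s hs => dir_of_squ (hA s hs).2
  have hq : ∀ s ∈ A, _ := fun s hs => squ_ineq (hdir s hs) (hA s hs).2
  have hdisj : Set.PairwiseDisjoint (A : Set (Idx × Fin 3)) fun s => prism v t.1 s := by
    intro a ha b hb hab
    show Disjoint (prism v t.1 a) (prism v t.1 b)
    rw [Set.disjoint_left]
    intro x hxa hxb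
    apply hab
    have hda := hdir a ha
    have hdb := hdir b hb
    set y : V := Function.update x t.2 (v t.2 + (t.1.2 t.2 : ℝ) / 2 ^ t.1.1) with hy
    have key : ∀ s ∈ A, x ∈ prism v t.1 s → y ∈ rel v s := by
      intro s hs hxs
      have hd := hdir s hs
      refine ⟨?_, fun l hl => ?_⟩
      · rw [hd, hy, Function.update_self, (hq s hs).1]
      · rw [hy, Function.update_of_ne (by rw [← hd]; exact hl)]
        have h1 := hxs l (mem_univ l)
        simp only [prA, prB, if_neg hl] at h1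
        exact h1
    exact sq_disj hΩ hI (hA a ha).1 (hA b hb).1 (key a ha hxa) (rel_sub (key b hb hxb))
  have hsub : (⋃ s ∈ A, prism v t.1 s) ⊆ prism v t.1 t := by
    refine iUnion₂_subset fun s hs => ?_
    intro x hx l _
    have h1 := hx l (mem_univ l)
    have hd := hdir s hs
    by_cases hl : l = t.2
    · have hl' : l = s.2 := by rw [hd]; exact hl
      simp only [prA, prB, if_pos hl'] at h1
      simp only [prA, prB, if_pos hl]
      exact h1
    · have hl' : l ≠ s.2 := by rw [hd]; exact hl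
      simp only [prA, prB, if_neg hl'] at h1
      simp only [prA, prB, if_neg hl]
      have h2 := (hq s hs).2 l hl
      exact ⟨by linarith [h1.1, h2.1], by linarith [h1.2, h2.2]⟩
  have h1 : ∑ s ∈ A, volume (prism v t.1 s) ≤ volume (prism v t.1 t) := by
    rw [← measure_biUnion_finset hdisj fun s _ => measurableSet_prism v t.1 s]
    exact measure_mono hsub
  have h2 : ∀ s : Idx × Fin 3, volume (prism v t.1 s) =
      ENNReal.ofReal (1 / 2 ^ t.1.1) * ENNReal.ofReal ((1 / 2 ^ s.1.1) ^ 2) := by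
    intro s
    rw [volume_prism, ENNReal.ofReal_mul hp.le]
  simp_rw [h2] at h1
  rw [← Finset.mul_sum] at h1
  exact (ENNReal.mul_le_mul_iff_right (ENNReal.ofReal_pos.2 hp).ne' ENNReal.ofReal_ne_top).1 h1

end Vale.Agent.P073.H582
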