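import Vale.Agent.P073.H582.XE2
import Vale.Agent.P073.H582.E2b

/-!
# P073, block A16, [XEDGE]: the edges of the middle plane, assembly

* `specXE`.
-/

open Set MeasureTheory Filter Topology Metric
open scoped ENNReal NNReal

namespace Vale.Agent.P073.H582

open Vale.Agent.P073.St (V Mat)
open Vale.Agent.P073.SQ (ev)
open Vale.Agent.P073.AB
open Vale.Agent.P073.H235
open Vale.Agent.P073.H194 (sInt fSum eInSq Rg up mem_rect mem_redge squ_sub_Rg edge_sub_Rg sc_up)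
open _root_.P073 (ConHomeo)
open _root_.P073.Net (dyc dyo)

theorem sum_le_cover {α β : Type*} [DecidableEq α] (A : Finset α) (B : Finset β)
    (t : β → Finset α) (h : A ⊆ B.biUnion t) (f : α → ℝ≥0∞) :
    ∑ a ∈ A, f a ≤ ∑ b ∈ B, ∑ a ∈ t b, f a := by
  refine (sum_le_group A B (fun a b => a ∈ t b) (fun a ha => ?_) f).trans ?_
  · obtain ⟨b, hb, hab⟩ := Finset.mem_biUnion.1 (h ha)
    exact ⟨b, hb, hab⟩
  · refine Finset.sum_le_sum fun b _ => Finset.sum_le_sum_of_subset fun a ha => ?_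
    exact (Finset.mem_filter.1 ha).2

/-- the sum of the errors over the edges of the middle plane -/
theorem XE_sum {p C₀ θ κ : ℝ} {m₀ : ℕ} {Λ : Set V} {f : V → V} {F : V → Mat} (hp : 1 ≤ p)
    (hκ : 0 < κ) (D : VData2 p C₀ θ κ m₀ Λ f F) {α β : Fin 3 → ℤ} (hα : α 2 = D.B)
    (hαβ : ∀ j, j ≠ 2 → α j < β j) (hR : Rg D.v m₀ α β ⊆ Bx (fl θ))
    (hcard : (rect α β).card ≤ 4 ^ m₀) {δ₁ : ℝ} (hδ₁ : 0 < δ₁) :
    ∃ l₀ : ℕ, ∀ l ≥ l₀, m₀ ≤ D.nn l → ∀ b : ℝ, 0 < b → b ≤ 1 →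
    ∑ i ∈ Finset.univ.erase (2 : Fin 3),
      ∑ k ∈ redge (up m₀ (D.nn l) α) (up m₀ (D.nn l) β) i, ENNReal.ofReal (1 / 2 ^ D.nn l) *
        (ENNReal.ofReal ((1 / 2 ^ D.nn l) ^ (1 - p)) * XE θ D.v F b ((D.nn l, k), i) ^ p) ≤
      ENNReal.ofReal (4 ^ p * (κ + δ₁ + 2 * b)) := by
  have hp0 : 0 ≤ p := by linarith
  set R := rect α β with hRdef
  set δ' : ℝ := δ₁ / (R.card + 1) with hδ'
  have hδ'0 : 0 < δ' := by positivity
  have hne : ENNReal.ofReal δ' ≠ 0 := (ENNReal.ofReal_pos.2 hδ'0).ne'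
  have hev : ∀ᶠ l in atTop, ∀ s ∈ R, ∀ i ∈ Finset.univ.erase (2 : Fin 3),
      fSum D.v ((m₀, s), 2) (D.nn l) i D.H₁ ≤ sInt D.v ((m₀, s), 2) D.H₁ + ENNReal.ofReal δ' := by
    rw [Finset.eventually_all]
    intro s hs
    rw [Finset.eventually_all]
    intro i hi
    exact D.genB₁.square ((m₀, s), 2) i (Finset.ne_of_mem_erase hi) _ hne
  obtain ⟨l₀, hl₀⟩ := eventually_atTop.1 hev
  refine ⟨l₀, fun l hl hml b hb hb1 => ?_⟩
  set n := D.nn l with hn
  have hSc := sc_up hml α β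
  have hedge : ∀ i, i ≠ 2 → ∀ k ∈ redge (up m₀ n α) (up m₀ n β) i,
      edge D.v ((n, k), i) ⊆ Bx (fl θ) := fun i hi k hk =>
    (edge_sub_Rg (v := D.v) hSc hi hk).trans hR
  set C : ℝ≥0∞ := ENNReal.ofReal (2 ^ p * 2 ^ (p - 1)) with hC
  have h1 : ∀ i ∈ Finset.univ.erase (2 : Fin 3), ∀ k ∈ redge (up m₀ n α) (up m₀ n β) i,
      ENNReal.ofReal (1 / 2 ^ n) * (ENNReal.ofReal ((1 / 2 ^ n) ^ (1 - p)) *
        XE θ D.v F b ((n, k), i) ^ p) ≤
      C * (ENNReal.ofReal (1 / 2 ^ n) * eInt D.v ((n, k), i) D.H₁ +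
        ENNReal.ofReal (b / 4 ^ n)) := by
    intro i hi k hk
    have h2 := XE_pow_le hp D (hedge i (Finset.ne_of_mem_erase hi) k hk) hb hb1
    have h3 : ENNReal.ofReal (b / 4 ^ n) =
        ENNReal.ofReal (1 / 2 ^ n) * ENNReal.ofReal (b / 2 ^ n) := by
      rw [← ENNReal.ofReal_mul (by positivity)]
      congr 1
      rw [show (4:ℝ) = 2 * 2 by norm_num, mul_pow]
      field_simp
    rw [h3]
    calc ENNReal.ofReal (1 / 2 ^ n) * (ENNReal.ofReal ((1 / 2 ^ n) ^ (1 - p)) *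
          XE θ D.v F b ((n, k), i) ^ p)
        ≤ ENNReal.ofReal (1 / 2 ^ n) * (C * (eInt D.v ((n, k), i) D.H₁ +
          ENNReal.ofReal (b / 2 ^ n))) := by gcongr
      _ = _ := by ring
  have h4 : ∀ i ∈ Finset.univ.erase (2 : Fin 3),
      ∑ k ∈ redge (up m₀ n α) (up m₀ n β) i, ENNReal.ofReal (1 / 2 ^ n) *
        (ENNReal.ofReal ((1 / 2 ^ n) ^ (1 - p)) * XE θ D.v F b ((n, k), i) ^ p) ≤
      C * (ENNReal.ofReal (κ + δ₁) + ENNReal.ofReal (2 * b)) := by
    intro i hi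
    have hi2 : i ≠ 2 := Finset.ne_of_mem_erase hi
    refine (Finset.sum_le_sum (h1 i hi)).trans ?_
    rw [← Finset.mul_sum, Finset.sum_add_distrib]
    gcongr C * (?_ + ?_)
    · -- the energies
      calc ∑ k ∈ redge (up m₀ n α) (up m₀ n β) i,
            ENNReal.ofReal (1 / 2 ^ n) * eInt D.v ((n, k), i) D.H₁
          ≤ ∑ s ∈ R, ∑ k ∈ eInSq ((m₀, s), 2) n i,
            ENNReal.ofReal (1 / 2 ^ n) * eInt D.v ((n, k), i) D.H₁ :=
            sum_le_cover _ _ _ (redge_sub hαβ hi2) _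
        _ = ∑ s ∈ R, fSum D.v ((m₀, s), 2) n i D.H₁ := rfl
        _ ≤ ∑ s ∈ R, (sInt D.v ((m₀, s), 2) D.H₁ + ENNReal.ofReal δ') :=
            Finset.sum_le_sum fun s hs => hl₀ l hl s hs i hi
        _ = (∑ s ∈ R, sInt D.v ((m₀, s), 2) D.H₁) + R.card * ENNReal.ofReal δ' := by
            rw [Finset.sum_add_distrib, Finset.sum_const, nsmul_eq_mul]
        _ ≤ ENNReal.ofReal κ + ENNReal.ofReal δ₁ := by
            gcongr
            · refine D.slice R fun k hk => ⟨(mem_rect.1 hk).1.trans hα, ?_⟩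
              have hS : H194.Sc m₀ m₀ α β α β := ⟨le_rfl, fun j => by simp, fun j => by simp⟩
              exact (squ_sub_Rg (v := D.v) hS hk).trans hR
            · rw [← ENNReal.ofReal_natCast, ← ENNReal.ofReal_mul (by positivity)]
              refine ENNReal.ofReal_le_ofReal ?_
              rw [hδ', mul_div_assoc', div_le_iff₀ (by positivity)]
              nlinarith [hδ₁.le]
        _ = ENNReal.ofReal (κ + δ₁) := (ENNReal.ofReal_add hκ.le hδ₁.le).symm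
    · -- the error of `h₀`
      rw [Finset.sum_const, nsmul_eq_mul, ← ENNReal.ofReal_natCast,
        ← ENNReal.ofReal_mul (by positivity)]
      refine ENNReal.ofReal_le_ofReal ?_
      have h5 : ((redge (up m₀ n α) (up m₀ n β) i).card : ℝ) ≤ 2 * 4 ^ n := by
        have h6 : ∀ j, j ≠ 2 → up m₀ n α j < up m₀ n β j := fun j hj =>
          mul_lt_mul_of_pos_left (hαβ j hj) (by positivity)
        have h7 := (card_redge_le h6 hi2).trans (Nat.mul_le_mul_left 2 (card_up hml hcard))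
        exact_mod_cast h7
      have h8 : (0:ℝ) < 4 ^ n := by positivity
      calc ((redge (up m₀ n α) (up m₀ n β) i).card : ℝ) * (b / 4 ^ n)
          ≤ (2 * 4 ^ n) * (b / 4 ^ n) := by gcongr
        _ = 2 * b := by field_simp
  have hset : (Finset.univ.erase (2 : Fin 3)).card = 2 := by decide
  calc ∑ i ∈ Finset.univ.erase (2 : Fin 3), ∑ k ∈ redge (up m₀ n α) (up m₀ n β) i,
        ENNReal.ofReal (1 / 2 ^ n) * (ENNReal.ofReal ((1 / 2 ^ n) ^ (1 - p)) *
          XE θ D.v F b ((n, k), i) ^ p)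
      ≤ ∑ _i ∈ Finset.univ.erase (2 : Fin 3),
        C * (ENNReal.ofReal (κ + δ₁) + ENNReal.ofReal (2 * b)) := Finset.sum_le_sum h4
    _ = ENNReal.ofReal (4 ^ p * (κ + δ₁ + 2 * b)) := by
        rw [Finset.sum_const, hset, nsmul_eq_mul, ← ENNReal.ofReal_add (by positivity)
          (by positivity), hC, ← ENNReal.ofReal_mul (by positivity), ← ENNReal.ofReal_natCast,
          ← ENNReal.ofReal_mul (by positivity)]
        congr 1
        have h9 : (4:ℝ) ^ p = 2 ^ p * 2 ^ (p - 1) * 2 := by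
          rw [show (4:ℝ) = 2 * 2 by norm_num, Real.mul_rpow (by norm_num) (by norm_num),
            mul_assoc, ← Real.rpow_add_one (by norm_num), sub_add_cancel]
        rw [h9]
        push_cast
        ring

/-- **[XEDGE]** -/
theorem specXE : SpecXE := by
  intro p C₀ θ κ m₀ Λ f F hp hθ hθ2 hκ D α β hα hαβ hR hcard δ₁ hδ₁
  obtain ⟨l₀, hl₀⟩ := XE_sum hp hκ D hα hαβ hR hcard hδ₁
  refine ⟨l₀, fun l hl hml h₀ T b hb hb1 hT hh => ⟨fun i hi k hk => ?_, hl₀ l hl hml b hb hb1⟩⟩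
  set n := D.nn l with hn
  have hSc := sc_up hml α β
  have hedge : edge D.v ((n, k), i) ⊆ Bx (fl θ) := (edge_sub_Rg (v := D.v) hSc hi hk).trans hR
  constructor
  · -- the error
    exact xE_le D.rat h₀ T hT hedge hi (hh i hi k hk)
  · -- the root
    refine (root_le hp D hedge).trans ?_
    unfold XE
    rw [mul_add, add_comm]
    gcongr
    set A := eInt D.v ((n, k), i) (fun x => ‖cl (cmpD (fl θ) F x) - P2‖ₑ) with hA
    calc A ≤ 2 * (A + ENNReal.ofReal (b / 2 ^ n)) := by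
          rw [two_mul]
          exact le_self_add.trans le_self_add
      _ ≤ 2 * (2 * (A + ENNReal.ofReal (b / 2 ^ n))) := by
          rw [two_mul (2 * (A + ENNReal.ofReal (b / 2 ^ n)))]
          exact le_self_add

end Vale.Agent.P073.H582
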