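import Vale.Agent.P073.H582.ConC5

/-!
# P073: small shift of the middle plane and of the middle line of a thin beam: `(C6)`
-/

namespace Vale.Agent.P073.H582

open MeasureTheory Set Filter Topology Metric Vale.Agent.P073.LOC Vale.Agent.P073.St
open Vale.Agent.P073.H235
open Vale.Agent.P073.AB (cl)
open Vale.Agent.P073.SQ (ev)
open scoped ENNReal ContDiff

/-- the output of smoothing, rank one; the middle plane is `x 1 = c₁`, controlled over the lateral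
core only, the middle line is `x 1 = c₁`, `x 2 = c₂` -/
def OutC2 (p C θ₁ θ₂ ν₁ ν τ ε : ℝ) (L : V →L[ℝ] V) (Λ : Set V) (f : V → V) : Prop :=
  ∃ (c₁ c₂ : ℝ) (g : V → V), |c₁ - θ₁| ≤ τ ∧ |c₂ - θ₂| ≤ τ ∧
    St.IsDiffeo (Bx (bm θ₁ θ₂)) Λ g ∧ BdClose (Bx (bm θ₁ θ₂)) (cmp (bm θ₁ θ₂) f) g ∧
    En p g Finset.univ (Bx (bm θ₁ θ₂)) ≤ ENNReal.ofReal (C * θ₁ * θ₂) ∧
    En p g Finset.univ (Bx (bm θ₁ θ₂) ∩ Fr (bm θ₁ θ₂) (2 * ν₁) {0, 2}) ≤
      ENNReal.ofReal (C * ν₁ * θ₁ * θ₂) ∧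
    En2 p g (Finset.univ.erase 1) 1 c₁ (Bx (fl θ₂) ∩ Co (fl θ₂) (ν₁ / 2) {0, 2}) ≤
      ENNReal.ofReal (C * θ₂) ∧
    En2 p g (Finset.univ.erase 1) 1 c₁
        (Bx (fl θ₂) ∩ Co (fl θ₂) (ν₁ / 2) {0, 2} ∩ Fr (fl θ₂) (2 * ν) {0}) ≤
      ENNReal.ofReal (C * ν * θ₂) ∧
    ∫⁻ x in Bx 1 ∩ Co 1 (ν / 2) {0},
      ENNReal.ofReal (‖fderiv ℝ g (Function.update (Function.update x 1 c₁) 2 c₂) (ev 0) -
        L (ev 0)‖ ^ p) ≤ ENNReal.ofReal ε

/-- the output of smoothing exists -/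
def SpecOutC2 (p : ℝ) (L : V →L[ℝ] V) : Prop :=
  ∃ C > 0, ∀ ν, 0 < ν → ν ≤ 1 / 4 → ∀ θ₂, 0 < θ₂ → θ₂ ≤ 1 / 4 → ∀ ν₁, 0 < ν₁ → ν₁ ≤ ν / 4 →
    ∃ θ₀ > 0, ∀ θ₁, 0 < θ₁ → θ₁ ≤ θ₀ → ∀ τ > 0, τ < θ₁ → τ < θ₂ → ∀ ε > 0, ∃ κ > 0,
    ∀ (Λ : Set V) (f : V → V) (F : V → Mat), Near p κ L Λ f F →
      OutC2 p C θ₁ θ₂ ν₁ ν τ ε L Λ f

/-- integrals of translates -/
theorem setLIntegral_shift (F : V → ℝ≥0∞) {S T : Set V} (a : V) (h : ∀ x ∈ S, x + a ∈ T) :
    ∫⁻ x in S, F (x + a) ≤ ∫⁻ x in T, F x := by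
  have h1 := (measurePreserving_add_right (volume : Measure V) a).setLIntegral_comp_preimage_emb
    (MeasurableEquiv.addRight a).measurableEmbedding F T
  rw [← h1]
  exact lintegral_mono_set fun x hx => h x hx

theorem norm_ev_le (i : Fin 3) : ‖(ev i : V)‖ ≤ 1 := by
  refine (pi_norm_le_iff_of_nonneg zero_le_one).2 fun k => ?_
  by_cases h : k = i
  · subst h; simp [ev]
  · simp [ev, h]

/-- **small shift of the middle plane and line**, every exponent -/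
theorem specBeam2_of_outC2 {p : ℝ} {L : V →L[ℝ] V} (hp : 1 ≤ p) (hC3 : SpecC3)
    (h : SpecOutC2 p L) : SpecBeam2 p L := by
  obtain ⟨C, hC, h⟩ := h
  have hE : 0 < (8 : ℝ) ^ p * 8 := by positivity
  have hE1 : (1 : ℝ) ≤ 8 ^ p * 8 := by
    have := Real.one_le_rpow (by norm_num : (1:ℝ) ≤ 8) (by linarith : 0 ≤ p)
    linarith
  refine ⟨8 ^ p * 8 * C, by positivity, fun ν hν hν4 θ₂ hθ₂ hθ₂4 ν₁ hν₁ hν₁ν => ?_⟩
  obtain ⟨θ₀, hθ₀, h⟩ := h ν hν hν4 θ₂ hθ₂ hθ₂4 ν₁ hν₁ hν₁ν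
  refine ⟨θ₀, hθ₀, fun θ₁ hθ₁ hθle ε hε => ?_⟩
  have ha : ∀ i, 0 < bm θ₁ θ₂ i := by
    intro i
    fin_cases i <;> simp [bm, hθ₁, hθ₂]
  set lo : V := ![ν₁ / 4, θ₁, ν₁ / 4 * (2 * θ₂)] with hlo
  set hi : V := ![1 - ν₁ / 4, θ₁, (1 - ν₁ / 4) * (2 * θ₂)] with hhi
  set K₀ : Set V := {x : V | ∀ i, lo i ≤ x i ∧ x i ≤ hi i} with hK₀
  have hK₀c : IsCompact K₀ := isCompact_rect _ _
  have hνθ : 0 < ν₁ * θ₂ := by positivity
  have hK₀s : K₀ ⊆ Bx (bm θ₁ θ₂) := by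
    intro x hx i
    have h0 := hx 0
    have h1 := hx 1
    have h2 := hx 2
    simp [hlo, hhi] at h0 h1 h2
    fin_cases i
    · simp [bm]; constructor <;> linarith
    · simp [bm]; constructor <;> linarith
    · simp [bm]; constructor <;> nlinarith
  obtain ⟨K, hKs, hK, τ₀, hτ₀, hψ⟩ := hC3 (bm θ₁ θ₂) ha K₀ hK₀s hK₀c
  set τ : ℝ := min (min τ₀ (θ₁ / 2)) (min (θ₂ / 2) (ν₁ * θ₂ / 4)) with hτ
  have hτ0 : 0 < τ := by positivity
  have hτ1 : τ ≤ τ₀ := (min_le_left _ _).trans (min_le_left _ _)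
  have hτ2 : τ ≤ θ₁ / 2 := (min_le_left _ _).trans (min_le_right _ _)
  have hτ3 : τ ≤ θ₂ / 2 := (min_le_right _ _).trans (min_le_left _ _)
  have hτ4 : τ ≤ ν₁ * θ₂ / 4 := (min_le_right _ _).trans (min_le_right _ _)
  have hτ5 : τ ≤ ν₁ := by nlinarith
  obtain ⟨κ, hκ, h⟩ := h θ₁ hθ₁ hθle τ hτ0 (by linarith) (by linarith) ε hε
  refine ⟨κ, hκ, fun Λ f F hf => ?_⟩
  obtain ⟨c₁, c₂, g, hc₁, hc₂, hg, hgb, hg1, hg2, hg3, hg4, hg5⟩ := h Λ f F hf
  set w : V := (c₁ - θ₁) • ev 1 + (c₂ - θ₂) • ev 2 with hw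
  have hwn : ‖w‖ ≤ τ := by
    refine (pi_norm_le_iff_of_nonneg hτ0.le).2 fun k => ?_
    fin_cases k
    · simp [hw, ev, hτ0.le]
    · simpa [hw, ev] using hc₁
    · simpa [hw, ev] using hc₂
  obtain ⟨ψ, hψd, ⟨U, hU, hKU, hψU⟩, hψK, hψn, hψE⟩ := hψ w (hwn.trans hτ1)
  have hψm : ∀ S : Set V, S ⊆ Bx (bm θ₁ θ₂) → ψ '' S ⊆ Bx (bm θ₁ θ₂) := by
    rintro S hS _ ⟨x, hx, rfl⟩
    obtain ⟨k, ⟨h1, -⟩, -⟩ := hψd
    exact (h1 x (hS hx)).1
  have hgs : ContDiffOn ℝ ∞ g (Bx (bm θ₁ θ₂)) := AB.diffeo_smooth hg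
  -- the shift on the middle plane
  have hpl : ∀ x ∈ Co (fl θ₂) ν₁ {0, 2}, ∀ j, fderiv ℝ (fun x => g (ψ x))
      (Function.update x 1 θ₁) (ev j) =
        fderiv ℝ g (Function.update (x + (c₂ - θ₂) • ev 2) 1 c₁) (ev j) := by
    intro x hx j
    have hx0 := hx 0 (by simp)
    have hx2 := hx 2 (by simp)
    simp [fl] at hx0 hx2
    have hxK : Function.update x 1 θ₁ ∈ K₀ := by
      intro i
      fin_cases i
      · simpa [hlo, hhi] using hx0
      · simp [hlo, hhi]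
      · simpa [hlo, hhi] using hx2
    have e1 : Function.update x 1 θ₁ + w = Function.update (x + (c₂ - θ₂) • ev 2) 1 c₁ := by
      funext i
      fin_cases i <;> simp [hw, ev]
    rw [fderiv_shift hU hψU (hKU hxK), e1]
  have hshift : ∀ x : V, x ∈ Bx (fl θ₂) ∩ Co (fl θ₂) ν₁ {0, 2} →
      x + (c₂ - θ₂) • ev 2 ∈ Bx (fl θ₂) ∩ Co (fl θ₂) (ν₁ / 2) {0, 2} := by
    intro x hx
    have h0 := hx.1 0
    have h1 := hx.1 1
    have hx0 := hx.2 0 (by simp)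
    have hx2 := hx.2 2 (by simp)
    simp [fl] at hx0 hx2 h0 h1
    have h3 := abs_le.1 (hc₂.trans hτ4)
    constructor
    · intro i
      fin_cases i
      · simpa [fl, ev] using h0
      · simpa [fl, ev] using h1
      · simp [fl, ev]
        constructor <;> nlinarith
    · intro i hi
      simp only [Finset.mem_insert, Finset.mem_singleton] at hi
      rcases hi with rfl | rfl
      · simp [fl, ev]
        constructor <;> linarith
      · simp [fl, ev]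
        constructor <;> nlinarith
  have hmC : MeasurableSet (Bx (fl θ₂) ∩ Co (fl θ₂) ν₁ {0, 2}) :=
    (measurableSet_bx _).inter (measurableSet_co _ _ _)
  refine ⟨fun x => g (ψ x), AB.isDiffeo_comp hψd hg, bdClose_shift hK hKs hψK hgb,
    ?_, ?_, ?_, ?_, ?_⟩
  · refine (hψE p g _ hp (measurableSet_bx _) subset_rfl hgs).trans ?_
    calc ENNReal.ofReal (8 ^ p * 8) * En p g Finset.univ (ψ '' Bx (bm θ₁ θ₂))
        ≤ ENNReal.ofReal (8 ^ p * 8) * ENNReal.ofReal (C * θ₁ * θ₂) := by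
          gcongr
          exact (en_mono (hψm _ subset_rfl)).trans hg1
      _ = _ := by
          rw [← ENNReal.ofReal_mul hE.le]
          congr 1
          ring
  · refine (hψE p g _ hp ((measurableSet_bx _).inter (measurableSet_fr _ _ _))
      inter_subset_left hgs).trans ?_
    have hsub : ψ '' (Bx (bm θ₁ θ₂) ∩ Fr (bm θ₁ θ₂) ν₁ {0, 2}) ⊆
        Bx (bm θ₁ θ₂) ∩ Fr (bm θ₁ θ₂) (2 * ν₁) {0, 2} := by
      refine subset_inter (hψm _ inter_subset_left) ?_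
      rintro _ ⟨x, hx, rfl⟩
      refine fr_shift hx.2 ((hψn x).trans hwn) fun i hi => ?_
      simp only [Finset.mem_insert, Finset.mem_singleton] at hi
      rcases hi with rfl | rfl
      · simpa [bm] using hτ5
      · simp [bm]
        nlinarith
    calc ENNReal.ofReal (8 ^ p * 8) *
          En p g Finset.univ (ψ '' (Bx (bm θ₁ θ₂) ∩ Fr (bm θ₁ θ₂) ν₁ {0, 2}))
        ≤ ENNReal.ofReal (8 ^ p * 8) * ENNReal.ofReal (C * ν₁ * θ₁ * θ₂) := by
          gcongr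
          exact (en_mono hsub).trans hg2
      _ = _ := by
          rw [← ENNReal.ofReal_mul hE.le]
          congr 1
          ring
  · refine le_trans (Finset.sum_le_sum fun j _ => ?_) (hg3.trans (ENNReal.ofReal_le_ofReal ?_))
    · calc _ = ∫⁻ x in Bx (fl θ₂) ∩ Co (fl θ₂) ν₁ {0, 2}, ENNReal.ofReal
            (‖fderiv ℝ g (Function.update (x + (c₂ - θ₂) • ev 2) 1 c₁) (ev j)‖ ^ p) := by
            refine setLIntegral_congr_fun hmC fun x hx => ?_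
            show ENNReal.ofReal (‖fderiv ℝ (fun x => g (ψ x)) (Function.update x 1 θ₁) (ev j)‖ ^ p)
              = _
            rw [hpl x hx.2 j]
        _ ≤ _ := setLIntegral_shift (fun x => ENNReal.ofReal
            (‖fderiv ℝ g (Function.update x 1 c₁) (ev j)‖ ^ p)) _ hshift
    · have : 0 ≤ C * θ₂ := by positivity
      calc C * θ₂ = 1 * (C * θ₂) := by ring
        _ ≤ (8 ^ p * 8) * (C * θ₂) := by gcongr
        _ = _ := by ring
  · refine le_trans (Finset.sum_le_sum fun j _ => ?_) (hg4.trans (ENNReal.ofReal_le_ofReal ?_))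
    · calc _ = ∫⁻ x in Bx (fl θ₂) ∩ Co (fl θ₂) ν₁ {0, 2} ∩ Fr (fl θ₂) ν {0}, ENNReal.ofReal
            (‖fderiv ℝ g (Function.update (x + (c₂ - θ₂) • ev 2) 1 c₁) (ev j)‖ ^ p) := by
            refine setLIntegral_congr_fun (hmC.inter (measurableSet_fr _ _ _)) fun x hx => ?_
            show ENNReal.ofReal (‖fderiv ℝ (fun x => g (ψ x)) (Function.update x 1 θ₁) (ev j)‖ ^ p)
              = _
            rw [hpl x hx.1.2 j]
        _ ≤ _ := by
            refine setLIntegral_shift (fun x => ENNReal.ofReal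
              (‖fderiv ℝ g (Function.update x 1 c₁) (ev j)‖ ^ p)) _ fun x hx => ?_
            refine ⟨hshift x hx.1, ?_⟩
            obtain ⟨i, hi, h1⟩ := hx.2
            rw [Finset.mem_singleton] at hi
            subst hi
            refine ⟨0, by simp, ?_⟩
            simp [fl, ev] at h1 ⊢
            rcases h1 with h1 | h1
            · left; linarith
            · right; linarith
    · have : 0 ≤ C * ν * θ₂ := by positivity
      calc C * ν * θ₂ = 1 * (C * ν * θ₂) := by ring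
        _ ≤ (8 ^ p * 8) * (C * ν * θ₂) := by gcongr
        _ = _ := by ring
  · have hmeas : MeasurableSet (Bx 1 ∩ Co 1 ν {0}) :=
      (measurableSet_bx _).inter (measurableSet_co _ _ _)
    refine le_trans ?_ hg5
    calc ∫⁻ x in Bx 1 ∩ Co 1 ν {0}, ENNReal.ofReal
          (‖fderiv ℝ (fun x => g (ψ x)) (Function.update (Function.update x 1 θ₁) 2 θ₂) (ev 0) -
            L (ev 0)‖ ^ p)
        = ∫⁻ x in Bx 1 ∩ Co 1 ν {0}, ENNReal.ofReal
          (‖fderiv ℝ g (Function.update (Function.update x 1 c₁) 2 c₂) (ev 0) -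
            L (ev 0)‖ ^ p) := by
          refine setLIntegral_congr_fun hmeas fun x hx => ?_
          have hx0 := hx.2 0 (by simp)
          simp at hx0
          have hxK : Function.update (Function.update x 1 θ₁) 2 θ₂ ∈ K₀ := by
            intro i
            fin_cases i
            · simp [hlo, hhi]
              constructor <;> linarith
            · simp [hlo, hhi]
            · simp [hlo, hhi]
              constructor <;> nlinarith
          have e1 : Function.update (Function.update x 1 θ₁) 2 θ₂ + w =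
              Function.update (Function.update x 1 c₁) 2 c₂ := by
            funext i
            fin_cases i <;> simp [hw, ev]
          show ENNReal.ofReal (‖fderiv ℝ (fun x => g (ψ x))
            (Function.update (Function.update x 1 θ₁) 2 θ₂) (ev 0) - L (ev 0)‖ ^ p) = _
          rw [fderiv_shift hU hψU (hKU hxK), e1]
      _ ≤ _ := by
          refine lintegral_mono_set fun x hx => ⟨hx.1, fun i hi => ?_⟩
          have := hx.2 i hi
          simp only [Pi.one_apply, mul_one] at this ⊢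
          constructor <;> linarith

/-- **(C6)** assembly, rank one -/
theorem specC6 : SpecC6 := by
  intro p L hp hp3 hC2 hC3 hCF
  obtain ⟨D, hD, hC2⟩ := hC2 p hp hp3
  obtain ⟨C, hC, hCF⟩ := hCF
  refine specBeam2_of_outC2 hp hC3 ⟨D * C, by positivity,
    fun ν hν hν4 θ₂ hθ₂ hθ₂4 ν₁ hν₁ hν₁ν => ?_⟩
  obtain ⟨θ₀, hθ₀, hCF⟩ := hCF ν hν hν4 θ₂ hθ₂ hθ₂4 ν₁ hν₁ hν₁ν
  refine ⟨θ₀, hθ₀, fun θ₁ hθ₁ hθle τ hτ hτ1 hτ2 ε hε => ?_⟩
  obtain ⟨κ, hκ, hCF⟩ := hCF θ₁ hθ₁ hθle τ hτ (ε / D) (div_pos hε hD)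
  refine ⟨κ, hκ, fun Λ f F hf => ?_⟩
  obtain ⟨c₁, c₂, g, h1, h2, h3, h4, h5, h6, h7, h8, h9⟩ := hC2 C θ₁ θ₂ ν₁ ν τ (ε / D) L Λ f hC
    hθ₁ hθ₂ hν₁ (by linarith) hν4 hτ1 hτ2 (div_pos hε hD) hf.dom hf.cont (hCF Λ f F hf)
  have hD' : D * (ε / D) = ε := by field_simp
  rw [hD'] at h9
  refine ⟨c₁, c₂, g, h1, h2, h3, h4, h5, h6, ?_, ?_, h9⟩
  · exact le_trans (Finset.sum_le_sum fun _ _ => lintegral_mono_set inter_subset_left) h7
  · exact le_trans (Finset.sum_le_sum fun _ _ => lintegral_mono_set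
      (inter_subset_inter_left _ inter_subset_left)) h8

end Vale.Agent.P073.H582
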