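import Vale.Agent.P073.H235.ConSpec
import Vale.Agent.P073.H989.GenRed
import Vale.Agent.P073.LOC.CollSpec

/-!
# P073: normal form of the linear map: `(C7)`, `(C8)` of helper235's list
-/

namespace Vale.Agent.P073.H582

open MeasureTheory Set Filter Topology Metric Vale.Agent.P073.LOC Vale.Agent.P073.St
open Vale.Agent.P073.H235
open Vale.Agent.P073.AB (cl)
open Vale.Agent.P073.SQ (ev)
open Vale.Agent.P073.H655 (domain_lin homeo_lin diffeo_symm ap_eq_cl)
open scoped ENNReal ContDiff

/-- the matrix of a linear map -/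
noncomputable def matOf (T : V →L[ℝ] V) : Mat := fun i j => T (ev j) i

theorem ap_matOf (T : V →L[ℝ] V) (v : V) : T v = ap (matOf T) v := by
  have hv : v = ∑ j, v j • ev j := by
    funext i
    simp [ev, Finset.sum_apply, Pi.single_apply]
  conv_lhs => rw [hv]
  rw [map_sum]
  funext i
  simp only [map_smul, Finset.sum_apply, Pi.smul_apply, smul_eq_mul, ap, matOf, mul_comm]

/-- **(C7)** linear change of the target -/
theorem specC7 : SpecC7 := by
  intro p L O hp h ε hε
  have hp0 : 0 ≤ p := by linarith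
  set A : Mat := matOf O with hA
  have hT : ∀ v, O v = ap A v := fun v => ap_matOf (O : V →L[ℝ] V) v
  set C : ℝ := ‖(O.symm : V →L[ℝ] V)‖ + 1 with hC
  have hC0 : 0 < C := by positivity
  have hTC : ∀ v, ‖O.symm v‖ ≤ C * ‖v‖ := fun v => by
    have h1 := (O.symm : V →L[ℝ] V).le_opNorm v
    refine h1.trans (mul_le_mul_of_nonneg_right ?_ (norm_nonneg _))
    linarith
  set D : ℝ := ‖(O : V →L[ℝ] V)‖ + 1 with hD
  have hD0 : 0 < D := by positivity
  have hTD : ∀ v, ‖O v‖ ≤ D * ‖v‖ := fun v => by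
    have h1 := (O : V →L[ℝ] V).le_opNorm v
    refine h1.trans (mul_le_mul_of_nonneg_right ?_ (norm_nonneg _))
    linarith
  have hCp : 0 < C ^ p := by positivity
  have hDp : 0 < D ^ p := by positivity
  have hrC : ∀ v : V, ENNReal.ofReal (‖O.symm v‖ ^ p) ≤
      ENNReal.ofReal (C ^ p) * ENNReal.ofReal (‖v‖ ^ p) := by
    intro v
    rw [← ENNReal.ofReal_mul hCp.le, ← Real.mul_rpow hC0.le (norm_nonneg _)]
    exact ENNReal.ofReal_le_ofReal (Real.rpow_le_rpow (norm_nonneg _) (hTC v) hp0)
  have hrD : ∀ v : V, ENNReal.ofReal (‖O v‖ ^ p) ≤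
      ENNReal.ofReal (D ^ p) * ENNReal.ofReal (‖v‖ ^ p) := by
    intro v
    rw [← ENNReal.ofReal_mul hDp.le, ← Real.mul_rpow hD0.le (norm_nonneg _)]
    exact ENNReal.ofReal_le_ofReal (Real.rpow_le_rpow (norm_nonneg _) (hTD v) hp0)
  have hcl : ∀ (M : Mat) (v : V), O (cl M v) = cl (mm A M) v := by
    intro M v
    rw [hT]
    funext i
    simp only [ap, mm, PK.cl_apply, Finset.mul_sum, Finset.sum_mul]
    rw [Finset.sum_comm]
    simp only [mul_assoc]
  have hΩ : IsOpen Q1 := RED.open_Q0
  obtain ⟨κ, hκ, H⟩ := h (ε / C ^ p) (div_pos hε hCp)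
  refine ⟨κ / D ^ p, div_pos hκ hDp, fun Λ f F hf => ?_⟩
  have hvol : volume Q1 ≠ ⊤ := RED.volume_Q0_ne_top
  have hN : Near p κ (O.toContinuousLinearMap ∘L L) (O '' Λ) (fun x => O (f x))
      (fun x => mm A (F x)) := by
    refine ⟨domain_lin O hf.dom, homeo_lin O hf.homeo, O.continuous.comp_continuousOn hf.cont,
      ?_, ?_⟩
    · have h1 := MM.H694.sobolev_lin hp hvol hf.sob A
      simpa only [hT] using h1
    · calc ∑ j, ∫⁻ x in Q1, ENNReal.ofReal (‖cl (mm A (F x)) (ev j) -
            (O.toContinuousLinearMap ∘L L) (ev j)‖ ^ p)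
          ≤ ∑ j, ∫⁻ x in Q1, ENNReal.ofReal (D ^ p) *
              ENNReal.ofReal (‖cl (F x) (ev j) - L (ev j)‖ ^ p) := by
            refine Finset.sum_le_sum fun j _ => lintegral_mono fun x => ?_
            have e1 : cl (mm A (F x)) (ev j) - (O.toContinuousLinearMap ∘L L) (ev j) =
                O (cl (F x) (ev j) - L (ev j)) := by
              rw [map_sub, hcl]
              rfl
            simp only [e1]
            exact hrD _
        _ = ENNReal.ofReal (D ^ p) * ∑ j, ∫⁻ x in Q1,
              ENNReal.ofReal (‖cl (F x) (ev j) - L (ev j)‖ ^ p) := by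
            rw [Finset.mul_sum]
            exact Finset.sum_congr rfl fun j _ => lintegral_const_mul' _ _ ENNReal.ofReal_ne_top
        _ ≤ ENNReal.ofReal (D ^ p) * ENNReal.ofReal (κ / D ^ p) := by
            gcongr
            exact hf.near
        _ = ENNReal.ofReal κ := by
            rw [← ENNReal.ofReal_mul hDp.le]
            congr 1
            field_simp
  obtain ⟨P, hP, hPc, hPe⟩ := H _ _ _ hN
  refine ⟨O.symm ∘ P, AB.isDiffeo_comp hP (diffeo_symm O), ?_, ?_⟩
  · intro δ hδ
    obtain ⟨K, hKs, hK, hKδ⟩ := hPc (δ / C) (div_pos hδ hC0)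
    refine ⟨K, hKs, hK, fun x hx => ?_⟩
    have e1 : (O.symm ∘ P) x - f x = O.symm (P x - O (f x)) := by
      rw [map_sub, O.symm_apply_apply]
      rfl
    rw [e1]
    calc ‖O.symm (P x - O (f x))‖ ≤ C * ‖P x - O (f x)‖ := hTC _
      _ ≤ C * (δ / C) := by
          gcongr
          exact hKδ x hx
      _ = δ := by field_simp
  · calc ∑ j, ∫⁻ x in Q1, ENNReal.ofReal (‖fderiv ℝ (O.symm ∘ P) x (ev j) -
          cl (F x) (ev j)‖ ^ p)
        ≤ ∑ j, ∫⁻ x in Q1, ENNReal.ofReal (C ^ p) *
            ENNReal.ofReal (‖fderiv ℝ P x (ev j) - cl (mm A (F x)) (ev j)‖ ^ p) := by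
          refine Finset.sum_le_sum fun j _ => ?_
          refine setLIntegral_mono' hΩ.measurableSet fun x hx => ?_
          have hd : DifferentiableAt ℝ P x :=
            ((AB.diffeo_smooth hP).contDiffAt (hΩ.mem_nhds hx)).differentiableAt (by simp)
          have e0 : fderiv ℝ (O.symm ∘ P) x = (O.symm : V →L[ℝ] V).comp (fderiv ℝ P x) :=
            ((O.symm : V →L[ℝ] V).hasFDerivAt.comp x hd.hasFDerivAt).fderiv
          have e1 : fderiv ℝ (O.symm ∘ P) x (ev j) - cl (F x) (ev j) =
              O.symm (fderiv ℝ P x (ev j) - cl (mm A (F x)) (ev j)) := by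
            rw [e0, map_sub, ← hcl, O.symm_apply_apply]
            rfl
          rw [e1]
          exact hrC _
      _ = ENNReal.ofReal (C ^ p) * ∑ j, ∫⁻ x in Q1,
            ENNReal.ofReal (‖fderiv ℝ P x (ev j) - cl (mm A (F x)) (ev j)‖ ^ p) := by
          rw [Finset.mul_sum]
          exact Finset.sum_congr rfl fun j _ => lintegral_const_mul' _ _ ENNReal.ofReal_ne_top
      _ ≤ ENNReal.ofReal (C ^ p) * ENNReal.ofReal (ε / C ^ p) := by gcongr
      _ = ENNReal.ofReal ε := by
          rw [← ENNReal.ofReal_mul hCp.le]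
          congr 1
          field_simp

/-- three linearly independent vectors can be mapped to the basis vectors -/
theorem exists_equiv_three {v : Fin 3 → V} (hv : LinearIndependent ℝ v) :
    ∃ O : V ≃L[ℝ] V, ∀ i, O (v i) = ev i := by
  have hc : Fintype.card (Fin 3) = Module.finrank ℝ V := by simp [V]
  set b := basisOfLinearIndependentOfCardEqFinrank hv hc with hb
  refine ⟨b.equivFun.toContinuousLinearEquiv, fun i => ?_⟩
  have h1 : b i = v i := by rw [hb, coe_basisOfLinearIndependentOfCardEqFinrank]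
  rw [← h1]
  funext k
  simp [ev, Module.Basis.equivFun_self, Pi.single_apply, Finsupp.single_apply, eq_comm]

theorem exists_equiv_two {a b : V} (h : ∀ s t : ℝ, s • a + t • b = 0 → s = 0 ∧ t = 0) :
    ∃ O : V ≃L[ℝ] V, O a = ev 0 ∧ O b = ev 1 := by
  have h1 : LinearIndependent ℝ ![a, b] := LinearIndependent.pair_iff.2 h
  obtain ⟨c, hc⟩ := exists_linearIndependent_snoc_of_lt_finrank h1 (by simp [V])
  obtain ⟨O, hO⟩ := exists_equiv_three hc
  exact ⟨O, by simpa [Fin.snoc] using hO 0, by simpa [Fin.snoc] using hO 1⟩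

theorem exists_equiv_one {a : V} (ha : a ≠ 0) : ∃ O : V ≃L[ℝ] V, O a = ev 0 := by
  have h1 : LinearIndependent ℝ ![a] := by
    rw [linearIndependent_unique_iff]
    simpa using ha
  obtain ⟨b, hb⟩ := exists_linearIndependent_snoc_of_lt_finrank h1 (by simp [V])
  obtain ⟨c, hc⟩ := exists_linearIndependent_snoc_of_lt_finrank hb (by simp [V])
  obtain ⟨O, hO⟩ := exists_equiv_three hc
  exact ⟨O, by simpa [Fin.snoc] using hO 0⟩

theorem ext_ev {L M : V →L[ℝ] V} (h : ∀ j, L (ev j) = M (ev j)) : L = M := by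
  refine ContinuousLinearMap.ext fun v => ?_
  have hv : v = ∑ j, v j • ev j := by
    funext i
    simp [ev, Finset.sum_apply, Pi.single_apply]
  rw [hv, map_sum, map_sum]
  simp only [map_smul, h]

/-- **(C8)** the two normal forms suffice -/
theorem specC8 : SpecC8 := by
  intro p hp
  constructor
  · intro h L ⟨h1, h2, h0⟩
    obtain ⟨O, hO⟩ := exists_equiv_one h0
    refine loc_of_locThm (specC7 p L O hp ?_)
    have : O.toContinuousLinearMap ∘L L = P1 := by
      refine ext_ev fun j => ?_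
      have e0 : (O.toContinuousLinearMap ∘L L) (ev j) = O (L (ev j)) := rfl
      rw [e0]
      have e1 : P1 (ev j) = (ev j : V) 0 • ev 0 := rfl
      rw [e1]
      fin_cases j
      · simpa [ev] using hO
      · simpa [ev] using h1
      · simpa [ev] using h2
    rw [this]
    exact h
  · intro h L ⟨h2, hi⟩
    obtain ⟨O, hO0, hO1⟩ := exists_equiv_two hi
    refine loc_of_locThm (specC7 p L O hp ?_)
    have : O.toContinuousLinearMap ∘L L = P2 := by
      refine ext_ev fun j => ?_
      have e0 : (O.toContinuousLinearMap ∘L L) (ev j) = O (L (ev j)) := rfl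
      rw [e0]
      have e1 : P2 (ev j) = ev j - (ev j : V) 2 • ev 2 := rfl
      rw [e1]
      fin_cases j
      · simpa [ev] using hO0
      · simpa [ev] using hO1
      · simpa [ev] using h2
    rw [this]
    exact h

end Vale.Agent.P073.H582
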