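import Vale.Agent.P073.H582.XE3
import Vale.Agent.P073.H239.FSpec2

/-!
# P073, block B10, [EdB]: the edges of the middle plane
-/

open Set MeasureTheory Filter Topology Metric
open scoped ENNReal NNReal

namespace Vale.Agent.P073.H582

open Vale.Agent.P073.St (V Mat euc)
open Vale.Agent.P073.SQ (ev)
open Vale.Agent.P073.AB
open Vale.Agent.P073.H235
open Vale.Agent.P073.H73 (segP onSeg MinEdge)
open Vale.Agent.P073.H194 (sInt Rg up sc_up edge_sub_Rg)
open Vale.Agent.P073.H333 (eInt_mono' eInt_mono_on)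
open Vale.Agent.P073.H851 (M3)
open _root_.P073 (ConHomeo)
open _root_.P073.Gauge (gam)

theorem euc_ev (i : Fin 3) : euc (ev i : V) = 1 := by
  rw [euc, Fin.sum_univ_three]
  fin_cases i <;> simp [ev]

theorem diff_op_le {v : V} {e : Idx × Fin 3} {F : V → Mat} (he2 : e.2 ≠ 2) :
    eInt v e (fun x => ENNReal.ofReal ‖cl (F x) (ev e.2) - ev e.2‖) ≤
      eInt v e fun x => ‖cl (F x) - P2‖ₑ := by
  refine eInt_mono' v e fun x => ?_
  rw [← ofReal_norm_eq_enorm]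
  refine ENNReal.ofReal_le_ofReal ?_
  have h2 : cl (F x) (ev e.2) - ev e.2 = (cl (F x) - P2) (ev e.2) := by
    rw [ContinuousLinearMap.sub_apply, P2_ev he2]
  rw [h2]
  refine ((cl (F x) - P2).le_opNorm _).trans ?_
  rw [S293.ev_norm, mul_one]

/-- displacement of `f` along an edge -/
theorem disp_sub_le {v : V} {e : Idx × Fin 3} {Ω : Set V} {f : V → V} {F : V → Mat}
    (rat : RatGood v Ω f F) (he : edge v e ⊆ Ω) (w : V) :
    ‖f (segP v e).2 - f (segP v e).1 - (1 / 2 ^ e.1.1 : ℝ) • w‖ₑ ≤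
      eInt v e fun x => ENNReal.ofReal ‖cl (F x) (ev e.2) - w‖ := by
  have h1 := rat (pt v e.1.1 e.1.2) (pt v e.1.1 e.1.2 + (1 / 2 ^ e.1.1 : ℝ) • ev e.2)
    (fun k => ⟨(e.1.2 k : ℚ) / 2 ^ e.1.1, by simp [pt]⟩)
    (fun k => ⟨(e.1.2 k : ℚ) / 2 ^ e.1.1 + 1 / 2 ^ e.1.1 * (if k = e.2 then 1 else 0), by
      by_cases hk : k = e.2
      · subst hk; simp [pt, ev]; ring
      · simp [pt, ev, hk]⟩) he
  rw [add_sub_cancel_left] at h1
  set x := pt v e.1.1 e.1.2 with hx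
  set a : ℝ := 1 / 2 ^ e.1.1 with ha
  have ha0 : 0 < a := by positivity
  have h2 := h1.2 1 ⟨zero_le_one, le_rfl⟩
  rw [one_smul] at h2
  have h3 : f (segP v e).2 - f (segP v e).1 - a • w =
      ∫ s in (0:ℝ)..1, (a • (cl (F (x + s • (a • ev e.2))) (ev e.2) - w)) := by
    have e1 : ∀ s : ℝ, a • (cl (F (x + s • (a • ev e.2))) (ev e.2) - w) =
        cl (F (x + s • (a • ev e.2))) (a • ev e.2) - a • w := by
      intro s
      rw [map_smul, smul_sub]
    simp only [e1]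
    rw [intervalIntegral.integral_sub h1.1 intervalIntegrable_const,
      intervalIntegral.integral_const, sub_zero, one_smul]
    have e2 : f (segP v e).2 = f (x + a • ev e.2) := rfl
    have e3 : f (segP v e).1 = f x := rfl
    rw [e2, e3, h2]
    abel
  rw [h3, intervalIntegral.integral_of_le zero_le_one]
  refine (enorm_integral_le_lintegral_enorm _).trans ?_
  unfold eInt
  rw [← lintegral_const_mul' _ _ ENNReal.ofReal_ne_top, restrict_Ioc_eq_restrict_Icc]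
  refine lintegral_mono fun t => ?_
  show _ ≤ ENNReal.ofReal a * ENNReal.ofReal ‖cl (F (x + t • a • ev e.2)) (ev e.2) - w‖
  rw [enorm_smul, Real.enorm_of_nonneg ha0.le, ofReal_norm_eq_enorm]

/-- the displacement of `f` in the direction of the edge is almost the length of the edge -/
theorem disp_strong {v : V} {e : Idx × Fin 3} {Ω : Set V} {f : V → V} {F : V → Mat}
    (rat : RatGood v Ω f F) (he : edge v e ⊆ Ω) (hi : e.2 ≠ 2) :
    ENNReal.ofReal (1 / 2 ^ e.1.1 - (f (segP v e).2 e.2 - f (segP v e).1 e.2)) ≤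
      eInt v e fun x => ‖cl (F x) - P2‖ₑ := by
  refine le_trans ?_ ((disp_sub_le rat he (ev e.2)).trans (diff_op_le hi))
  rw [← ofReal_norm_eq_enorm]
  refine ENNReal.ofReal_le_ofReal ?_
  have h4 := norm_le_pi_norm (f (segP v e).2 - f (segP v e).1 - (1 / 2 ^ e.1.1 : ℝ) • ev e.2) e.2
  rw [Pi.sub_apply, Pi.sub_apply, Pi.smul_apply, Real.norm_eq_abs] at h4
  have h5 : (ev e.2 : V) e.2 = 1 := by simp [ev]
  rw [h5, smul_eq_mul, mul_one] at h4
  have h6 := (abs_le.1 h4).1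
  linarith

theorem le_add_of_sub {a x : ℝ} {y : ℝ≥0∞} (h : ENNReal.ofReal (a - x) ≤ y) :
    ENNReal.ofReal a ≤ ENNReal.ofReal x + y := by
  calc ENNReal.ofReal a = ENNReal.ofReal (x + (a - x)) := by rw [add_sub_cancel]
    _ ≤ ENNReal.ofReal x + ENNReal.ofReal (a - x) := ENNReal.ofReal_add_le
    _ ≤ _ := by gcongr

/-- Euclidean length of a conical map on an edge in direction `i ≠ 2` -/
theorem len2_le {Ω Λ : Set V} {v : V} {e : Idx × Fin 3} {f : V → V} {F : V → Mat}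
    (rat : RatGood v Ω f F) (he : edge v e ⊆ Ω) (he2 : e.2 ≠ 2) (h : ConHomeo Ω Λ) {b : ℝ}
    (hh : eInt v e (fun x => ENNReal.ofReal ‖lineDeriv ℝ h.toFun x (ev e.2) -
      cl (F x) (ev e.2)‖) ≤ ENNReal.ofReal b) :
    H239.len2 h.toFun (segP v e) ≤ ENNReal.ofReal (1 / 2 ^ e.1.1) +
      2 * (eInt v e (fun x => ‖cl (F x) - P2‖ₑ) + ENNReal.ofReal b) := by
  have h1 : H239.len2 h.toFun (segP v e) ≤
      eInt v e fun x => ENNReal.ofReal (euc (lineDeriv ℝ h.toFun x (ev e.2))) :=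
    H687.len_onSeg_euc h he
  refine h1.trans ?_
  have h2 : eInt v e (fun x => ENNReal.ofReal (euc (lineDeriv ℝ h.toFun x (ev e.2)))) ≤
      eInt v e fun x => (2 * ENNReal.ofReal ‖lineDeriv ℝ h.toFun x (ev e.2) -
        cl (F x) (ev e.2)‖ + 2 * ENNReal.ofReal ‖cl (F x) (ev e.2) - ev e.2‖) + 1 := by
    refine eInt_mono' v e fun x => ?_
    set A := lineDeriv ℝ h.toFun x (ev e.2)
    set B := cl (F x) (ev e.2)
    have h3 : euc A ≤ 2 * ‖A - B‖ + 2 * ‖B - ev e.2‖ + 1 := by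
      have e1 : A = (A - B) + ((B - ev e.2) + ev e.2) := by abel
      have e2 : euc (ev e.2) = 1 := euc_ev _
      calc euc A = euc ((A - B) + ((B - ev e.2) + ev e.2)) := by rw [← e1]
        _ ≤ euc (A - B) + (euc (B - ev e.2) + euc (ev e.2)) :=
          (_root_.P073.Net.euc_add_le _ _).trans (add_le_add le_rfl
            (_root_.P073.Net.euc_add_le _ _))
        _ ≤ 2 * ‖A - B‖ + (2 * ‖B - ev e.2‖ + 1) := by
          rw [e2]
          exact add_le_add (_root_.P073.Net.euc_le _)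
            (add_le_add (_root_.P073.Net.euc_le _) le_rfl)
        _ = _ := by ring
    refine (ENNReal.ofReal_le_ofReal h3).trans (le_of_eq ?_)
    rw [ENNReal.ofReal_add (by positivity) zero_le_one, ENNReal.ofReal_add (by positivity)
      (by positivity), ENNReal.ofReal_mul (by norm_num), ENNReal.ofReal_mul (by norm_num),
      ENNReal.ofReal_one]
    norm_num
  refine h2.trans ?_
  have hm : AEMeasurable (fun t => 2 * ENNReal.ofReal ‖cl (F (S293.gam v e t)) (ev e.2) - ev e.2‖)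
      (volume.restrict (Icc (0:ℝ) 1)) := by
    simpa using S293.aemeas_pow rat he (ev e.2) 1 2
  rw [H333.eInt_add_cst, mul_one, S293.eInt_add _ _ _ _ hm, S293.eInt_const_mul _ _ _ (by norm_num),
    S293.eInt_const_mul _ _ _ (by norm_num), add_comm, ← mul_add,
    add_comm (eInt v e fun x => ENNReal.ofReal ‖lineDeriv ℝ h.toFun x (ev e.2) - _‖)]
  gcongr
  exact diff_op_le he2

/-- **[EdB]** -/
theorem edB_of {p C₀ θ κ : ℝ} {m₀ : ℕ} {Λ : Set V} {f : V → V} {F : V → Mat} (hp : 1 ≤ p)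
    (hκ : 0 < κ) (D : VData2 p C₀ θ κ m₀ Λ f F) {α β : Fin 3 → ℤ} (hα : α 2 = D.B)
    (hαβ : ∀ j, j ≠ 2 → α j < β j) (hR : Rg D.v m₀ α β ⊆ Bx (fl θ))
    (hcard : (rect α β).card ≤ 4 ^ m₀) {δ₁ : ℝ} (hδ₁ : 0 < δ₁) :
    ∃ l₀ : ℕ, ∀ l ≥ l₀, m₀ ≤ D.nn l → ∀ b : ℝ, 0 < b → b ≤ 1 →
    ∀ (Cu : ℝ) (Lc : M3 → ℝ) (δ : ℝ) (j : ℕ) (ε : ℝ)
      (X : H696.R2 p Cu Lc δ j ε (Bx (fl θ)) Λ (cmp (fl θ) f) (cmpD (fl θ) F) D.v),
      4 ^ p * (κ + δ₁ + 2 * b) ≤ ε →
      (∀ i, i ≠ 2 → ∀ k ∈ redge (up m₀ (D.nn l) α) (up m₀ (D.nn l) β) i,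
        eInt D.v ((D.nn l, k), i) (fun x => ENNReal.ofReal ‖lineDeriv ℝ X.h₁.toFun x (ev i) -
          cl (cmpD (fl θ) F x) (ev i)‖) ≤ ENNReal.ofReal (b / 2 ^ D.nn l)) →
      H239.EdB X (D.nn l) (up m₀ (D.nn l) α) (up m₀ (D.nn l) β) (XE θ D.v F b) := by
  obtain ⟨l₀, hl₀⟩ := XE_sum hp hκ D hα hαβ hR hcard hδ₁
  refine ⟨l₀, fun l hl hml b hb hb1 Cu Lc δ j ε X hε hh => ?_⟩
  set n := D.nn l with hn
  have hSc := sc_up hml α β
  have hedge : ∀ i, i ≠ 2 → ∀ k ∈ redge (up m₀ n α) (up m₀ n β) i,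
      edge D.v ((n, k), i) ⊆ Bx (fl θ) := fun i hi k hk =>
    (edge_sub_Rg (v := D.v) hSc hi hk).trans hR
  refine ⟨fun i hi k hk => ?_, fun i hi k hk => ?_, ?_⟩
  · exact len2_le D.rat (hedge i hi k hk) hi X.h₁ (hh i hi k hk)
  · have hs := disp_strong D.rat (hedge i hi k hk) hi
    have h2 : ENNReal.ofReal (1 / 2 ^ n - (cmp (fl θ) f (segP D.v ((n, k), i)).2 i -
        cmp (fl θ) f (segP D.v ((n, k), i)).1 i)) ≤ XE θ D.v F b ((n, k), i) := by
      refine hs.trans ?_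
      unfold XE
      rw [two_mul]
      exact le_self_add.trans le_self_add
    first
    | exact h2
    | exact le_add_of_sub h2
  · exact (hl₀ l hl hml b hb hb1).trans (ENNReal.ofReal_le_ofReal hε)

/-- **[ED-F]** -/
theorem specEdF {p : ℝ} (hp : 1 ≤ p) : H239.SpecEdF p := by
  refine ⟨2 * 4 ^ p, by positivity, ?_⟩
  intro C₀ θ κ m₀ Λ f F _ _ hκ D α β hα hαβ hR hcard δ₁ hδ₁
  obtain ⟨l₀, hl₀⟩ := edB_of hp hκ D hα hαβ hR hcard hδ₁
  refine ⟨l₀, fun l hl hml Cu Lc δ j ε X b hb hb1 hε hh => ⟨_, hl₀ l hl hml b hb hb1 Cu Lc δ j ε X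
    (le_trans ?_ hε) hh⟩⟩
  have h4 : (0:ℝ) ≤ 4 ^ p := by positivity
  nlinarith [mul_nonneg h4 hκ.le, mul_nonneg h4 hδ₁.le, mul_nonneg h4 hb.le]

end Vale.Agent.P073.H582
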