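import Vale.Agent.P073.H687.MinSum
import Vale.Agent.P073.H687.Area
import Vale.Agent.P073.H304.R1Sum
import Vale.Agent.P073.H803.Dya

/-!
# P073, block B09, [E2]: a partition in which some cubes are subdivided

`Ref v I₁ S I₂`: the cubes of `I₁ \ S` are kept, the cubes of `S` are subdivided.
-/

open Set Metric Topology Filter MeasureTheory
open scoped ENNReal

namespace Vale.Agent.P073.H582

open Vale.Agent.P073
open Vale.Agent.P073.St (V)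
open Vale.Agent.P073.SQ (ev)
open Vale.Agent.P073.AB Vale.Agent.P073.AB.P86
open Vale.Agent.P073.H73 (MinEdge segP)
open Vale.Agent.P073.H194 (cellT)
open Vale.Agent.P073.H687
open _root_.P073.Net (dyc dyo)

variable {Ω : Set V} {v : V} {I₁ I₂ S : Set Idx}

/-- the cubes of `I₁ \ S` are kept, all other cubes of `I₂` are contained in cubes of `S` -/
structure Ref (v : V) (I₁ S I₂ : Set Idx) : Prop where
  sub : S ⊆ I₁
  keep : ∀ q ∈ I₁, q ∉ S → q ∈ I₂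
  fine : ∀ q ∈ I₂, q ∉ I₁ \ S → ∃ q' ∈ S, dyc v q.1 q.2 ⊆ dyc v q'.1 q'.2

/-- nested dyadic edges -/
theorem edge_sub_edge {e e' : Idx × Fin 3} (hge : e.1.1 ≤ e'.1.1) {x : V} (hx : x ∈ edge v e')
    (hx' : x ∈ edge v e) (h1 : v e'.2 + e'.1.2 e'.2 / 2 ^ e'.1.1 < x e'.2)
    (h2 : x e'.2 < v e'.2 + (e'.1.2 e'.2 + 1) / 2 ^ e'.1.1) : edge v e' ⊆ edge v e := by
  obtain ⟨⟨m', z'⟩, k'⟩ := e
  obtain ⟨⟨m, z⟩, k⟩ := e'
  have hge' : m' ≤ m := hge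
  have h1' : v k + (z k : ℝ) / 2 ^ m < x k := h1
  have h2' : x k < v k + ((z k : ℝ) + 1) / 2 ^ m := h2
  have hx1 := Gr.mem_edge.1 hx
  have hx2 := Gr.mem_edge.1 hx'
  have hk : k' = k := by
    by_contra hkk
    have a : x k = v k + (z' k : ℝ) / 2 ^ m' := hx2.1 k (Ne.symm hkk)
    have b : (z' k : ℝ) / 2 ^ m' < ((z k : ℝ) + 1) / 2 ^ m := by linarith
    have := _root_.P073.Net.NC.dyB hge' b
    linarith
  subst hk
  have c1 : v k' + (z' k' : ℝ) / 2 ^ m' ≤ x k' := hx2.2.1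
  have c2 : x k' ≤ v k' + ((z' k' : ℝ) + 1) / 2 ^ m' := hx2.2.2
  have d1 : (z' k' : ℝ) / 2 ^ m' ≤ (z k' : ℝ) / 2 ^ m :=
    _root_.P073.Net.NC.dyB hge' (by linarith)
  have d2 : ((z k' : ℝ) + 1) / 2 ^ m ≤ ((z' k' : ℝ) + 1) / 2 ^ m' := by
    have := _root_.P073.Net.NC.dyA (a := z' k' + 1) (b := z k') hge' (by push_cast; linarith)
    push_cast at this
    exact this
  intro y hy
  have hy1 := Gr.mem_edge.1 hy
  rw [Gr.mem_edge]
  refine ⟨fun j hj => ?_, ?_, ?_⟩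
  · have e1 : y j = v j + (z j : ℝ) / 2 ^ m := hy1.1 j hj
    have e2 : x j = v j + (z j : ℝ) / 2 ^ m := hx1.1 j hj
    have e3 : x j = v j + (z' j : ℝ) / 2 ^ m' := hx2.1 j hj
    show y j = v j + (z' j : ℝ) / 2 ^ m'
    rw [e1, ← e2, e3]
  · have e1 : v k' + (z k' : ℝ) / 2 ^ m ≤ y k' := hy1.2.1
    show v k' + (z' k' : ℝ) / 2 ^ m' ≤ y k'
    linarith
  · have e1 : y k' ≤ v k' + ((z k' : ℝ) + 1) / 2 ^ m := hy1.2.2
    show y k' ≤ v k' + ((z' k' : ℝ) + 1) / 2 ^ m'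
    linarith

/-- the open segment of an edge is infinite: an inner point off a finite set -/
theorem exists_inner (v : V) (e : Idx × Fin 3) {T : Set V} (hT : T.Finite) :
    ∃ x ∈ edge v e, x ∉ T ∧ v e.2 + e.1.2 e.2 / 2 ^ e.1.1 < x e.2 ∧
      x e.2 < v e.2 + (e.1.2 e.2 + 1) / 2 ^ e.1.1 := by
  have hpos : (0:ℝ) < 1 / 2 ^ e.1.1 := by positivity
  set γ : ℝ → V := fun t => pt v e.1.1 e.1.2 + t • ((1 / 2 ^ e.1.1 : ℝ) • ev e.2) with hγ
  have hk : ∀ t, γ t e.2 = v e.2 + e.1.2 e.2 / 2 ^ e.1.1 + t * (1 / 2 ^ e.1.1) := by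
    intro t
    simp [hγ, pt, ev]
  have hinj : Function.Injective γ := by
    intro t t' h
    have h1 := congrFun h e.2
    rw [hk, hk] at h1
    have h2 : t * (1 / 2 ^ e.1.1) = t' * (1 / 2 ^ e.1.1 : ℝ) := by linarith
    exact mul_right_cancel₀ hpos.ne' h2
  have h1 : (γ ⁻¹' T).Finite := hT.preimage hinj.injOn
  obtain ⟨t, ht, htT⟩ : (Ioo (0:ℝ) 1 \ γ ⁻¹' T).Nonempty :=
    (Ioo_infinite (by norm_num : (0:ℝ) < 1)).diff h1 |>.nonempty
  refine ⟨γ t, ?_, htT, ?_, ?_⟩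
  · show γ t ∈ segment ℝ _ _
    rw [segment_eq_image']
    exact ⟨t, Ioo_subset_Icc_self ht, by simp [hγ]⟩
  · rw [hk]; have := mul_pos ht.1 hpos; linarith
  · rw [hk, div_add_one]
    have := mul_lt_mul_of_pos_right ht.2 hpos
    linarith

/-- dyadic edges of the same generation with a common inner point -/
theorem edge_eq {e e' : Idx × Fin 3} (hge : e.1.1 = e'.1.1) {x : V} (hx : x ∈ edge v e')
    (hx' : x ∈ edge v e) (h1 : v e'.2 + e'.1.2 e'.2 / 2 ^ e'.1.1 < x e'.2)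
    (h2 : x e'.2 < v e'.2 + (e'.1.2 e'.2 + 1) / 2 ^ e'.1.1) : e' = e := by
  obtain ⟨⟨m', z'⟩, k'⟩ := e
  obtain ⟨⟨m, z⟩, k⟩ := e'
  obtain rfl : m' = m := hge
  have h0 : (0:ℝ) < 2 ^ m' := by positivity
  have h1' : v k + (z k : ℝ) / 2 ^ m' < x k := h1
  have h2' : x k < v k + ((z k : ℝ) + 1) / 2 ^ m' := h2
  have hx1 := Gr.mem_edge.1 hx
  have hx2 := Gr.mem_edge.1 hx'
  have hk : k' = k := by
    by_contra hkk
    have a : x k = v k + (z' k : ℝ) / 2 ^ m' := hx2.1 k (Ne.symm hkk)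
    have b1 : (z' k : ℝ) / 2 ^ m' < ((z k : ℝ) + 1) / 2 ^ m' := by linarith
    have b2 : (z k : ℝ) / 2 ^ m' < (z' k : ℝ) / 2 ^ m' := by linarith
    rw [div_lt_div_iff_of_pos_right h0] at b1 b2
    have c1 : z' k < z k + 1 := by exact_mod_cast b1
    have c2 : z k < z' k := by exact_mod_cast b2
    omega
  subst hk
  have hz : z = z' := by
    funext j
    by_cases hj : j = k'
    · subst hj
      have c1 : v j + (z' j : ℝ) / 2 ^ m' ≤ x j := hx2.2.1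
      have c2 : x j ≤ v j + ((z' j : ℝ) + 1) / 2 ^ m' := hx2.2.2
      have b1 : (z' j : ℝ) / 2 ^ m' < ((z j : ℝ) + 1) / 2 ^ m' := by linarith
      have b2 : (z j : ℝ) / 2 ^ m' < ((z' j : ℝ) + 1) / 2 ^ m' := by linarith
      rw [div_lt_div_iff_of_pos_right h0] at b1 b2
      have c1 : z' j < z j + 1 := by exact_mod_cast b1
      have c2 : z j < z' j + 1 := by exact_mod_cast b2
      omega
    · have e2 : x j = v j + (z j : ℝ) / 2 ^ m' := hx1.1 j hj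
      have e3 : x j = v j + (z' j : ℝ) / 2 ^ m' := hx2.1 j hj
      have e4 : (z j : ℝ) / 2 ^ m' = z' j / 2 ^ m' := by linarith
      rw [div_left_inj' h0.ne'] at e4
      exact_mod_cast e4
  rw [hz]

theorem gen_le_of_edge_dyc {e : Idx × Fin 3} {q : Idx} (h : edge v e ⊆ dyc v q.1 q.2) :
    q.1 ≤ e.1.1 := by
  have h3 := (h (left_mem_segment ℝ _ _)) e.2
  have h4 := (h (right_mem_segment ℝ _ _)) e.2
  simp only [pt, Pi.add_apply, Pi.smul_apply, ev, Pi.single_eq_same, smul_eq_mul, mul_one] at h3 h4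
  refine H803.pow_le_of_div ?_
  have h5 := h3.1
  have h6 := h4.2
  rw [add_div] at h6
  linarith

/-- two cubes of a partition meet in a coordinate plane -/
theorem exists_plane {I : Set Idx} (hI : Part Ω v I) {q q' : Idx} (hq : q ∈ I) (hq' : q' ∈ I)
    (hne : q ≠ q') : ∃ (j : Fin 3) (a : ℝ), ∀ y ∈ dyc v q.1 q.2 ∩ dyc v q'.1 q'.2, y j = a := by
  wlog hle : q.1 ≤ q'.1 generalizing q q'
  · obtain ⟨j, a, h⟩ := this hq' hq hne.symm (le_of_not_ge hle)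
    exact ⟨j, a, fun y hy => h y hy.symm⟩
  rcases Set.eq_empty_or_nonempty (dyc v q.1 q.2 ∩ dyc v q'.1 q'.2) with h0 | ⟨x, hx, hx'⟩
  · exact ⟨0, 0, fun y hy => by rw [h0] at hy; exact absurd hy (notMem_empty y)⟩
  have hc : ∀ k, _ := fun k => side_cases hle (hx k).1 (hx k).2 (hx' k).1 (hx' k).2
  obtain ⟨j, hj⟩ : ∃ j, (q'.2 j : ℝ) / 2 ^ q'.1 = (q.2 j + 1) / 2 ^ q.1 ∨
      ((q'.2 j : ℝ) + 1) / 2 ^ q'.1 = q.2 j / 2 ^ q.1 := by
    by_contra hcon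
    push Not at hcon
    have h3 : dyc v q'.1 q'.2 ⊆ dyc v q.1 q.2 := _root_.P073.Net.NC.dyc_sub fun k => by
      rcases hc k with h | h | h
      · exact h
      · exact absurd h (hcon k).1
      · exact absurd h (hcon k).2
    exact hne (eq_of_sub hI hq' hq h3).symm
  rcases hj with h | h
  · refine ⟨j, v j + (q.2 j + 1) / 2 ^ q.1, fun y hy => ?_⟩
    have a1 := (hy.1 j).2
    have a2 := (hy.2 j).1
    rw [h] at a2
    exact le_antisymm a1 a2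
  · refine ⟨j, v j + q.2 j / 2 ^ q.1, fun y hy => ?_⟩
    have a1 := (hy.1 j).1
    have a2 := (hy.2 j).2
    rw [h] at a2
    exact le_antisymm a2 a1

/-- if the intersection of two cubes of a partition contains a dyadic square, it is
two-dimensional -/
theorem two_of_squ {I : Set Idx} (hI : Part Ω v I) {q q' : Idx} (hq : q ∈ I) (hq' : q' ∈ I)
    (hne : q ≠ q') {s : Idx × Fin 3} (h : squ v s ⊆ dyc v q.1 q.2 ∩ dyc v q'.1 q'.2) :
    H687.Two (dyc v q.1 q.2 ∩ dyc v q'.1 q'.2) := by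
  obtain ⟨j, a, hj⟩ := exists_plane hI hq hq' hne
  have h1 := vectorSpan_le_ker (f := (ContinuousLinearMap.proj j : V →L[ℝ] ℝ)) (u := a) hj
  have h2 : vectorSpan ℝ (squ v s) ≤ vectorSpan ℝ (dyc v q.1 q.2 ∩ dyc v q'.1 q'.2) :=
    vectorSpan_mono ℝ h
  have h3 : Module.finrank ℝ (vectorSpan ℝ (squ v s)) = 2 := two_squ v s
  have h4 : Module.finrank ℝ
      (LinearMap.ker ((ContinuousLinearMap.proj j : V →L[ℝ] ℝ) : V →ₗ[ℝ] ℝ)) = 2 :=
    finrank_ker (proj_ne_zero j)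
  have h5 := Submodule.finrank_mono h1
  have h6 := Submodule.finrank_mono h2
  show Module.finrank ℝ _ = 2
  omega

namespace Ref

/-- every cube of `I₂` is contained in a cube of `I₁` -/
theorem exists_coarse (R : Ref v I₁ S I₂) {q : Idx} (hq : q ∈ I₂) :
    ∃ Q ∈ I₁, dyc v q.1 q.2 ⊆ dyc v Q.1 Q.2 ∧ (Q = q ∧ Q ∉ S ∨ Q ∈ S) := by
  by_cases h : q ∈ I₁ \ S
  · exact ⟨q, h.1, Subset.rfl, Or.inl ⟨rfl, h.2⟩⟩
  · obtain ⟨Q, hQ, hsub⟩ := R.fine q hq h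
    exact ⟨Q, R.sub hQ, hsub, Or.inr hQ⟩

/-- the cubes of `I₂` in a cube of `I₁` cover it -/
theorem exists_fine (R : Ref v I₁ S I₂) (hΩ : IsOpen Ω) (hI₁ : Part Ω v I₁) (hI₂ : Part Ω v I₂)
    {Q : Idx} (hQ : Q ∈ I₁) {x : V} (hx : x ∈ dyc v Q.1 Q.2) :
    ∃ q ∈ I₂, x ∈ dyc v q.1 q.2 ∧ dyc v q.1 q.2 ⊆ dyc v Q.1 Q.2 := by
  obtain ⟨q, hq, hxq, y, hy, hyq⟩ := cross hΩ hI₂ (hI₁.sub Q hQ hx) hx
  obtain ⟨Q', hQ', hsub, -⟩ := R.exists_coarse hq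
  have h1 : Q = Q' := eq_of_mem hI₁ hQ hQ' hy (hsub hyq)
  exact ⟨q, hq, hxq, h1 ▸ hsub⟩

/-- a minimal square of `I₂` in a kept cube lies in a minimal square of `I₁`; it is equal to it, or
the latter lies in a subdivided cube -/
theorem squ_coarse (R : Ref v I₁ S I₂) (hΩ : IsOpen Ω) (hI₁ : Part Ω v I₁) (hI₂ : Part Ω v I₂)
    {q : Idx} (hq : q ∈ I₁) (hqS : q ∉ S) {s : Idx × Fin 3} (hs : MinSq v I₂ s)
    (hsq : squ v s ⊆ dyc v q.1 q.2) :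
    ∃ t, MinSq v I₁ t ∧ squ v s ⊆ squ v t ∧ squ v t ⊆ dyc v q.1 q.2 ∧
      (squ v s = squ v t ∨ ∃ Q ∈ S, squ v t ⊆ dyc v Q.1 Q.2) := by
  -- the other cube
  have key : ∃ r ∈ I₂, r ≠ q ∧ dyc v q.1 q.2 ∩ dyc v r.1 r.2 = squ v s := by
    obtain ⟨qp, qm, h2⟩ := two_of_minSq hΩ hI₂ hs
    have h3 := inter_eq hI₂ hs h2
    have h4 := ne_of_two hI₂ hs h2
    rcases eq_of_squ_sub hI₂ h2 (R.keep q hq hqS) hsq with h | h
    · subst h
      exact ⟨qm, h2.memm, h4.symm, h3⟩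
    · subst h
      exact ⟨qp, h2.memp, h4, by rw [inter_comm]; exact h3⟩
  obtain ⟨r, hr, hrq, hrs⟩ := key
  obtain ⟨Q, hQ, hsub, hcase⟩ := R.exists_coarse hr
  have hQq : Q ≠ q := by
    rintro rfl
    exact hrq (eq_of_sub hI₂ hr (R.keep _ hq hqS) hsub)
  have h2 : H687.Two (dyc v q.1 q.2 ∩ dyc v Q.1 Q.2) :=
    two_of_squ hI₁ hq hQ hQq.symm (s := s) (by rw [← hrs]; exact inter_subset_inter_right _ hsub)
  obtain ⟨t, ht, hts⟩ := exists_squ hI₁ hq hQ hQq.symm h2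
  refine ⟨t, ht, ?_, ?_, ?_⟩
  · rw [← hts, ← hrs]
    exact inter_subset_inter_right _ hsub
  · rw [← hts]; exact inter_subset_left
  · rcases hcase with ⟨h, -⟩ | h
    · left
      rw [← hts, ← hrs, h]
    · right
      exact ⟨Q, h, by rw [← hts]; exact inter_subset_right⟩

/-- a minimal edge of `I₂` in an edge of `I₁` lies in a minimal edge of `I₁` -/
theorem edge_coarse (R : Ref v I₁ S I₂) (hΩ : IsOpen Ω) (hI₁ : Part Ω v I₁) (hI₂ : Part Ω v I₂)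
    {e e₀ : Idx × Fin 3} (he : MinEdge v I₂ e) (h0 : Gr.PEdge I₁ e₀)
    (hsub : edge v e ⊆ edge v e₀) :
    ∃ E, MinEdge v I₁ E ∧ edge v e ⊆ edge v E ∧ edge v E ⊆ edge v e₀ ∧
      (e = E ∨ ∃ Q ∈ S, edge v E ⊆ dyc v Q.1 Q.2) := by
  obtain ⟨C, hC, hmin, hcov⟩ := Gr.exists_cover hΩ hI₁ h0
  -- the end points
  set T : Set V := ⋃ E ∈ C, {pt v E.1.1 E.1.2, pt v E.1.1 E.1.2 + (1 / 2 ^ E.1.1 : ℝ) • ev E.2}
    with hT
  have hTf : T.Finite := hC.biUnion fun E _ => Set.toFinite _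
  obtain ⟨x, hx, hxT, h1, h2⟩ := exists_inner v e hTf
  have hx0 := hsub hx
  rw [hcov] at hx0
  obtain ⟨E, hE, hxE⟩ := mem_iUnion₂.1 hx0
  have hEi : v E.2 + E.1.2 E.2 / 2 ^ E.1.1 < x E.2 ∧
      x E.2 < v E.2 + (E.1.2 E.2 + 1) / 2 ^ E.1.1 := by
    by_contra hcon
    apply hxT
    rcases Gr.end_of_not_inner hxE hcon with h | h
    · exact mem_iUnion₂.2 ⟨E, hE, Or.inl h⟩
    · exact mem_iUnion₂.2 ⟨E, hE, Or.inr h⟩
  have hEm : MinEdge v I₁ E := hmin E hE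
  obtain ⟨Q, hQ, hEQ⟩ := hEm.1
  have hxQ : x ∈ dyc v Q.1 Q.2 := Gr.edge_subset_dyc hEQ hxE
  obtain ⟨q, hq, hxq, hqQ⟩ := R.exists_fine hΩ hI₁ hI₂ hQ hxQ
  have h3 : edge v e ⊆ dyc v q.1 q.2 := edge_sub_of_inner he hq hx h1 h2 hxq
  have hle : E.1.1 ≤ e.1.1 := by
    rw [hEQ.1]
    exact (gen_le hqQ).trans (gen_le_of_edge_dyc h3)
  have h4 : edge v e ⊆ edge v E := edge_sub_edge hle hx hxE h1 h2
  refine ⟨E, hEm, h4, ?_, ?_⟩
  · rw [hcov]; exact subset_iUnion₂ (s := fun e' _ => edge v e') E hE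
  · -- the cube of `e`
    obtain ⟨q', hq', heq'⟩ := he.1
    have hxq' : x ∈ dyc v q'.1 q'.2 := Gr.edge_subset_dyc heq' hx
    obtain ⟨Q', hQ', hsub', hcase⟩ := R.exists_coarse hq'
    rcases hcase with ⟨h, hS⟩ | h
    · left
      subst h
      have h5 : e.1.1 ≤ E.1.1 := by
        by_contra hcon
        exact hEm.2 e ⟨Q', hQ', heq'⟩ (not_le.1 hcon) h4
      exact edge_eq (le_antisymm hle h5) hx hxE h1 h2
    · right
      exact ⟨Q', h, edge_sub_of_inner hEm hQ' hxE hEi.1 hEi.2 (hsub' hxq')⟩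

end Ref

end Vale.Agent.P073.H582
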