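import Vale.Agent.P073.H582.E2d

/-!
# P073, block B09, [SUM2]: the solid cubes of Round 2 which are not in the kept set
-/

open Set Metric Topology Filter MeasureTheory
open scoped ENNReal

namespace Vale.Agent.P073.H582.R2

open Vale.Agent.P073
open Vale.Agent.P073.St (V Mat)
open Vale.Agent.P073.SQ (ev)
open Vale.Agent.P073.AB Vale.Agent.P073.AB.P86
open Vale.Agent.P073.H73 (MinEdge segP onSeg)
open Vale.Agent.P073.H194 (cellT)
open Vale.Agent.P073.H687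
open Vale.Agent.P073.H803 (meshsum)
open Vale.Agent.P073.H851 (M3 LocLip)
open Vale.Agent.P073.H696
open _root_.P073 (ConHomeo)
open _root_.P073.Net (dyc dyo len)

variable {p Cu : ℝ} {Lc : M3 → ℝ} {δ : ℝ} {j : ℕ} {ε : ℝ} {Ω Λ : Set V} {f : V → V} {F : V → Mat}
  {v : V}

theorem dyo_mono {q r : Idx} (h : dyc v q.1 q.2 ⊆ dyc v r.1 r.2) :
    dyo v q.1 q.2 ⊆ dyo v r.1 r.2 := by
  rw [← H194.interior_dyc, ← H194.interior_dyc]
  exact interior_mono h

/-- the box of a solid cube -/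
theorem box_uniq (X : H696.R2 p Cu Lc δ j ε Ω Λ f F v) {k k' : Idx} (hk : k ∈ X.K) (hk' : k' ∈ X.K)
    {q : Idx} (h : dyc v q.1 q.2 ⊆ dyc v k.1 k.2) (h' : dyc v q.1 q.2 ⊆ dyc v k'.1 k'.2) :
    k' = k :=
  box_eq X hk hk' (h (dyo_sub_dyc (cen_mem v q.1 q.2))) (dyo_mono h' (cen_mem v q.1 q.2))

/-- a cube of `I₂` in a solid cube which is off the cores has the fine generation -/
theorem gen_eq (X : H696.R2 p Cu Lc δ j ε Ω Λ f F v) {ng : Idx → ℕ} {k : Idx}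
    (hk : k ∈ X.K) {q : Idx} (hq : q ∈ X.S) (hqk : dyc v q.1 q.2 ⊆ dyc v k.1 k.2) {r : Idx}
    (hr : r ∈ X.I₂ ng) (hrq : dyc v r.1 r.2 ⊆ dyc v q.1 q.2)
    (hc : Disjoint (dyc v r.1 r.2) (X.core k)) : r.1 = ng q := by
  have hqI := X.st.sub hq
  rcases hr with (hr | hr) | ⟨q', hq', h1, h2, -⟩
  · exact absurd (eq_of_sub X.st.part hr.1 hqI hrq ▸ hq) hr.2
  · exfalso
    obtain ⟨t, ht, rfl⟩ := hr
    have hy := cen_mem v (X.nt t) (X.w t)
    set y := cen v (X.nt t) (X.w t) with hy0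
    have hyc : y ∈ dyc v (X.nt t) (X.w t) := dyo_sub_dyc hy
    have h1 := X.tg.cell t ht
    have h2 : y ∈ deep v X.n (3 * X.c₀ (X.κ t).1) (X.κ t).1 := interior_subset (h1 hyc)
    have hkb := X.box (X.κ t).1 (X.κ t).2
    have hsub := deep_sub (v := v) (n := X.n) (k := (X.κ t).1) (c := 3 * X.c₀ (X.κ t).1)
        (by linarith [hkb.2.2.1]) (by linarith [hkb.2.1])
    have h3 : y ∈ dyo v (X.κ t).1.1 (X.κ t).1.2 := by
      rw [← H194.interior_dyc]
      exact interior_mono hsub (h1 hyc)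
    have h4 := box_eq X hk (X.κ t).2 (hqk (hrq hyc)) h3
    have h5 : X.a k y ∈ X.Core := by
      have h6 := X.tg.coreC t ht (mem_image_of_mem _ hyc)
      rw [am_eq] at h6
      rw [← h4]
      exact h6
    refine Set.disjoint_left.1 hc hyc ⟨?_, h5⟩
    rw [← h4]
    exact h2
  · have h3 : q = q' := eq_of_mem X.st.part hqI (X.st.sub hq') (dyo_mono hrq (cen_mem v r.1 r.2))
      (h2 (dyo_sub_dyc (cen_mem v r.1 r.2)))
    rw [h3]
    exact h1

/-- **[SUM2]** -/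
theorem specSum2 (hp : 1 ≤ p) (X : H696.R2 p Cu Lc δ j ε Ω Λ f F v) :
    X.SpecSum2 (24 * 4 ^ p) := by
  classical
  intro τ hτ
  have hΩ : IsOpen Ω := X.hΩ.1
  have hCu := X.hCu
  have hp0 : 0 ≤ p := by linarith
  -- the thresholds
  have hev : ∀ q : Idx, ∃ N : ℕ, ∀ k ∈ X.K, q ∈ X.S → dyc v q.1 q.2 ⊆ dyc v k.1 k.2 →
      ∀ m ≥ N, ∀ I : Set Idx, Part Ω v I → ∀ T : Finset (Fin 3 → ℤ),
      (∀ w ∈ T, ((m, w) : Idx) ∈ I ∧ dyc v m w ⊆ dyc v q.1 q.2) →
      ∑ w ∈ T, H304.meshsum p v I (H304.elen X.h₁.toFun v) (m, w) ≤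
        24 * (2 ^ p * (ENNReal.ofReal (X.E k) * volume (dyc v q.1 q.2)) +
          ENNReal.ofReal (τ q)) := by
    intro q
    by_cases h : ∃ k ∈ X.K, q ∈ X.S ∧ dyc v q.1 q.2 ⊆ dyc v k.1 k.2
    · obtain ⟨k, hk, hq, hqk⟩ := h
      obtain ⟨G, hG, hGi⟩ := X.st.sol k hk q hq hqk
      obtain ⟨N, hN⟩ := eventually_atTop.1 (H304.sum_meshsum_le hp X.h₁ hΩ
        (X.st.part.sub q (X.st.sub hq)) hG (t := ENNReal.ofReal (τ q))
        (ENNReal.ofReal_pos.2 (hτ q)).ne')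
      refine ⟨N, fun k' hk' _ hqk' m hm I hI T hT => ?_⟩
      have h1 := box_uniq X hk hk' hqk hqk'
      subst h1
      refine (hN m hm I hI T hT).trans ?_
      gcongr
    · exact ⟨0, fun k hk hq hqk => absurd ⟨k, hk, hq, hqk⟩ h⟩
  choose N hN using hev
  refine ⟨N, fun ng hng hG k hk q hq hqk _ => ?_⟩
  -- the edges
  have h1 : ∀ r : {r : Idx // r ∈ X.I₂ ng ∧ dyc v r.1 r.2 ⊆ dyc v q.1 q.2 ∧
        Disjoint (dyc v r.1 r.2) (X.core k)}, meshsum p v (X.I₂ ng) X.ℓ r.1 ≤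
      ENNReal.ofReal (2 * Cu) ^ p * meshsum p v (X.I₂ ng) (H304.elen X.h₁.toFun v) r.1 := by
    intro r
    refine H803.meshsum_le hp0 fun e _ her => ?_
    refine ell_le X (her.trans (hG.part.sub r.1 r.2.1)) fun y hy => ?_
    refine notMem_core X hk (hqk (r.2.2.1 (her hy))) fun hyc => ?_
    exact Set.disjoint_left.1 r.2.2.2 (her hy) hyc
  have h2 : ∑' r : {r : Idx // r ∈ X.I₂ ng ∧ dyc v r.1 r.2 ⊆ dyc v q.1 q.2 ∧
        Disjoint (dyc v r.1 r.2) (X.core k)},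
      meshsum p v (X.I₂ ng) (H304.elen X.h₁.toFun v) r.1 ≤
        24 * (2 ^ p * (ENNReal.ofReal (X.E k) * volume (dyc v q.1 q.2)) +
          ENNReal.ofReal (τ q)) := by
    rw [ENNReal.tsum_eq_iSup_sum]
    refine iSup_le fun T => ?_
    have hgen : ∀ r : {r : Idx // r ∈ X.I₂ ng ∧ dyc v r.1 r.2 ⊆ dyc v q.1 q.2 ∧
        Disjoint (dyc v r.1 r.2) (X.core k)}, r.1 = (ng q, r.1.2) := fun r =>
      Prod.ext (gen_eq X hk hq hqk r.2.1 r.2.2.1 r.2.2.2) rfl
    have hinj : Function.Injective fun r : {r : Idx // r ∈ X.I₂ ng ∧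
        dyc v r.1 r.2 ⊆ dyc v q.1 q.2 ∧ Disjoint (dyc v r.1 r.2) (X.core k)} => r.1.2 := by
      intro r r' hr
      apply Subtype.ext
      rw [hgen r, hgen r']
      exact congrArg _ hr
    have h3 := hN q k hk hq hqk (ng q) (hng q hq) (X.I₂ ng) hG.part (T.image fun r => r.1.2)
      fun w hw => by
        obtain ⟨r, -, rfl⟩ := Finset.mem_image.1 hw
        have h4 := hgen r
        constructor
        · rw [← h4]; exact r.2.1
        · have h5 := r.2.2.1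
          rw [h4] at h5
          exact h5
    rw [Finset.sum_image fun a _ b _ hab => hinj hab] at h3
    refine le_trans (le_of_eq (Finset.sum_congr rfl fun r _ => ?_)) h3
    rw [← hgen r]
    rfl
  refine (ENNReal.tsum_le_tsum h1).trans ?_
  rw [ENNReal.tsum_mul_left]
  have e1 : ENNReal.ofReal (24 * 4 ^ p * Cu ^ p) =
      ENNReal.ofReal (2 * Cu) ^ p * (24 * 2 ^ p) := by
    have e2 : (2 : ℝ≥0∞) = ENNReal.ofReal 2 := by simp
    have e3 : (24 : ℝ≥0∞) = ENNReal.ofReal 24 := by simp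
    rw [e2, e3, ENNReal.ofReal_rpow_of_nonneg (by positivity) hp0,
      ENNReal.ofReal_rpow_of_nonneg (by norm_num) hp0, ← ENNReal.ofReal_mul (by norm_num),
      ← ENNReal.ofReal_mul (by positivity), Real.mul_rpow (by norm_num) (by linarith),
      show (4:ℝ) = 2 * 2 by norm_num, Real.mul_rpow (by norm_num) (by norm_num)]
    congr 1
    ring
  rw [e1]
  calc ENNReal.ofReal (2 * Cu) ^ p * ∑' r : {r : Idx // r ∈ X.I₂ ng ∧
        dyc v r.1 r.2 ⊆ dyc v q.1 q.2 ∧ Disjoint (dyc v r.1 r.2) (X.core k)},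
        meshsum p v (X.I₂ ng) (H304.elen X.h₁.toFun v) r.1
      ≤ ENNReal.ofReal (2 * Cu) ^ p * (24 * (2 ^ p * (ENNReal.ofReal (X.E k) *
          volume (dyc v q.1 q.2)) + 1 * ENNReal.ofReal (τ q))) := by
        gcongr
        rw [one_mul]
        exact h2
    _ ≤ ENNReal.ofReal (2 * Cu) ^ p * (24 * (2 ^ p * (ENNReal.ofReal (X.E k) *
          volume (dyc v q.1 q.2)) + 2 ^ p * ENNReal.ofReal (τ q))) := by
        gcongr
        exact ENNReal.one_le_rpow (by norm_num) (by linarith)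
    _ = _ := by ring

end Vale.Agent.P073.H582.R2
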