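import Vale.Agent.P073.H582.E2b
import Vale.Agent.P073.H803.Dict2

/-!
# P073, block B09, [E2]: the edge sum of a kept cube, if its neighbours are subdivided
-/

open Set Metric Topology Filter MeasureTheory
open scoped ENNReal

namespace Vale.Agent.P073.H582

open Vale.Agent.P073
open Vale.Agent.P073.St (V)
open Vale.Agent.P073.SQ (ev)
open Vale.Agent.P073.AB Vale.Agent.P073.AB.P86
open Vale.Agent.P073.H73 (MinEdge segP)
open Vale.Agent.P073.H194 (cellT)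
open Vale.Agent.P073.H687
open Vale.Agent.P073.H803 (meshsum)
open _root_.P073.Net (dyc dyo)

variable {Ω : Set V} {v : V} {I I₁ I₂ S : Set Idx}

/-- the weighted number of the pairs (minimal square, minimal edge in it) of the cube `q` -/
noncomputable def nPair (v : V) (I : Set Idx) (q : Idx) : ℝ≥0∞ :=
  ∑' s : {s : Idx × Fin 3 // MinSq v I s ∧ squ v s ⊆ dyc v q.1 q.2},
    ∑' _e : {e : Idx × Fin 3 // MinEdge v I e ∧ edge v e ⊆ squ v s.1},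
      ENNReal.ofReal (1 / 2 ^ q.1 * (1 / 2 ^ s.1.1.1))

theorem tsum_minSq (hI : Part Ω v I) {q : Idx} (hq : q ∈ I) (g : Idx × Fin 3 → ℝ≥0∞) :
    ∑' s : {s : Idx × Fin 3 // MinSq v I s ∧ squ v s ⊆ dyc v q.1 q.2}, g s.1 =
      ∑ s ∈ (finite_minSq hI hq).toFinset, g s := by
  have : ∑ x ∈ (finite_minSq hI hq).toFinset, g x =
      ∑' e : ((finite_minSq hI hq).toFinset : Set (Idx × Fin 3)), g e.1 :=
    (Finset.tsum_subtype' _ _).symm
  rw [this, Finite.coe_toFinset]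
  rfl

theorem nPair_eq (hI : Part Ω v I) {q : Idx} (hq : q ∈ I) :
    nPair v I q = ∑ s ∈ (finite_minSq hI hq).toFinset, ENNReal.ofReal (1 / 2 ^ q.1) *
      (ENNReal.ofReal (1 / 2 ^ s.1.1) *
        ∑' _e : {e : Idx × Fin 3 // MinEdge v I e ∧ edge v e ⊆ squ v s}, 1) := by
  unfold nPair
  rw [tsum_minSq hI hq fun s => ∑' _e : {e : Idx × Fin 3 // MinEdge v I e ∧ edge v e ⊆ squ v s},
    ENNReal.ofReal (1 / 2 ^ q.1 * (1 / 2 ^ s.1.1))]
  refine Finset.sum_congr rfl fun s _ => ?_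
  rw [← mul_assoc, ← ENNReal.tsum_mul_left, ENNReal.ofReal_mul (by positivity)]
  simp only [mul_one]

theorem nPair_ne_top (hI : Part Ω v I) {q : Idx} (hq : q ∈ I) : nPair v I q ≠ ⊤ := by
  rw [nPair_eq hI hq, ENNReal.sum_ne_top]
  intro s hs
  have hs' : MinSq v I s ∧ squ v s ⊆ dyc v q.1 q.2 := by simpa using hs
  rw [tsum_minEdge hI hs'.1 fun _ => (1 : ℝ≥0∞)]
  rw [Finset.sum_const, nsmul_eq_mul, mul_one]
  exact ENNReal.mul_ne_top ENNReal.ofReal_ne_top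
    (ENNReal.mul_ne_top ENNReal.ofReal_ne_top (ENNReal.natCast_ne_top _))

/-- there is a minimal edge in every minimal square -/
theorem one_le_count (hΩ : IsOpen Ω) (hI : Part Ω v I) {s : Idx × Fin 3} (hs : MinSq v I s) :
    1 ≤ ∑' _e : {e : Idx × Fin 3 // MinEdge v I e ∧ edge v e ⊆ squ v s}, (1 : ℝ≥0∞) := by
  have hx : (pt v s.1.1 s.1.2 : V) ∈ squ v s :=
    ⟨rfl, fun k _ => ⟨le_rfl, by show v k + _ / _ ≤ _; gcongr; linarith⟩⟩
  have hxr : (pt v s.1.1 s.1.2 : V) ∉ rel v s := by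
    intro h
    obtain ⟨j, hj, -⟩ := fin3_third (s.2 + 1) s.2 (H194.fin3_ne1 s.2).symm
    exact lt_irrefl _ (h.2 j hj).1
  obtain ⟨e, he, hes, -⟩ := exists_minEdge hΩ hI hs hx hxr
  exact ENNReal.le_tsum (f := fun _ : {e : Idx × Fin 3 // MinEdge v I e ∧ edge v e ⊆ squ v s} =>
    (1 : ℝ≥0∞)) ⟨e, he, hes⟩

/-- a term with a bound for the speed -/
theorem speed_term {p : ℝ} (hp : 1 ≤ p) {r : ℝ} (hr : 0 < r) {C ℓ : ℝ≥0∞}
    (h : ℓ ≤ C * ENNReal.ofReal r) :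
    ENNReal.ofReal (r ^ (1 - p)) * ℓ ^ p ≤ C ^ p * ENNReal.ofReal r := by
  calc ENNReal.ofReal (r ^ (1 - p)) * ℓ ^ p
      ≤ ENNReal.ofReal (r ^ (1 - p)) * (C * ENNReal.ofReal r) ^ p := by gcongr
    _ = C ^ p * (ENNReal.ofReal (r ^ (1 - p)) * ENNReal.ofReal r ^ p) := by
        rw [ENNReal.mul_rpow_of_nonneg _ _ (by linarith)]; ring
    _ = C ^ p * ENNReal.ofReal r := by
        rw [ENNReal.ofReal_rpow_of_pos hr, ← ENNReal.ofReal_mul (by positivity),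
          ← Real.rpow_add hr, show (1 - p + p : ℝ) = 1 by ring, Real.rpow_one]

theorem pedge_of_edgeOfSq (hI : Part Ω v I) {e s : Idx × Fin 3} (hs : MinSq v I s)
    (h : EdgeOfSq e s) : Gr.PEdge I e := by
  obtain ⟨⟨q, hq, hf⟩, -⟩ := hs
  obtain ⟨h1, h2, h3, h4, h5⟩ := h
  obtain ⟨f1, f2, f3⟩ := hf
  refine ⟨q, hq, h1.trans f1, ?_, fun j hj => ?_⟩
  · rw [h3]; exact f3 _ h2
  · by_cases hj' : j = s.2
    · subst hj'
      rw [h4]; exact f2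
    · rcases h5 j hj hj' with h6 | h6
      · left; rw [h6]; exact f3 j hj'
      · right; rw [h6, f3 j hj']

/-- the edges of a kept square -/
theorem kept_square {p : ℝ} (hp : 1 ≤ p) (R : Ref v I₁ S I₂) (hΩ : IsOpen Ω)
    (hI₁ : Part Ω v I₁) (hI₂ : Part Ω v I₂) {s : Idx × Fin 3} (h₁ : MinSq v I₁ s)
    (h₂ : MinSq v I₂ s) {ℓ : Idx × Fin 3 → ℝ≥0∞} {H : V → ℝ≥0∞} {E₀ t : ℝ≥0∞}
    (hk : ∀ E, MinEdge v I₁ E → MinEdge v I₂ E → edge v E ⊆ squ v s →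
      ENNReal.ofReal ((1 / 2 ^ E.1.1) ^ (1 - p)) * ℓ E ^ p ≤ E₀ * (eInt v E H + t))
    (hf : ∀ E, MinEdge v I₁ E → edge v E ⊆ squ v s → (∃ Q ∈ S, edge v E ⊆ dyc v Q.1 Q.2) →
      ∃ C : ℝ≥0∞, (∀ e, MinEdge v I₂ e → edge v e ⊆ edge v E →
        ℓ e ≤ C * ENNReal.ofReal (1 / 2 ^ e.1.1)) ∧
        C ^ p * ENNReal.ofReal (1 / 2 ^ E.1.1) ≤ E₀ * (eInt v E H + t)) :
    ∑ e ∈ (finite_minEdge hI₂ h₂).toFinset, ENNReal.ofReal ((1 / 2 ^ e.1.1) ^ (1 - p)) * ℓ e ^ p ≤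
      E₀ * (∑ e ∈ sqE s, eInt v e H + (finite_minEdge hI₁ h₁).toFinset.card * t) := by
  classical
  set A := (finite_minEdge hI₂ h₂).toFinset with hA
  set B := (finite_minEdge hI₁ h₁).toFinset with hB
  have hmA : ∀ e ∈ A, MinEdge v I₂ e ∧ edge v e ⊆ squ v s := fun e he => by simpa [hA] using he
  have hmB : ∀ e ∈ B, MinEdge v I₁ e ∧ edge v e ⊆ squ v s := fun e he => by simpa [hB] using he
  have hmB' : ∀ e, MinEdge v I₁ e → edge v e ⊆ squ v s → e ∈ B := fun e he h => by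
    simpa [hB] using (⟨he, h⟩ : MinEdge v I₁ e ∧ edge v e ⊆ squ v s)
  have h1 := sum_le_group A B (fun e E => edge v e ⊆ edge v E) (fun e he => by
      obtain ⟨e₀, h0, h0'⟩ := minEdge_sub hΩ hI₂ h₂ (hmA e he).1 (hmA e he).2
      obtain ⟨E, hE, hE1, hE2, -⟩ := R.edge_coarse hΩ hI₁ hI₂ (hmA e he).1
        (pedge_of_edgeOfSq hI₁ h₁ h0) h0'
      exact ⟨E, hmB' E hE (hE2.trans (S308.edge_sub_squ h0)), hE1⟩)
    (fun e => ENNReal.ofReal ((1 / 2 ^ e.1.1) ^ (1 - p)) * ℓ e ^ p)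
  refine h1.trans ?_
  have h2 : ∀ E ∈ B, ∑ e ∈ A.filter (fun e => edge v e ⊆ edge v E),
      ENNReal.ofReal ((1 / 2 ^ e.1.1) ^ (1 - p)) * ℓ e ^ p ≤ E₀ * (eInt v E H + t) := by
    intro E hE
    obtain ⟨hE1, hE2⟩ := hmB E hE
    by_cases hS : ∃ Q ∈ S, edge v E ⊆ dyc v Q.1 Q.2
    · obtain ⟨C, hC, hC'⟩ := hf E hE1 hE2 hS
      refine le_trans ?_ hC'
      calc ∑ e ∈ A.filter (fun e => edge v e ⊆ edge v E),
            ENNReal.ofReal ((1 / 2 ^ e.1.1) ^ (1 - p)) * ℓ e ^ p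
          ≤ ∑ e ∈ A.filter (fun e => edge v e ⊆ edge v E),
            C ^ p * ENNReal.ofReal (1 / 2 ^ e.1.1) := by
            refine Finset.sum_le_sum fun e he => ?_
            rw [Finset.mem_filter] at he
            exact speed_term hp (by positivity) (hC e (hmA e he.1).1 he.2)
        _ = C ^ p * ∑ e ∈ A.filter (fun e => edge v e ⊆ edge v E),
            ENNReal.ofReal (1 / 2 ^ e.1.1) := by rw [Finset.mul_sum]
        _ ≤ C ^ p * ENNReal.ofReal (1 / 2 ^ E.1.1) := by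
            gcongr
            refine sum_len_le hI₂ fun e he => ?_
            rw [Finset.mem_filter] at he
            exact ⟨(hmA e he.1).1, he.2⟩
    · have key : ∀ e ∈ A.filter (fun e => edge v e ⊆ edge v E), e = E := by
        intro e he
        rw [Finset.mem_filter] at he
        obtain ⟨E', hE', g1, g2, g3⟩ := R.edge_coarse hΩ hI₁ hI₂ (hmA e he.1).1 hE1.1 he.2
        have hEE : E' = E := by
          by_contra hne
          obtain ⟨m1, m2, m3⟩ := Gr.mid_spec v E'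
          exact Gr.not_inner hI₁ hE' hE1 hne m1 (g2 m1) ⟨m2, m3⟩
        subst hEE
        exact g3.resolve_right hS
      refine sum_le_single _ _ _ (fun a ha b hb => (key a ha).trans (key b hb).symm) ?_
      intro e he
      have h5 := key e he
      subst h5
      rw [Finset.mem_filter] at he
      exact hk e hE1 (hmA e he.1).1 hE2
  refine (Finset.sum_le_sum h2).trans ?_
  rw [← Finset.mul_sum, Finset.sum_add_distrib, Finset.sum_const, nsmul_eq_mul]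
  gcongr E₀ * (?_ + _)
  exact sum_minEdge_le hΩ hI₁ h₁ H

/-- the squares in a subdivided square -/
theorem fine_square {p : ℝ} (hp : 1 ≤ p) (hΩ : IsOpen Ω) (hI : Part Ω v I)
    {t : Idx × Fin 3} {ℓ : Idx × Fin 3 → ℝ≥0∞} {C : ℝ≥0∞}
    (hC : ∀ e, MinEdge v I e → edge v e ⊆ squ v t → ℓ e ≤ C * ENNReal.ofReal (1 / 2 ^ e.1.1))
    {A : Finset (Idx × Fin 3)} (hA : ∀ s ∈ A, MinSq v I s ∧ squ v s ⊆ squ v t) :
    ∑ s ∈ A, ENNReal.ofReal (1 / 2 ^ s.1.1) *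
      ∑' e : {e : Idx × Fin 3 // MinEdge v I e ∧ edge v e ⊆ squ v s},
        ENNReal.ofReal ((1 / 2 ^ e.1.1.1) ^ (1 - p)) * ℓ e.1 ^ p ≤
      4 * (ENNReal.ofReal (1 / 2 ^ t.1.1) * (C ^ p * ENNReal.ofReal (1 / 2 ^ t.1.1))) := by
  have h1 : ∀ s ∈ A, ENNReal.ofReal (1 / 2 ^ s.1.1) *
      ∑' e : {e : Idx × Fin 3 // MinEdge v I e ∧ edge v e ⊆ squ v s},
        ENNReal.ofReal ((1 / 2 ^ e.1.1.1) ^ (1 - p)) * ℓ e.1 ^ p ≤
      4 * C ^ p * ENNReal.ofReal ((1 / 2 ^ s.1.1) ^ 2) := by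
    intro s hs
    rw [tsum_minEdge hI (hA s hs).1 fun e =>
      ENNReal.ofReal ((1 / 2 ^ e.1.1) ^ (1 - p)) * ℓ e ^ p]
    calc ENNReal.ofReal (1 / 2 ^ s.1.1) * ∑ e ∈ (finite_minEdge hI (hA s hs).1).toFinset,
          ENNReal.ofReal ((1 / 2 ^ e.1.1) ^ (1 - p)) * ℓ e ^ p
        ≤ ENNReal.ofReal (1 / 2 ^ s.1.1) * ∑ e ∈ (finite_minEdge hI (hA s hs).1).toFinset,
          C ^ p * ENNReal.ofReal (1 / 2 ^ e.1.1) := by
          gcongr ENNReal.ofReal (1 / 2 ^ s.1.1) * ?_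
          refine Finset.sum_le_sum fun e he => ?_
          have he' : MinEdge v I e ∧ edge v e ⊆ squ v s := by simpa using he
          exact speed_term hp (by positivity) (hC e he'.1 (he'.2.trans (hA s hs).2))
      _ = ENNReal.ofReal (1 / 2 ^ s.1.1) * (C ^ p *
          ∑ e ∈ (finite_minEdge hI (hA s hs).1).toFinset, ENNReal.ofReal (1 / 2 ^ e.1.1)) := by
          rw [← Finset.mul_sum]
      _ ≤ ENNReal.ofReal (1 / 2 ^ s.1.1) * (C ^ p * (4 * ENNReal.ofReal (1 / 2 ^ s.1.1))) := by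
          gcongr
          exact sum_len_squ hΩ hI (hA s hs).1
      _ = 4 * C ^ p * ENNReal.ofReal ((1 / 2 ^ s.1.1) ^ 2) := by
          rw [pow_two, ENNReal.ofReal_mul (by positivity)]
          ring
  refine (Finset.sum_le_sum h1).trans ?_
  rw [← Finset.mul_sum]
  calc 4 * C ^ p * ∑ s ∈ A, ENNReal.ofReal ((1 / 2 ^ s.1.1) ^ 2)
      ≤ 4 * C ^ p * ENNReal.ofReal ((1 / 2 ^ t.1.1) ^ 2) := by
        gcongr
        exact sum_area_le hΩ hI hA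
    _ = _ := by
        rw [pow_two, ENNReal.ofReal_mul (by positivity)]
        ring

theorem rel_mono {s t : Idx × Fin 3} (h : squ v s ⊆ squ v t) : rel v s ⊆ rel v t := by
  have hd := dir_of_squ h
  have h1 := squ_ineq hd h
  intro x hx
  refine ⟨(h (rel_sub hx)).1, fun k hk => ?_⟩
  have h2 := hx.2 k (by rw [hd]; exact hk)
  have h3 := h1.2 k hk
  constructor <;> linarith [h2.1, h2.2, h3.1, h3.2]

theorem sum_cellT (hI : Part Ω v I) {q : Idx} (hq : q ∈ I) (H : V → ℝ≥0∞) :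
    ∑ s ∈ (finite_minSq hI hq).toFinset, ENNReal.ofReal (1 / 2 ^ q.1) *
      (ENNReal.ofReal (1 / 2 ^ s.1.1) * ∑ e ∈ sqE s, eInt v e H) ≤ cellT v I univ H q := by
  have h1 := tsum_sub_le (Q := fun s : Idx × Fin 3 => MinSq v I s ∧ squ v s ⊆ dyc v q.1 q.2)
    (Q' := fun s : Idx × Fin 3 => MinSq v I s ∧ squ v s ⊆ dyc v q.1 q.2 ∧ squ v s ⊆ univ)
    (fun s h => ⟨h.1, h.2, subset_univ _⟩) fun s => ∑' e : {e : Idx × Fin 3 // EdgeOfSq e s},
        ENNReal.ofReal (1 / 2 ^ q.1 * (1 / 2 ^ s.1.1)) * eInt v e.1 H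
  unfold cellT
  refine le_trans (le_of_eq ?_) h1
  rw [tsum_minSq hI hq fun s => ∑' e : {e : Idx × Fin 3 // EdgeOfSq e s},
        ENNReal.ofReal (1 / 2 ^ q.1 * (1 / 2 ^ s.1.1)) * eInt v e.1 H]
  refine Finset.sum_congr rfl fun s _ => ?_
  rw [ENNReal.tsum_mul_left, tsum_sqE s fun e => eInt v e H, ENNReal.ofReal_mul (by positivity),
    mul_assoc]

theorem ofReal_inv_le_one (n : ℕ) : ENNReal.ofReal (1 / 2 ^ n) ≤ 1 := by
  rw [← ENNReal.ofReal_one]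
  apply ENNReal.ofReal_le_ofReal
  rw [div_le_one (by positivity)]
  exact one_le_pow₀ (by norm_num)

/-- **[PASSIVE-SUM]** the edge sum of a kept cube in the refined partition -/
theorem passive_sum {p : ℝ} (hp : 1 ≤ p) (R : Ref v I₁ S I₂) (hΩ : IsOpen Ω)
    (hI₁ : Part Ω v I₁) (hI₂ : Part Ω v I₂) {q : Idx} (hq : q ∈ I₁) (hqS : q ∉ S)
    {ℓ : Idx × Fin 3 → ℝ≥0∞} {H : V → ℝ≥0∞} {E₀ t : ℝ≥0∞}
    (hk : ∀ E, MinEdge v I₁ E → MinEdge v I₂ E → edge v E ⊆ dyc v q.1 q.2 →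
      ENNReal.ofReal ((1 / 2 ^ E.1.1) ^ (1 - p)) * ℓ E ^ p ≤ E₀ * (eInt v E H + t))
    (hf : ∀ E, MinEdge v I₁ E → edge v E ⊆ dyc v q.1 q.2 →
      (∃ Q ∈ S, edge v E ⊆ dyc v Q.1 Q.2) →
      ∃ C : ℝ≥0∞, (∀ e, MinEdge v I₂ e → edge v e ⊆ edge v E →
        ℓ e ≤ C * ENNReal.ofReal (1 / 2 ^ e.1.1)) ∧
        C ^ p * ENNReal.ofReal (1 / 2 ^ E.1.1) ≤ E₀ * (eInt v E H + t))
    (hs : ∀ s, MinSq v I₁ s → squ v s ⊆ dyc v q.1 q.2 →
      (∃ Q ∈ S, squ v s ⊆ dyc v Q.1 Q.2) →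
      ∃ C : ℝ≥0∞, (∀ e, MinEdge v I₂ e → edge v e ⊆ squ v s →
        ℓ e ≤ C * ENNReal.ofReal (1 / 2 ^ e.1.1)) ∧
        C ^ p * ENNReal.ofReal (1 / 2 ^ s.1.1) ≤
          E₀ * ∑' e : {e : Idx × Fin 3 // EdgeOfSq e s}, (eInt v e.1 H + t)) :
    meshsum p v I₂ ℓ q ≤ 16 * (E₀ * (cellT v I₁ univ H q + nPair v I₁ q * t)) := by
  classical
  have hq₂ : q ∈ I₂ := R.keep q hq hqS
  set A := (finite_minSq hI₂ hq₂).toFinset with hA
  set B := (finite_minSq hI₁ hq).toFinset with hB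
  have hmA : ∀ s ∈ A, MinSq v I₂ s ∧ squ v s ⊆ dyc v q.1 q.2 := fun s hs => by simpa [hA] using hs
  have hmB : ∀ s ∈ B, MinSq v I₁ s ∧ squ v s ⊆ dyc v q.1 q.2 := fun s hs => by simpa [hB] using hs
  have hmB' : ∀ s, MinSq v I₁ s → squ v s ⊆ dyc v q.1 q.2 → s ∈ B := fun s h h' => by
    simpa [hB] using (⟨h, h'⟩ : MinSq v I₁ s ∧ squ v s ⊆ dyc v q.1 q.2)
  set g : Idx × Fin 3 → ℝ≥0∞ := fun s => ENNReal.ofReal (1 / 2 ^ s.1.1) *
      ∑' e : {e : Idx × Fin 3 // MinEdge v I₂ e ∧ edge v e ⊆ squ v s},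
        ENNReal.ofReal ((1 / 2 ^ e.1.1.1) ^ (1 - p)) * ℓ e.1 ^ p with hg
  set N : Idx × Fin 3 → ℝ≥0∞ := fun s =>
    ∑' _e : {e : Idx × Fin 3 // MinEdge v I₁ e ∧ edge v e ⊆ squ v s}, 1 with hN
  have h0 : meshsum p v I₂ ℓ q = ENNReal.ofReal (1 / 2 ^ q.1) * ∑ s ∈ A, g s := by
    unfold meshsum
    rw [tsum_minSq hI₂ hq₂ fun s => ∑' e : {e : Idx × Fin 3 // MinEdge v I₂ e ∧
      edge v e ⊆ squ v s}, ENNReal.ofReal (1 / 2 ^ q.1 * (1 / 2 ^ s.1.1)) *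
        (ENNReal.ofReal ((1 / 2 ^ e.1.1.1) ^ (1 - p)) * ℓ e.1 ^ p), Finset.mul_sum]
    refine Finset.sum_congr rfl fun s _ => ?_
    rw [ENNReal.tsum_mul_left, ENNReal.ofReal_mul (by positivity), mul_assoc]
  have h1 := sum_le_group A B (fun s t' => squ v s ⊆ squ v t') (fun s hs => by
      obtain ⟨t', h1, h2, h3, -⟩ := R.squ_coarse hΩ hI₁ hI₂ hq hqS (hmA s hs).1 (hmA s hs).2
      exact ⟨t', hmB' t' h1 h3, h2⟩) g
  have h2 : ∀ t' ∈ B, ∑ s ∈ A.filter (fun s => squ v s ⊆ squ v t'), g s ≤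
      16 * (E₀ * (ENNReal.ofReal (1 / 2 ^ t'.1.1) * (∑ e ∈ sqE t', eInt v e H + N t' * t))) := by
    intro t' ht'
    obtain ⟨ht1, ht2⟩ := hmB t' ht'
    by_cases hS : ∃ Q ∈ S, squ v t' ⊆ dyc v Q.1 Q.2
    · obtain ⟨C, hC, hC'⟩ := hs t' ht1 ht2 hS
      have h3 := fine_square hp hΩ hI₂ hC (A := A.filter fun s => squ v s ⊆ squ v t')
        fun s hs => by
          rw [Finset.mem_filter] at hs
          exact ⟨(hmA s hs.1).1, hs.2⟩
      refine h3.trans ?_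
      rw [tsum_sqE t' fun e => eInt v e H + t, Finset.sum_add_distrib, Finset.sum_const,
        nsmul_eq_mul] at hC'
      have hc : ((sqE t').card : ℝ≥0∞) ≤ 4 := by exact_mod_cast card_sqE_le t'
      calc 4 * (ENNReal.ofReal (1 / 2 ^ t'.1.1) * (C ^ p * ENNReal.ofReal (1 / 2 ^ t'.1.1)))
          ≤ 4 * (ENNReal.ofReal (1 / 2 ^ t'.1.1) *
            (E₀ * (∑ e ∈ sqE t', eInt v e H + (sqE t').card * t))) := by gcongr
        _ ≤ 4 * (ENNReal.ofReal (1 / 2 ^ t'.1.1) *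
            (E₀ * (4 * ∑ e ∈ sqE t', eInt v e H + 4 * (N t' * t)))) := by
            gcongr 4 * (_ * (E₀ * (?_ + ?_)))
            · calc ∑ e ∈ sqE t', eInt v e H = 1 * ∑ e ∈ sqE t', eInt v e H := (one_mul _).symm
                _ ≤ _ := by gcongr; norm_num
            · calc ((sqE t').card : ℝ≥0∞) * t ≤ 4 * t := by gcongr
                _ = 4 * (1 * t) := by rw [one_mul]
                _ ≤ 4 * (N t' * t) := by
                  gcongr
                  exact one_le_count hΩ hI₁ ht1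
        _ = _ := by ring
    · have key : ∀ s ∈ A.filter (fun s => squ v s ⊆ squ v t'), s = t' := by
        intro s hs
        rw [Finset.mem_filter] at hs
        obtain ⟨t'', h3, h4, h5, h6⟩ := R.squ_coarse hΩ hI₁ hI₂ hq hqS (hmA s hs.1).1
          (hmA s hs.1).2
        have h7 : t'' = t' :=
          sq_disj hΩ hI₁ h3 ht1 (rel_mono h4 (sc_mem (v := v) (s := s))) (hs.2 (rel_sub sc_mem))
        subst h7
        exact squ_inj (h6.resolve_right hS)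
      refine sum_le_single _ _ _ (fun a ha b hb => (key a ha).trans (key b hb).symm) ?_
      intro s hs'
      have h5 := key s hs'
      subst h5
      rw [Finset.mem_filter] at hs'
      have h₂ := (hmA s hs'.1).1
      have h6 := kept_square hp R hΩ hI₁ hI₂ ht1 h₂ (ℓ := ℓ) (H := H) (E₀ := E₀) (t := t)
        (fun E hE hE' hsub => hk E hE hE' (hsub.trans ht2))
        (fun E hE hsub hS => hf E hE (hsub.trans ht2) hS)
      simp only [hg]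
      rw [tsum_minEdge hI₂ h₂ fun e => ENNReal.ofReal ((1 / 2 ^ e.1.1) ^ (1 - p)) * ℓ e ^ p]
      have h7 : ((finite_minEdge hI₁ ht1).toFinset.card : ℝ≥0∞) ≤ N s := by
        simp only [hN]
        rw [tsum_minEdge hI₁ ht1 fun _ => (1 : ℝ≥0∞), Finset.sum_const, nsmul_eq_mul, mul_one]
      calc ENNReal.ofReal (1 / 2 ^ s.1.1) * ∑ e ∈ (finite_minEdge hI₂ h₂).toFinset,
            ENNReal.ofReal ((1 / 2 ^ e.1.1) ^ (1 - p)) * ℓ e ^ p
          ≤ ENNReal.ofReal (1 / 2 ^ s.1.1) * (E₀ * (∑ e ∈ sqE s, eInt v e H +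
            (finite_minEdge hI₁ ht1).toFinset.card * t)) := by gcongr
        _ ≤ ENNReal.ofReal (1 / 2 ^ s.1.1) * (E₀ * (∑ e ∈ sqE s, eInt v e H + N s * t)) := by
            gcongr
        _ = 1 * (E₀ * (ENNReal.ofReal (1 / 2 ^ s.1.1) * (∑ e ∈ sqE s, eInt v e H +
            N s * t))) := by ring
        _ ≤ _ := by gcongr; norm_num
  rw [h0, nPair_eq hI₁ hq]
  calc ENNReal.ofReal (1 / 2 ^ q.1) * ∑ s ∈ A, g s
      ≤ ENNReal.ofReal (1 / 2 ^ q.1) * ∑ t' ∈ B, 16 * (E₀ * (ENNReal.ofReal (1 / 2 ^ t'.1.1) *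
          (∑ e ∈ sqE t', eInt v e H + N t' * t))) := by
        gcongr ENNReal.ofReal (1 / 2 ^ q.1) * ?_
        exact h1.trans (Finset.sum_le_sum h2)
    _ = 16 * (E₀ * (∑ t' ∈ B, ENNReal.ofReal (1 / 2 ^ q.1) * (ENNReal.ofReal (1 / 2 ^ t'.1.1) *
          ∑ e ∈ sqE t', eInt v e H) + (∑ t' ∈ B, ENNReal.ofReal (1 / 2 ^ q.1) *
          (ENNReal.ofReal (1 / 2 ^ t'.1.1) * N t')) * t)) := by
        rw [Finset.sum_mul, ← Finset.sum_add_distrib, Finset.mul_sum, Finset.mul_sum,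
          Finset.mul_sum]
        refine Finset.sum_congr rfl fun t' _ => ?_
        ring
    _ ≤ 16 * (E₀ * (cellT v I₁ univ H q + (∑ t' ∈ B, ENNReal.ofReal (1 / 2 ^ q.1) *
          (ENNReal.ofReal (1 / 2 ^ t'.1.1) * N t')) * t)) := by
        gcongr 16 * (E₀ * (?_ + _))
        exact sum_cellT hI₁ hq H

end Vale.Agent.P073.H582
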