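import Vale.Agent.P073.H582.EdB
import Vale.Agent.P073.H239.FSpec1
import Vale.Agent.P073.H732.XLine

/-!
# P073, block B10, [EdB], rank one: the edges of the line
-/

open Set MeasureTheory Filter Topology Metric
open scoped ENNReal NNReal

namespace Vale.Agent.P073.H582

open Vale.Agent.P073.St (V Mat euc)
open Vale.Agent.P073.SQ (ev)
open Vale.Agent.P073.AB
open Vale.Agent.P073.H235
open Vale.Agent.P073.H73 (segP onSeg MinEdge)
open Vale.Agent.P073.H333 (eInt_mono' eInt_mono_on)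
open Vale.Agent.P073.H851 (M3)
open Vale.Agent.P073.H253 (BVData ledge)
open Vale.Agent.P073.H732 (upz XL specXL)
open _root_.P073 (ConHomeo)

theorem P1_ev : P1 (ev 0) = ev 0 := by
  simp [P1, ev]

theorem diffL_le {v : V} {e : Idx × Fin 3} {F : V → Mat} {L : V →L[ℝ] V}
    (hL : L (ev e.2) = ev e.2) :
    eInt v e (fun x => ENNReal.ofReal ‖cl (F x) (ev e.2) - ev e.2‖) ≤
      eInt v e fun x => ‖cl (F x) - L‖ₑ := by
  refine eInt_mono' v e fun x => ?_
  rw [← ofReal_norm_eq_enorm]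
  refine ENNReal.ofReal_le_ofReal ?_
  have h2 : cl (F x) (ev e.2) - ev e.2 = (cl (F x) - L) (ev e.2) := by
    rw [ContinuousLinearMap.sub_apply, hL]
  rw [h2]
  refine ((cl (F x) - L).le_opNorm _).trans ?_
  rw [S293.ev_norm, mul_one]

/-- the displacement of `f` in the direction of the edge is almost the length of the edge -/
theorem dispL_strong {v : V} {e : Idx × Fin 3} {Ω : Set V} {f : V → V} {F : V → Mat}
    {L : V →L[ℝ] V} (rat : RatGood v Ω f F) (he : edge v e ⊆ Ω) (hL : L (ev e.2) = ev e.2) :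
    ENNReal.ofReal (1 / 2 ^ e.1.1 - (f (segP v e).2 e.2 - f (segP v e).1 e.2)) ≤
      eInt v e fun x => ‖cl (F x) - L‖ₑ := by
  refine le_trans ?_ ((disp_sub_le rat he (ev e.2)).trans (diffL_le hL))
  rw [← ofReal_norm_eq_enorm]
  refine ENNReal.ofReal_le_ofReal ?_
  have h4 := norm_le_pi_norm (f (segP v e).2 - f (segP v e).1 - (1 / 2 ^ e.1.1 : ℝ) • ev e.2) e.2
  rw [Pi.sub_apply, Pi.sub_apply, Pi.smul_apply, Real.norm_eq_abs] at h4
  have h5 : (ev e.2 : V) e.2 = 1 := by simp [ev]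
  rw [h5, smul_eq_mul, mul_one] at h4
  have h6 := (abs_le.1 h4).1
  linarith

/-- Euclidean length of a conical map on an edge -/
theorem len2L_le {Ω Λ : Set V} {v : V} {e : Idx × Fin 3} {f : V → V} {F : V → Mat}
    {L : V →L[ℝ] V} (rat : RatGood v Ω f F) (he : edge v e ⊆ Ω) (hL : L (ev e.2) = ev e.2)
    (h : ConHomeo Ω Λ) {b : ℝ}
    (hh : eInt v e (fun x => ENNReal.ofReal ‖lineDeriv ℝ h.toFun x (ev e.2) -
      cl (F x) (ev e.2)‖) ≤ ENNReal.ofReal b) :
    H239.len2 h.toFun (segP v e) ≤ ENNReal.ofReal (1 / 2 ^ e.1.1) +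
      2 * (eInt v e (fun x => ‖cl (F x) - L‖ₑ) + ENNReal.ofReal b) := by
  have h1 : H239.len2 h.toFun (segP v e) ≤
      eInt v e fun x => ENNReal.ofReal (euc (lineDeriv ℝ h.toFun x (ev e.2))) :=
    H687.len_onSeg_euc h he
  refine h1.trans ?_
  have h2 : eInt v e (fun x => ENNReal.ofReal (euc (lineDeriv ℝ h.toFun x (ev e.2)))) ≤
      eInt v e fun x => (2 * ENNReal.ofReal ‖lineDeriv ℝ h.toFun x (ev e.2) -
        cl (F x) (ev e.2)‖ + 2 * ENNReal.ofReal ‖cl (F x) (ev e.2) - ev e.2‖) + 1 := by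
    refine eInt_mono' v e fun x => ?_
    set A := lineDeriv ℝ h.toFun x (ev e.2)
    set B := cl (F x) (ev e.2)
    have h3 : euc A ≤ 2 * ‖A - B‖ + 2 * ‖B - ev e.2‖ + 1 := by
      have e1 : A = (A - B) + ((B - ev e.2) + ev e.2) := by abel
      have e2 : euc (ev e.2) = 1 := euc_ev _
      calc euc A = euc ((A - B) + ((B - ev e.2) + ev e.2)) := by rw [← e1]
        _ ≤ euc (A - B) + (euc (B - ev e.2) + euc (ev e.2)) :=
          (_root_.P073.Net.euc_add_le _ _).trans (add_le_add le_rfl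
            (_root_.P073.Net.euc_add_le _ _))
        _ ≤ 2 * ‖A - B‖ + (2 * ‖B - ev e.2‖ + 1) := by
          rw [e2]
          exact add_le_add (_root_.P073.Net.euc_le _)
            (add_le_add (_root_.P073.Net.euc_le _) le_rfl)
        _ = _ := by ring
    refine (ENNReal.ofReal_le_ofReal h3).trans (le_of_eq ?_)
    rw [ENNReal.ofReal_add (by positivity) zero_le_one, ENNReal.ofReal_add (by positivity)
      (by positivity), ENNReal.ofReal_mul (by norm_num), ENNReal.ofReal_mul (by norm_num),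
      ENNReal.ofReal_one]
    norm_num
  refine h2.trans ?_
  have hm : AEMeasurable (fun t => 2 * ENNReal.ofReal ‖cl (F (S293.gam v e t)) (ev e.2) - ev e.2‖)
      (volume.restrict (Icc (0:ℝ) 1)) := by
    simpa using S293.aemeas_pow rat he (ev e.2) 1 2
  rw [H333.eInt_add_cst, mul_one, S293.eInt_add _ _ _ _ hm, S293.eInt_const_mul _ _ _ (by norm_num),
    S293.eInt_const_mul _ _ _ (by norm_num), add_comm, ← mul_add,
    add_comm (eInt v e fun x => ENNReal.ofReal ‖lineDeriv ℝ h.toFun x (ev e.2) - _‖)]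
  gcongr
  exact diffL_le hL

/-- closeness of the derivative on an edge -/
theorem nearL_le {Ω Λ : Set V} {v : V} {e : Idx × Fin 3} {f : V → V} {F : V → Mat}
    {L : V →L[ℝ] V} (rat : RatGood v Ω f F) (he : edge v e ⊆ Ω) (hL : L (ev e.2) = ev e.2)
    (h : ConHomeo Ω Λ) {b : ℝ}
    (hh : eInt v e (fun x => ENNReal.ofReal ‖lineDeriv ℝ h.toFun x (ev e.2) -
      cl (F x) (ev e.2)‖) ≤ ENNReal.ofReal b) :
    eInt v e (fun x => ENNReal.ofReal ‖lineDeriv ℝ h.toFun x (ev e.2) - ev e.2‖) ≤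
      eInt v e (fun x => ‖cl (F x) - L‖ₑ) + ENNReal.ofReal b := by
  have hm : AEMeasurable (fun t => ENNReal.ofReal ‖cl (F (S293.gam v e t)) (ev e.2) - ev e.2‖)
      (volume.restrict (Icc (0:ℝ) 1)) := by
    simpa using S293.aemeas_pow rat he (ev e.2) 1 1
  calc eInt v e (fun x => ENNReal.ofReal ‖lineDeriv ℝ h.toFun x (ev e.2) - ev e.2‖)
      ≤ eInt v e (fun x => ENNReal.ofReal ‖lineDeriv ℝ h.toFun x (ev e.2) -
        cl (F x) (ev e.2)‖ + ENNReal.ofReal ‖cl (F x) (ev e.2) - ev e.2‖) := by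
        refine eInt_mono' v e fun x => ?_
        rw [← ENNReal.ofReal_add (norm_nonneg _) (norm_nonneg _)]
        exact ENNReal.ofReal_le_ofReal (norm_sub_le_norm_sub_add_norm_sub _ _ _)
    _ ≤ _ := by
        rw [S293.eInt_add _ _ _ _ hm, add_comm]
        exact add_le_add (diffL_le hL) hh

/-- **[ED-B]** -/
theorem specEdB {p : ℝ} (hp : 1 ≤ p) : H239.SpecEdB p := by
  refine ⟨4 ^ p, by positivity, ?_⟩
  intro θ₁ θ₂ κ m₀ Λ f F hκ D α β hαβ hlen hsub n hn Cu Lc δ j ε X b hb hb1 hε hh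
  obtain ⟨h1, h2⟩ := specXL p θ₁ θ₂ κ m₀ Λ f F hp hκ D α β hαβ hlen hsub n hn X.h₁
    (ConHomeo.refl X.h₁.conicalSet_right) b hb hb1 (fun y _ => rfl) hh
  have hle : ∀ k, eInt D.v (ledge n (upz m₀ n D.B₁) (upz m₀ n D.B₂) k)
      (fun x => ‖cl (cmpD (bm θ₁ θ₂) F x) - P1‖ₑ) + ENNReal.ofReal (b / 2 ^ n) ≤
      XL θ₁ θ₂ D.v F b (ledge n (upz m₀ n D.B₁) (upz m₀ n D.B₂) k) := by
    intro k
    show _ ≤ 2 * (_ + _)
    rw [two_mul]
    exact le_self_add
  refine ⟨fun k => XL θ₁ θ₂ D.v F b (ledge n (upz m₀ n D.B₁) (upz m₀ n D.B₂) k),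
    fun k hk => ?_, fun k hk => ?_, fun k hk => ?_, h2.trans (ENNReal.ofReal_le_ofReal hε)⟩
  · exact len2L_le D.rat (h1 k hk).1 P1_ev X.h₁ (hh k hk)
  · exact (nearL_le D.rat (h1 k hk).1 P1_ev X.h₁ (hh k hk)).trans (hle k)
  · exact (dispL_strong D.rat (h1 k hk).1 P1_ev).trans (le_self_add.trans (hle k))

end Vale.Agent.P073.H582
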