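import Mathlib

/-!
# P073: a function on an interval with slope at most `1` and net displacement of the interval
-/

namespace Vale.Agent.P073.H582

open MeasureTheory Set Filter Topology
open scoped ENNReal NNReal

/-- local to global, one dimension -/
theorem abs_sub_le_of_local {φ : ℝ → ℝ} {α β C : ℝ} (hαβ : α ≤ β)
    (h : ∀ s ∈ Icc α β, ∀ᶠ t in 𝓝[Icc α β] s, |φ t - φ s| ≤ C * |t - s|) :
    |φ β - φ α| ≤ C * (β - α) := by
  have hc : ContinuousOn φ (Icc α β) := by
    intro s hs
    rw [ContinuousWithinAt, tendsto_iff_dist_tendsto_zero]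
    have h1 : Tendsto (fun t => C * |t - s|) (𝓝[Icc α β] s) (𝓝 0) := by
      have h2 : Tendsto (fun t => C * |t - s|) (𝓝 s) (𝓝 (C * |s - s|)) := by
        apply Continuous.tendsto
        fun_prop
      rw [sub_self, abs_zero, mul_zero] at h2
      exact h2.mono_left nhdsWithin_le_nhds
    refine squeeze_zero' (Eventually.of_forall fun _ => dist_nonneg) ?_ h1
    filter_upwards [h s hs] with t ht
    rwa [Real.dist_eq]
  have key : ∀ ψ : ℝ → ℝ, ContinuousOn ψ (Icc α β) →
      (∀ s ∈ Icc α β, ∀ᶠ t in 𝓝[Icc α β] s, |ψ t - ψ s| ≤ C * |t - s|) →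
      ψ β ≤ ψ α + C * (β - α) := by
    intro ψ hψ hl
    refine image_le_of_liminf_slope_right_le_deriv_boundary (f := ψ)
      (B := fun t => ψ α + C * (t - α)) (B' := fun _ => C) hψ (by simp) (by fun_prop) ?_ ?_
      (right_mem_Icc.2 hαβ)
    · intro x _
      have h1 : HasDerivAt (fun t => ψ α + C * (t - α)) (C * 1) x :=
        (((hasDerivAt_id x).sub_const α).const_mul C).const_add _
      rw [mul_one] at h1
      exact h1.hasDerivWithinAt
    · intro x hx r hr
      have h1 : ∀ᶠ z in 𝓝[>] x, |ψ z - ψ x| ≤ C * |z - x| := by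
        have h2 := hl x ⟨hx.1, hx.2.le⟩
        have h3 : 𝓝[>] x ≤ 𝓝[Icc α β] x := by
          rw [← nhdsWithin_Ioc_eq_nhdsGT hx.2]
          exact nhdsWithin_mono _ fun z hz => ⟨hx.1.trans hz.1.le, hz.2⟩
        exact h3 h2
      have h4 : ∀ᶠ z in 𝓝[>] x, z ∈ Ioi x := self_mem_nhdsWithin
      refine (h1.and h4).frequently.mono fun z hz => ?_
      have hz0 : 0 < z - x := sub_pos.2 hz.2
      rw [slope_def_field, div_lt_iff₀ hz0]
      have h5 := (abs_le.1 hz.1).2
      rw [abs_of_pos hz0] at h5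
      exact h5.trans_lt (mul_lt_mul_of_pos_right hr hz0)
  rw [abs_le]
  constructor
  · have := key (fun t => -φ t) hc.neg fun s hs => by
      filter_upwards [h s hs] with t ht
      rwa [show -φ t - -φ s = -(φ t - φ s) by ring, abs_neg]
    linarith
  · have := key φ hc h
    linarith

/-- local to global, Lipschitz form -/
theorem lipschitzOn_of_local {φ : ℝ → ℝ} {α β : ℝ} {C : ℝ≥0}
    (h : ∀ s ∈ Icc α β, ∀ᶠ t in 𝓝[Icc α β] s, |φ t - φ s| ≤ C * |t - s|) :
    LipschitzOnWith C φ (Icc α β) := by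
  refine LipschitzOnWith.of_dist_le_mul fun x hx y hy => ?_
  rw [Real.dist_eq, Real.dist_eq]
  rcases le_total x y with hxy | hxy
  · have h1 := abs_sub_le_of_local (φ := φ) (C := C) hxy fun s hs => by
      have hs' : s ∈ Icc α β := ⟨hx.1.trans hs.1, hs.2.trans hy.2⟩
      exact nhdsWithin_mono _ (Icc_subset_Icc hx.1 hy.2) (h s hs')
    rw [abs_sub_comm, abs_sub_comm x y, abs_of_nonneg (sub_nonneg.2 hxy)]
    exact h1
  · have h1 := abs_sub_le_of_local (φ := φ) (C := C) hxy fun s hs => by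
      have hs' : s ∈ Icc α β := ⟨hy.1.trans hs.1, hs.2.trans hx.2⟩
      exact nhdsWithin_mono _ (Icc_subset_Icc hy.1 hx.2) (h s hs')
    rw [abs_of_nonneg (sub_nonneg.2 hxy)]
    exact h1

/-- the derivative is bounded by the local constant -/
theorem abs_deriv_le_of_local {φ : ℝ → ℝ} {α β C s : ℝ} (hC : 0 ≤ C) (hs : s ∈ Ioo α β)
    (h : ∀ᶠ t in 𝓝[Icc α β] s, |φ t - φ s| ≤ C * |t - s|) : |deriv φ s| ≤ C := by
  have h1 : 𝓝[Icc α β] s = 𝓝 s := nhdsWithin_eq_nhds.2 (Icc_mem_nhds hs.1 hs.2)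
  rw [h1] at h
  have := norm_deriv_le_of_lip' (f := φ) (x₀ := s) hC (by simpa [Real.norm_eq_abs] using h)
  simpa [Real.norm_eq_abs] using this

/-- **one row**: slope at most `1 + 2 e` off `b`, at most `C` on `b`, net displacement at least
`(1 - δ)` times the length -/
theorem row_le {p : ℝ} (hp : 1 ≤ p) {φ : ℝ → ℝ} {α β : ℝ} (hαβ : α < β) {C : ℝ≥0} {e δ : ℝ}
    (he : 0 ≤ e) (he1 : e ≤ 1) (hδ : 0 ≤ δ) (hL : LipschitzOnWith C φ (Icc α β)) {b : Set ℝ}
    (hb : MeasurableSet b) (hd : ∀ s ∈ Ioo α β, s ∉ b → |deriv φ s| ≤ 1 + 2 * e)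
    (hnet : (1 - δ) * (β - α) ≤ φ β - φ α) :
    ∫⁻ s in Ioo α β, ENNReal.ofReal (|deriv φ s - 1| ^ p) ≤
      ENNReal.ofReal (4 ^ (p - 1) * (4 * e + δ) * (β - α)) +
        ENNReal.ofReal (4 ^ (p - 1) * C + (C + 1) ^ p) * volume (Ioo α β ∩ b) := by
  have hp0 : 0 < p := by linarith
  set I := Ioo α β with hI
  have hIm : MeasurableSet I := measurableSet_Ioo
  have hIv : volume I = ENNReal.ofReal (β - α) := Real.volume_Ioo
  have hIfin : volume I ≠ ⊤ := by rw [hIv]; exact ENNReal.ofReal_ne_top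
  have hdm : Measurable (deriv φ) := measurable_deriv φ
  have hdC : ∀ s ∈ I, |deriv φ s| ≤ C := fun s hs => by
    have h1 := norm_deriv_le_of_lipschitzOn (Icc_mem_nhds hs.1 hs.2) hL
    rwa [Real.norm_eq_abs] at h1
  -- integrability
  have hint : ∀ S ⊆ I, MeasurableSet S → IntegrableOn (deriv φ) S := by
    intro S hS hSm
    refine Measure.integrableOn_of_bounded (M := C)
      (ne_top_of_le_ne_top hIfin (measure_mono hS)) hdm.aestronglyMeasurable ?_
    exact (ae_restrict_iff' hSm).2 (Eventually.of_forall fun s hs => by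
      rw [Real.norm_eq_abs]; exact hdC s (hS hs))
  have hconst : ∀ (S : Set ℝ) (c : ℝ), S ⊆ I → IntegrableOn (fun _ : ℝ => c) S := by
    intro S c hS
    exact integrableOn_const (ne_top_of_le_ne_top hIfin (measure_mono hS))
  have hftc : ∫ s in I, deriv φ s = φ β - φ α := by
    have h1 : AbsolutelyContinuousOnInterval φ α β :=
      LipschitzOnWith.absolutelyContinuousOnInterval (K := C) (by rwa [uIcc_of_le hαβ.le])
    have h2 := h1.integral_deriv_eq_sub
    rw [intervalIntegral.integral_of_le hαβ.le, integral_Ioc_eq_integral_Ioo] at h2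
    exact h2
  set J := I \ b with hJ
  set B := I ∩ b with hB
  have hJm : MeasurableSet J := hIm.diff hb
  have hBm : MeasurableSet B := hIm.inter hb
  have hJI : J ⊆ I := diff_subset
  have hBI : B ⊆ I := inter_subset_left
  have hBfin : volume B ≠ ⊤ := ne_top_of_le_ne_top hIfin (measure_mono hBI)
  have hsplit : ∫ s in I, deriv φ s = (∫ s in B, deriv φ s) + ∫ s in J, deriv φ s := by
    rw [hB, hJ, integral_inter_add_diff hb (hint I subset_rfl hIm)]
  -- the integral over `B`
  have hBle : ∫ s in B, deriv φ s ≤ C * (volume B).toReal := by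
    have h1 : ∫ s in B, deriv φ s ≤ ∫ _ in B, (C : ℝ) :=
      setIntegral_mono_on (hint B hBI hBm) (hconst B _ hBI) hBm fun s hs =>
        (le_abs_self _).trans (hdC s (hBI hs))
    rw [setIntegral_const, smul_eq_mul, mul_comm] at h1
    exact h1
  -- the integral over `J`
  have hJle : ∫ s in J, |deriv φ s - 1| ≤ (4 * e + δ) * (β - α) + C * (volume B).toReal := by
    have h1 : ∫ s in J, |deriv φ s - 1| ≤ ∫ s in J, ((1 + 4 * e) - deriv φ s) := by
      refine setIntegral_mono_on ?_ ((hconst J _ hJI).sub (hint J hJI hJm)) hJm fun s hs => ?_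
      · exact ((hint J hJI hJm).sub (hconst J 1 hJI)).abs
      · have h2 := (abs_le.1 (hd s hs.1 hs.2)).2
        rw [abs_le]
        constructor <;> linarith
    have h2 : ∫ s in J, ((1 + 4 * e) - deriv φ s) =
        (1 + 4 * e) * (volume J).toReal - ∫ s in J, deriv φ s := by
      rw [integral_sub (hconst J _ hJI) (hint J hJI hJm), setIntegral_const, smul_eq_mul,
        mul_comm]
      rfl
    have h3 : (volume J).toReal ≤ β - α := by
      have h4 : volume J ≤ ENNReal.ofReal (β - α) := by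
        rw [← hIv]
        exact measure_mono hJI
      exact ENNReal.toReal_le_of_le_ofReal (by linarith) h4
    have h5 : (1 + 4 * e) * (volume J).toReal ≤ (1 + 4 * e) * (β - α) := by gcongr
    rw [hftc] at hsplit
    rw [h2] at h1
    nlinarith
  -- conversion
  have hJlin : ∫⁻ s in J, ENNReal.ofReal (|deriv φ s - 1|) ≤
      ENNReal.ofReal ((4 * e + δ) * (β - α) + C * (volume B).toReal) := by
    have h1 : Integrable (fun s => |deriv φ s - 1|) (volume.restrict J) :=
      ((hint J hJI hJm).sub (hconst J 1 hJI)).abs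
    rw [← ofReal_integral_eq_lintegral_ofReal h1 (Eventually.of_forall fun _ => abs_nonneg _)]
    exact ENNReal.ofReal_le_ofReal hJle
  have h4p : (0 : ℝ) ≤ 4 ^ (p - 1) := by positivity
  have hJp : ∫⁻ s in J, ENNReal.ofReal (|deriv φ s - 1| ^ p) ≤
      ENNReal.ofReal (4 ^ (p - 1)) *
        ENNReal.ofReal ((4 * e + δ) * (β - α) + C * (volume B).toReal) := by
    refine le_trans ?_ (mul_le_mul_right hJlin _)
    rw [← lintegral_const_mul' _ _ ENNReal.ofReal_ne_top]
    refine setLIntegral_mono' hJm fun s hs => ?_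
    rw [← ENNReal.ofReal_mul h4p]
    refine ENNReal.ofReal_le_ofReal ?_
    have h1 : |deriv φ s - 1| ≤ 4 := by
      have h2 := abs_le.1 (hd s hs.1 hs.2)
      rw [abs_le]
      constructor <;> linarith [h2.1, h2.2]
    calc |deriv φ s - 1| ^ p = |deriv φ s - 1| ^ ((p - 1) + 1) := by ring_nf
      _ = |deriv φ s - 1| ^ (p - 1) * |deriv φ s - 1| := by
          rw [Real.rpow_add_one' (abs_nonneg _) (by linarith)]
      _ ≤ 4 ^ (p - 1) * |deriv φ s - 1| := by
          gcongr
  have hBp : ∫⁻ s in B, ENNReal.ofReal (|deriv φ s - 1| ^ p) ≤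
      ENNReal.ofReal ((C + 1) ^ p) * volume B := by
    calc ∫⁻ s in B, ENNReal.ofReal (|deriv φ s - 1| ^ p)
        ≤ ∫⁻ _ in B, ENNReal.ofReal (((C : ℝ) + 1) ^ p) := by
          refine setLIntegral_mono' hBm fun s hs => ENNReal.ofReal_le_ofReal ?_
          refine Real.rpow_le_rpow (abs_nonneg _) ?_ hp0.le
          have h1 := abs_le.1 (hdC s (hBI hs))
          rw [abs_le]
          constructor <;> linarith [h1.1, h1.2, C.2]
      _ = _ := by rw [setLIntegral_const]
  have hIsplit : ∫⁻ s in I, ENNReal.ofReal (|deriv φ s - 1| ^ p) =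
      (∫⁻ s in B, ENNReal.ofReal (|deriv φ s - 1| ^ p)) +
        ∫⁻ s in J, ENNReal.ofReal (|deriv φ s - 1| ^ p) := by
    rw [hB, hJ, lintegral_inter_add_diff _ _ hb]
  rw [hIsplit]
  have hVB : ENNReal.ofReal (volume B).toReal = volume B := ENNReal.ofReal_toReal hBfin
  calc (∫⁻ s in B, ENNReal.ofReal (|deriv φ s - 1| ^ p)) +
        ∫⁻ s in J, ENNReal.ofReal (|deriv φ s - 1| ^ p)
      ≤ ENNReal.ofReal ((C + 1) ^ p) * volume B + ENNReal.ofReal (4 ^ (p - 1)) *
        ENNReal.ofReal ((4 * e + δ) * (β - α) + C * (volume B).toReal) := add_le_add hBp hJp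
    _ = _ := by
        have h0 : 0 ≤ (4 * e + δ) * (β - α) := by
          have : 0 < β - α := by linarith
          positivity
        have hC0 : (0 : ℝ) ≤ C := C.2
        rw [ENNReal.ofReal_add h0 (by positivity), ENNReal.ofReal_mul hC0, hVB, mul_add,
          ← ENNReal.ofReal_mul h4p, ← mul_assoc, ← mul_assoc, ← ENNReal.ofReal_mul h4p,
          ENNReal.ofReal_add (by positivity) (by positivity), add_mul]
        ring

/-- a row in which the derivative is small off `b` -/
theorem row_small {p : ℝ} (hp : 1 ≤ p) {φ : ℝ → ℝ} {α β : ℝ} (hαβ : α < β) {C e : ℝ}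
    (hC : 0 ≤ C) (he : 0 ≤ e) (he1 : e ≤ 1) (hdC : ∀ s ∈ Ioo α β, |deriv φ s| ≤ C) {b : Set ℝ}
    (hb : MeasurableSet b) (hd : ∀ s ∈ Ioo α β, s ∉ b → |deriv φ s| ≤ e) :
    ∫⁻ s in Ioo α β, ENNReal.ofReal (|deriv φ s| ^ p) ≤
      ENNReal.ofReal (e * (β - α)) + ENNReal.ofReal (C ^ p) * volume (Ioo α β ∩ b) := by
  have hp0 : 0 < p := by linarith
  rw [← lintegral_inter_add_diff _ _ hb, add_comm]
  refine add_le_add ?_ ?_
  · calc ∫⁻ s in Ioo α β \ b, ENNReal.ofReal (|deriv φ s| ^ p)
        ≤ ∫⁻ _ in Ioo α β \ b, ENNReal.ofReal e := by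
          refine setLIntegral_mono' (measurableSet_Ioo.diff hb) fun s hs =>
            ENNReal.ofReal_le_ofReal ?_
          calc |deriv φ s| ^ p ≤ e ^ p := Real.rpow_le_rpow (abs_nonneg _) (hd s hs.1 hs.2) hp0.le
            _ ≤ e ^ (1 : ℝ) := Real.rpow_le_rpow_of_exponent_ge_of_imp he he1 hp (by
                intro _ h1; linarith)
            _ = e := Real.rpow_one e
      _ = ENNReal.ofReal e * volume (Ioo α β \ b) := setLIntegral_const _ _
      _ ≤ ENNReal.ofReal e * ENNReal.ofReal (β - α) := by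
          gcongr
          rw [← Real.volume_Ioo]
          exact measure_mono diff_subset
      _ = _ := by rw [ENNReal.ofReal_mul he]
  · calc ∫⁻ s in Ioo α β ∩ b, ENNReal.ofReal (|deriv φ s| ^ p)
        ≤ ∫⁻ _ in Ioo α β ∩ b, ENNReal.ofReal (C ^ p) := by
          refine setLIntegral_mono' (measurableSet_Ioo.inter hb) fun s hs =>
            ENNReal.ofReal_le_ofReal ?_
          exact Real.rpow_le_rpow (abs_nonneg _) (hdC s hs.1) hp0.le
      _ = _ := setLIntegral_const _ _

end Vale.Agent.P073.H582
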