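import Vale.Agent.P073.H582.Row1D
import Vale.Agent.P073.H239.Sharp

/-!
# P073: [ROWS2]: a square face with nearly monotone sides and small slopes off a small set
-/

namespace Vale.Agent.P073.H582

open MeasureTheory Set Filter Topology Metric
open Vale.Agent.P073
open Vale.Agent.P073.St (V)
open Vale.Agent.P073.SQ (ev cube)
open Vale.Agent.P073.H73 (sqr onSeg)
open Vale.Agent.P073.H239 (tv faceI)
open scoped ENNReal NNReal

/-- Fubini in one direction -/
theorem lintegral_le_of_rows {G R : V → ℝ≥0∞} (hG : Measurable G) (hR : Measurable R) (i : Fin 3)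
    (h : ∀ x : V, ∫⁻ s : ℝ, G (Function.update x i s) ≤ ∫⁻ s : ℝ, R (Function.update x i s)) :
    ∫⁻ x, G x ≤ ∫⁻ x, R x := by
  have key : ∀ f : V → ℝ≥0∞, Measurable f → ∫⁻ x, f x =
      (lmarginal (fun _ : Fin 3 => (volume : Measure ℝ)) (Finset.univ.erase i)
        (fun x => ∫⁻ s : ℝ, f (Function.update x i s))) (0 : V) := by
    intro f hf
    rw [volume_pi, lintegral_eq_lmarginal_univ (0 : V), lmarginal_erase' _ hf (Finset.mem_univ i)]
  rw [key G hG, key R hR]
  exact lmarginal_mono h 0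

/-- projection to the square -/
noncomputable def toSq (a : V) (l : Fin 3) (σ : ℝ) (x : V) : V := fun k =>
  if k = l then a l else max (a k - σ) (min (a k + σ) (x k))

theorem continuous_toSq (a : V) (l : Fin 3) (σ : ℝ) : Continuous (toSq a l σ) := by
  refine continuous_pi fun k => ?_
  by_cases hk : k = l
  · simp only [toSq, hk, if_true]
    exact continuous_const
  · simp only [toSq, hk, if_false]
    exact continuous_const.max (continuous_const.min (continuous_apply k))

theorem toSq_mem {a : V} {l : Fin 3} {σ : ℝ} (hσ : 0 ≤ σ) (x : V) : toSq a l σ x ∈ sqr a l σ := by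
  refine ⟨by simp [toSq], fun j => ?_⟩
  by_cases hj : j = l
  · subst hj; simp [toSq, hσ]
  · simp only [toSq, hj, if_false]
    rw [abs_le]
    constructor
    · have := le_max_left (a j - σ) (min (a j + σ) (x j)); linarith
    · have : max (a j - σ) (min (a j + σ) (x j)) ≤ a j + σ :=
        max_le (by linarith) (min_le_left _ _)
      linarith

theorem toSq_of_mem {a : V} {l : Fin 3} {σ : ℝ} {x : V} (hx : x ∈ sqr a l σ) :
    toSq a l σ x = x := by
  funext k
  by_cases hk : k = l
  · subst hk; simp [toSq, hx.1]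
  · simp only [toSq, hk, if_false]
    have h1 := abs_le.1 (hx.2 k)
    rw [min_eq_right (by linarith), max_eq_right (by linarith)]

/-- the open cube -/
def ocube (a : V) (σ : ℝ) : Set V := {x | ∀ k, |x k - a k| < σ}

theorem ocube_eq (a : V) (σ : ℝ) :
    ocube a σ = Set.pi univ fun k : Fin 3 => Ioo (a k - σ) (a k + σ) := by
  ext x
  simp only [ocube, mem_setOf_eq, Set.mem_pi, mem_univ, forall_const, mem_Ioo, abs_lt]
  refine forall_congr' fun k => ?_
  constructor
  · rintro ⟨h1, h2⟩; constructor <;> linarith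
  · rintro ⟨h1, h2⟩; constructor <;> linarith

theorem cube_eq (a : V) (σ : ℝ) :
    cube a σ = Icc (fun k => a k - σ) (fun k => a k + σ) := by
  ext x
  simp only [cube, mem_setOf_eq, mem_Icc, Pi.le_def, abs_le]
  constructor
  · intro h; exact ⟨fun k => by linarith [(h k).1], fun k => by linarith [(h k).2]⟩
  · intro h k; exact ⟨by linarith [h.1 k], by linarith [h.2 k]⟩

theorem measurableSet_ocube (a : V) (σ : ℝ) : MeasurableSet (ocube a σ) := by
  rw [ocube_eq]
  exact MeasurableSet.univ_pi fun _ => measurableSet_Ioo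

theorem ocube_ae (a : V) (σ : ℝ) : (ocube a σ : Set V) =ᵐ[volume] (cube a σ : Set V) := by
  rw [ocube_eq, cube_eq, volume_pi]
  exact Measure.univ_pi_Ioo_ae_eq_Icc

theorem volume_ocube {a : V} {σ : ℝ} (hσ : 0 ≤ σ) :
    volume (ocube a σ) = ENNReal.ofReal ((2 * σ) ^ 3) := by
  rw [ocube_eq, Real.volume_pi_Ioo]
  have h : ∀ k : Fin 3, ENNReal.ofReal (a k + σ - (a k - σ)) = ENNReal.ofReal (2 * σ) := fun k => by
    congr 1; ring
  simp only [h, Finset.prod_const, Finset.card_univ, Fintype.card_fin]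
  rw [ENNReal.ofReal_pow (by positivity)]

/-- the components of the derivative along a line -/
theorem norm_lineDeriv_sub_le {g : V → V} {z : V} {i : Fin 3} {p : ℝ} (hp : 0 ≤ p)
    (hd : ∀ k, DifferentiableAt ℝ (fun t : ℝ => g (z + t • ev i) k) 0) :
    ENNReal.ofReal (‖lineDeriv ℝ g z (ev i) - ev i‖ ^ p) ≤
      ∑ k, ENNReal.ofReal (|deriv (fun t : ℝ => g (z + t • ev i) k) 0 - (ev i : V) k| ^ p) := by
  have h1 : lineDeriv ℝ g z (ev i) = fun k => deriv (fun t : ℝ => g (z + t • ev i) k) 0 := by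
    unfold lineDeriv
    have h2 : HasDerivAt (fun t : ℝ => g (z + t • ev i))
        (fun k => deriv (fun t : ℝ => g (z + t • ev i) k) 0) 0 :=
      hasDerivAt_pi.2 fun k => (hd k).hasDerivAt
    exact h2.deriv
  rw [h1]
  obtain ⟨k, hk⟩ : ∃ k, ‖(fun k => deriv (fun t : ℝ => g (z + t • ev i) k) 0) - ev i‖ =
      |deriv (fun t : ℝ => g (z + t • ev i) k) 0 - (ev i : V) k| := by
    obtain ⟨k, -, hk⟩ := Finset.exists_mem_eq_sup' (s := (Finset.univ : Finset (Fin 3)))
      Finset.univ_nonempty fun k => ‖((fun k => deriv (fun t : ℝ => g (z + t • ev i) k) 0) -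
        (ev i : V)) k‖
    refine ⟨k, ?_⟩
    rw [← Real.norm_eq_abs]
    have h3 : ‖(fun k => deriv (fun t : ℝ => g (z + t • ev i) k) 0) - (ev i : V)‖ ≤
        ‖((fun k => deriv (fun t : ℝ => g (z + t • ev i) k) 0) - (ev i : V)) k‖ := by
      refine (pi_norm_le_iff_of_nonneg (norm_nonneg _)).2 fun j => ?_
      rw [← hk]
      exact Finset.le_sup' (fun k => ‖((fun k => deriv (fun t : ℝ => g (z + t • ev i) k) 0) -
        (ev i : V)) k‖) (Finset.mem_univ j)
    exact le_antisymm h3 (norm_le_pi_norm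
      ((fun k => deriv (fun t : ℝ => g (z + t • ev i) k) 0) - (ev i : V)) k)
  rw [hk]
  exact Finset.single_le_sum (f := fun k => ENNReal.ofReal
    (|deriv (fun t : ℝ => g (z + t • ev i) k) 0 - (ev i : V) k| ^ p)) (fun _ _ => zero_le)
    (Finset.mem_univ k)

theorem exists_third {i l : Fin 3} (h : i ≠ l) :
    ∃ j : Fin 3, j ≠ i ∧ j ≠ l ∧ ∀ k : Fin 3, k = i ∨ k = j ∨ k = l := by
  revert i l
  decide

/-- a side of the square: the other components vary little -/
theorem side_le {g : V → V} {x : V} {i k : Fin 3} (hk : k ≠ i) {r σ : ℝ} (hr : 0 ≤ r) (hr1 : r ≤ 1)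
    (hσ : 0 < σ) (hnet : (1 - r) * (2 * σ) ≤ g (x + (2 * σ) • ev i) i - g x i)
    (htv : tv g (x, x + (2 * σ) • ev i) Finset.univ ≤ ENNReal.ofReal ((1 + r) * (2 * σ)))
    {τ : ℝ} (hτ : τ ∈ Icc (0 : ℝ) 1) :
    |g (x + (τ * (2 * σ)) • ev i) k - g x k| ≤ 4 * r * σ := by
  set γ : Fin 3 → ℝ → ℝ := fun k t => onSeg g (x, x + (2 * σ) • ev i) t k with hγ
  have hval : ∀ k t, γ k t = g (x + (t * (2 * σ)) • ev i) k := by
    intro k t
    simp only [hγ, onSeg, add_sub_cancel_left, smul_smul]
  have h0 : (0 : ℝ) ∈ Icc (0 : ℝ) 1 := ⟨le_rfl, zero_le_one⟩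
  have h1 : (1 : ℝ) ∈ Icc (0 : ℝ) 1 := ⟨zero_le_one, le_rfl⟩
  have hSi : ENNReal.ofReal ((1 - r) * (2 * σ)) ≤ eVariationOn (γ i) (Icc 0 1) := by
    refine le_trans ?_ (eVariationOn.edist_le (γ i) h1 h0)
    rw [edist_dist, Real.dist_eq]
    refine ENNReal.ofReal_le_ofReal (le_trans ?_ (le_abs_self _))
    rw [hval, hval, one_mul, zero_mul, zero_smul, add_zero]
    exact hnet
  have hSk : ENNReal.ofReal |g (x + (τ * (2 * σ)) • ev i) k - g x k| ≤
      eVariationOn (γ k) (Icc 0 1) := by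
    refine le_trans ?_ (eVariationOn.edist_le (γ k) hτ h0)
    rw [edist_dist, Real.dist_eq, hval, hval, zero_mul, zero_smul, add_zero]
  have hsum : eVariationOn (γ i) (Icc 0 1) + eVariationOn (γ k) (Icc 0 1) ≤
      ENNReal.ofReal ((1 + r) * (2 * σ)) := by
    refine le_trans ?_ htv
    have h2 : ∑ j ∈ ({i, k} : Finset (Fin 3)), eVariationOn (γ j) (Icc 0 1) =
        eVariationOn (γ i) (Icc 0 1) + eVariationOn (γ k) (Icc 0 1) :=
      Finset.sum_pair hk.symm
    rw [← h2]
    exact Finset.sum_le_sum_of_subset (Finset.subset_univ _)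
  have h3 := (add_le_add hSi hSk).trans hsum
  have h4 : 0 ≤ (1 - r) * (2 * σ) := mul_nonneg (by linarith) (by linarith)
  rw [← ENNReal.ofReal_add h4 (abs_nonneg _), ENNReal.ofReal_le_ofReal_iff (by positivity)] at h3
  linarith

/-- the net displacement of a row -/
theorem row_net {g : V → V} {a : V} {l : Fin 3} {r σ : ℝ} (hr : 0 ≤ r) (hr1 : r ≤ 1)
    (hσ : 0 < σ)
    (hside : ∀ i, i ≠ l → ∀ x : V, x ∈ sqr a l σ → x + (2 * σ) • ev i ∈ sqr a l σ →
      (∀ j, j ≠ i → j ≠ l → |x j - a j| = σ) →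
      (1 - r) * (2 * σ) ≤ g (x + (2 * σ) • ev i) i - g x i ∧
      tv g (x, x + (2 * σ) • ev i) Finset.univ ≤ ENNReal.ofReal ((1 + r) * (2 * σ)))
    {i : Fin 3} (hi : i ≠ l) {x : V} (hx : x ∈ sqr a l σ) :
    (1 - 5 * r) * (2 * σ) ≤
      g (Function.update x i (a i + σ)) i - g (Function.update x i (a i - σ)) i := by
  obtain ⟨j, hji, hjl, hk⟩ := exists_third hi
  set c0 : V := Function.update (Function.update x i (a i - σ)) j (a j - σ) with hc0
  have e_i : c0 i = a i - σ := by simp [hc0, hji.symm]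
  have e_j : c0 j = a j - σ := by simp [hc0]
  have e_l : c0 l = a l := by simp [hc0, hjl.symm, hi.symm, hx.1]
  have hsq : ∀ y : V, y l = a l → |y i - a i| ≤ σ → |y j - a j| ≤ σ → y ∈ sqr a l σ := by
    intro y h1 h2 h3
    refine ⟨h1, fun k => ?_⟩
    rcases hk k with rfl | rfl | rfl
    · exact h2
    · exact h3
    · rw [h1, sub_self, abs_zero]; exact hσ.le
  have evii : ∀ k : Fin 3, (ev k : V) k = 1 := fun k => by simp [ev]
  have evij : ∀ k m : Fin 3, m ≠ k → (ev k : V) m = 0 := fun k m h => by simp [ev, h]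
  set c1 : V := c0 + (2 * σ) • ev i with hc1
  have f_i : c1 i = a i + σ := by simp [hc1, e_i, evii]; ring
  have f_j : c1 j = a j - σ := by simp [hc1, e_j, evij i j hji]
  have f_l : c1 l = a l := by simp [hc1, e_l, evij i l hi.symm]
  have a1 : |a i - σ - a i| ≤ σ := by
    rw [show a i - σ - a i = -σ by ring, abs_neg, abs_of_pos hσ]
  have a2 : |a j - σ - a j| ≤ σ := by
    rw [show a j - σ - a j = -σ by ring, abs_neg, abs_of_pos hσ]
  have a3 : |a i + σ - a i| ≤ σ := by
    rw [show a i + σ - a i = σ by ring, abs_of_pos hσ]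
  have a4 : |a j + σ - a j| ≤ σ := by
    rw [show a j + σ - a j = σ by ring, abs_of_pos hσ]
  have hc0s : c0 ∈ sqr a l σ := hsq _ e_l (by rw [e_i]; exact a1) (by rw [e_j]; exact a2)
  have hc1s : c1 ∈ sqr a l σ := hsq _ f_l (by rw [f_i]; exact a3) (by rw [f_j]; exact a2)
  have a1' : |a i - σ - a i| = σ := by
    rw [show a i - σ - a i = -σ by ring, abs_neg, abs_of_pos hσ]
  have a2' : |a j - σ - a j| = σ := by
    rw [show a j - σ - a j = -σ by ring, abs_neg, abs_of_pos hσ]
  have a3' : |a i + σ - a i| = σ := by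
    rw [show a i + σ - a i = σ by ring, abs_of_pos hσ]
  -- bottom side
  have hb := hside i hi c0 hc0s hc1s fun m hm1 hm2 => by
    rcases hk m with rfl | rfl | rfl
    · exact absurd rfl hm1
    · rw [e_j]; exact a2'
    · exact absurd rfl hm2
  -- left side
  have hl := hside j hjl c0 hc0s (hsq _ (by simp [e_l, evij j l hjl.symm])
      (by simp [e_i, evij j i hji.symm]; linarith [abs_of_pos hσ])
      (by
        have : (c0 + (2 * σ) • (ev j : V)) j = a j + σ := by simp [e_j, evii]; ring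
        rw [this]; exact a4)) fun m hm1 hm2 => by
    rcases hk m with rfl | rfl | rfl
    · rw [e_i]; exact a1'
    · exact absurd rfl hm1
    · exact absurd rfl hm2
  -- right side
  have hr' := hside j hjl c1 hc1s (hsq _ (by simp [f_l, evij j l hjl.symm])
      (by simp [f_i, evij j i hji.symm]; linarith [abs_of_pos hσ])
      (by
        have : (c1 + (2 * σ) • (ev j : V)) j = a j + σ := by simp [f_j, evii]; ring
        rw [this]; exact a4)) fun m hm1 hm2 => by
    rcases hk m with rfl | rfl | rfl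
    · rw [f_i]; exact a3'
    · exact absurd rfl hm1
    · exact absurd rfl hm2
  set τ : ℝ := (x j - (a j - σ)) / (2 * σ) with hτ
  have hxj := abs_le.1 (hx.2 j)
  have hτm : τ ∈ Icc (0 : ℝ) 1 := by
    constructor
    · exact div_nonneg (by linarith) (by linarith)
    · rw [hτ, div_le_one (by linarith)]; linarith
  have hτ2 : τ * (2 * σ) = x j - (a j - σ) := by
    rw [hτ]; field_simp
  have g0 : c0 + (τ * (2 * σ)) • (ev j : V) = Function.update x i (a i - σ) := by
    funext m
    rcases hk m with rfl | rfl | rfl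
    · simp [e_i, evij j m hji.symm]
    · rw [hτ2]; simp [e_j, evii, hji]
    · simp [e_l, evij j m hjl.symm, hi.symm, hx.1]
  have g1 : c1 + (τ * (2 * σ)) • (ev j : V) = Function.update x i (a i + σ) := by
    funext m
    rcases hk m with rfl | rfl | rfl
    · simp [f_i, evij j m hji.symm]
    · rw [hτ2]; simp [f_j, evii, hji]
    · simp [f_l, evij j m hjl.symm, hi.symm, hx.1]
  have h1 := side_le (k := i) hji.symm hr hr1 hσ hl.1 hl.2 hτm
  have h2 := side_le (k := i) hji.symm hr hr1 hσ hr'.1 hr'.2 hτm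
  rw [g0] at h1
  rw [g1] at h2
  have h3 := abs_le.1 h1
  have h4 := abs_le.1 h2
  have h5 := hb.1
  linarith [h3.1, h3.2, h4.1, h4.2]

end Vale.Agent.P073.H582
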