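import Vale.Agent.P073.H582.Rows2

/-!
# P073: [ROWS2]: the estimate
-/

namespace Vale.Agent.P073.H582

open MeasureTheory Set Filter Topology Metric
open Vale.Agent.P073
open Vale.Agent.P073.St (V)
open Vale.Agent.P073.SQ (ev cube)
open Vale.Agent.P073.H73 (sqr onSeg)
open Vale.Agent.P073.H239 (tv faceI)
open scoped ENNReal NNReal

variable {g : V → V} {a : V} {l : Fin 3} {σ : ℝ}

/-- the point of the row -/
noncomputable def rp (a : V) (l i : Fin 3) (x : V) (s : ℝ) : V :=
  Function.update (Function.update x l (a l)) i s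

theorem rp_add {i : Fin 3} {x : V} (s t : ℝ) : rp a l i x (s + t) = rp a l i x s + t • ev i := by
  funext k
  by_cases hk : k = i
  · subst hk; simp [rp, ev]
  · simp [rp, ev, hk]

theorem rp_eq {i : Fin 3} (hi : i ≠ l) (x : V) (s : ℝ) :
    Function.update (Function.update x i s) l (a l) = rp a l i x s := by
  unfold rp
  rw [Function.update_comm hi.symm]

theorem rp_mem {i : Fin 3} (hi : i ≠ l) {x : V} (hσ : 0 ≤ σ)
    (hx : ∀ k, k ≠ i → k ≠ l → |x k - a k| ≤ σ) {s : ℝ} (hs : s ∈ Icc (a i - σ) (a i + σ)) :
    rp a l i x s ∈ sqr a l σ := by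
  refine ⟨by simp [rp, hi.symm], fun k => ?_⟩
  by_cases hk : k = i
  · subst hk
    simp only [rp, Function.update_self]
    rw [abs_le]; constructor <;> linarith [hs.1, hs.2]
  · by_cases hkl : k = l
    · subst hkl; simp [rp, hk, hσ]
    · simp only [rp, Function.update_of_ne hk, Function.update_of_ne hkl]
      exact hx k hk hkl

theorem continuous_rp (a : V) (l i : Fin 3) (x : V) : Continuous (rp a l i x) :=
  continuous_const.update i continuous_id

theorem norm_rp_sub (i : Fin 3) (x : V) (s t : ℝ) : ‖rp a l i x s - rp a l i x t‖ = |s - t| := by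
  have h : rp a l i x s - rp a l i x t = (s - t) • ev i := by
    funext k
    by_cases hk : k = i
    · subst hk; simp [rp, ev]
    · simp [rp, ev, hk]
  have h1 : ‖(ev i : V)‖ = 1 := by
    simp only [ev]
    rw [Pi.norm_single]
    simp
  rw [h, norm_smul, h1, mul_one, Real.norm_eq_abs]

/-- local bounds along a row -/
theorem local_row {i : Fin 3} (hi : i ≠ l) {x : V} (hσ : 0 ≤ σ)
    (hx : ∀ k, k ≠ i → k ≠ l → |x k - a k| ≤ σ) {s : ℝ} (hs : s ∈ Icc (a i - σ) (a i + σ))
    {P : V → Prop} (h : ∀ᶠ y in 𝓝[sqr a l σ] (rp a l i x s), P y) :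
    ∀ᶠ t in 𝓝[Icc (a i - σ) (a i + σ)] s, P (rp a l i x t) := by
  have h1 : Tendsto (rp a l i x) (𝓝[Icc (a i - σ) (a i + σ)] s) (𝓝[sqr a l σ] (rp a l i x s)) :=
    tendsto_nhdsWithin_of_tendsto_nhds_of_eventually_within _
      ((continuous_rp a l i x).tendsto s |>.mono_left nhdsWithin_le_nhds)
      (by filter_upwards [self_mem_nhdsWithin] with t ht using rp_mem hi hσ hx ht)
  exact h1.eventually h

/-- the constant -/
noncomputable def kRow (p C : ℝ) : ℝ :=
  2 * (8 * (4 ^ (p - 1) * 5 + 2) + (4 ^ (p - 1) * C + (C + 1) ^ p + 2 * C ^ p))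

/-- **[ROWS2]** -/
theorem faceI_le {p : ℝ} (hp : 1 ≤ p) (hσ : 0 < σ) {B : Set V} (hB : MeasurableSet B)
    {C e r β : ℝ} (hC : 0 ≤ C) (he : 0 ≤ e) (he1 : e ≤ 1) (hr : 0 ≤ r) (hr1 : r ≤ 1)
    (hβ : 0 ≤ β)
    (h1 : ∀ x ∈ sqr a l σ, ∀ᶠ y in 𝓝[sqr a l σ] x, ∀ j, j ≠ l → |g y j - g x j| ≤ C * ‖y - x‖)
    (h2 : ∀ x ∈ sqr a l σ, x ∉ B → ∀ᶠ y in 𝓝[sqr a l σ] x, ∀ j, j ≠ l →
      |g y j - g x j| ≤ (1 + e) * |y j - x j| + e * ‖y - x‖)
    (h3 : ∀ x ∈ sqr a l σ, ∀ᶠ y in 𝓝[sqr a l σ] x, |g y l - g x l| ≤ e * ‖y - x‖)
    (hside : ∀ i, i ≠ l → ∀ x : V, x ∈ sqr a l σ → x + (2 * σ) • ev i ∈ sqr a l σ →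
      (∀ j, j ≠ i → j ≠ l → |x j - a j| = σ) →
      (1 - r) * (2 * σ) ≤ g (x + (2 * σ) • ev i) i - g x i ∧
      tv g (x, x + (2 * σ) • ev i) Finset.univ ≤ ENNReal.ofReal ((1 + r) * (2 * σ)))
    (hvol : volume {x : V | x ∈ cube a σ ∧ Function.update x l (a l) ∈ B} ≤
      ENNReal.ofReal (β * σ ^ 3)) :
    faceI p g a l σ ≤ ENNReal.ofReal (kRow p C * (e + r + β) * σ ^ 3) := by
  have hp0 : 0 < p := by linarith
  -- continuity
  have hgc : ContinuousOn g (sqr a l σ) := by
    intro x hx
    rw [ContinuousWithinAt, tendsto_iff_norm_sub_tendsto_zero]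
    have hlim : Tendsto (fun y => (C + e) * ‖y - x‖) (𝓝[sqr a l σ] x) (𝓝 0) := by
      have h4 : Tendsto (fun y : V => (C + e) * ‖y - x‖) (𝓝 x) (𝓝 ((C + e) * ‖x - x‖)) := by
        apply Continuous.tendsto
        fun_prop
      rw [sub_self, norm_zero, mul_zero] at h4
      exact h4.mono_left nhdsWithin_le_nhds
    refine squeeze_zero' (Eventually.of_forall fun _ => norm_nonneg _) ?_ hlim
    filter_upwards [h1 x hx, h3 x hx] with y hy1 hy3
    refine (pi_norm_le_iff_of_nonneg (by positivity)).2 fun k => ?_
    rw [Real.norm_eq_abs]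
    have hn := norm_nonneg (y - x)
    by_cases hk : k = l
    · subst hk
      refine hy3.trans ?_
      nlinarith
    · refine (hy1 k hk).trans ?_
      nlinarith
  set gc : V → V := fun x => g (toSq a l σ x) with hgc'
  have hgcc : Continuous gc := hgc.comp_continuous (continuous_toSq a l σ) fun x => toSq_mem hσ.le x
  -- one direction
  have key : ∀ i, i ≠ l → ∫⁻ x in cube a σ,
      ENNReal.ofReal (‖lineDeriv ℝ g (Function.update x l (a l)) (ev i) - ev i‖ ^ p) ≤
        ENNReal.ofReal ((4 ^ (p - 1) * (4 * e + 5 * r) + 2 * e) * (2 * σ) ^ 3) +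
          ENNReal.ofReal (4 ^ (p - 1) * C + (C + 1) ^ p + 2 * C ^ p) *
            ENNReal.ofReal (β * σ ^ 3) := by
    intro i hi
    obtain ⟨j, hji, hjl, hk3⟩ := exists_third hi
    set c₁ : ℝ := 4 ^ (p - 1) * (4 * e + 5 * r) + 2 * e with hc₁
    have hc₁0 : 0 ≤ c₁ := by positivity
    set K : ℝ := 4 ^ (p - 1) * C + (C + 1) ^ p + 2 * C ^ p with hK
    have hK0 : 0 ≤ K := by positivity
    set B' : Set V := {x : V | Function.update x l (a l) ∈ B} with hB'
    have hup : Measurable fun x : V => Function.update x l (a l) :=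
      (continuous_id.update l continuous_const).measurable
    have hB'm : MeasurableSet B' := hup hB
    have hOm : MeasurableSet (ocube a σ) := measurableSet_ocube a σ
    set G : V → ℝ≥0∞ := (ocube a σ).indicator fun x =>
      ENNReal.ofReal (‖lineDeriv ℝ gc (Function.update x l (a l)) (ev i) - ev i‖ ^ p) with hG
    set R : V → ℝ≥0∞ := (ocube a σ).indicator fun x =>
      ENNReal.ofReal c₁ + ENNReal.ofReal K * B'.indicator (1 : V → ℝ≥0∞) x with hR
    have hGm : Measurable G := by
      refine Measurable.indicator ?_ hOm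
      have h4 : Measurable fun x : V => lineDeriv ℝ gc (Function.update x l (a l)) (ev i) :=
        (measurable_lineDeriv (𝕜 := ℝ) (v := (ev i : V)) hgcc).comp hup
      exact (((h4.sub measurable_const).norm).pow_const p).ennreal_ofReal
    have hone : Measurable (1 : V → ℝ≥0∞) := measurable_one
    have hone1 : Measurable (1 : ℝ → ℝ≥0∞) := measurable_one
    have hRm : Measurable R := by
      refine Measurable.indicator ?_ hOm
      exact measurable_const.add (measurable_const.mul (hone.indicator hB'm))
    have hrows : ∀ x : V, ∫⁻ s : ℝ, G (Function.update x i s) ≤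
        ∫⁻ s : ℝ, R (Function.update x i s) := by
      intro x
      by_cases hx : ∀ k, k ≠ i → |x k - a k| < σ
      swap
      · have h0 : ∀ s, G (Function.update x i s) = 0 := by
          intro s
          rw [hG, indicator_of_notMem]
          intro hmem
          apply hx
          intro k hk
          have := hmem k
          rwa [Function.update_of_ne hk] at this
        simp only [h0, lintegral_zero]
        exact zero_le
      have hx' : ∀ k, k ≠ i → k ≠ l → |x k - a k| ≤ σ := fun k hk _ => (hx k hk).le
      set α : ℝ := a i - σ with hα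
      set α' : ℝ := a i + σ with hα'
      have hαα : α < α' := by linarith
      have hlen : α' - α = 2 * σ := by rw [hα, hα']; ring
      have hmem : ∀ s, Function.update x i s ∈ ocube a σ ↔ s ∈ Ioo α α' := by
        intro s
        constructor
        · intro h4
          have h5 := abs_lt.1 (h4 i)
          rw [Function.update_self] at h5
          exact ⟨by linarith, by linarith⟩
        · intro h4 k
          by_cases hk : k = i
          · subst hk
            rw [Function.update_self, abs_lt]
            constructor <;> linarith [h4.1, h4.2]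
          · rw [Function.update_of_ne hk]
            exact hx k hk
      set φ : Fin 3 → ℝ → ℝ := fun k s => g (rp a l i x s) k with hφ
      set b : Set ℝ := (rp a l i x) ⁻¹' B with hb
      have hbm : MeasurableSet b := (continuous_rp a l i x).measurable hB
      -- local bounds
      have hloc1 : ∀ k, k ≠ l → ∀ s ∈ Icc α α', ∀ᶠ t in 𝓝[Icc α α'] s,
          |φ k t - φ k s| ≤ C * |t - s| := by
        intro k hk s hs
        have h4 := local_row hi hσ.le hx' hs (h1 _ (rp_mem hi hσ.le hx' hs))
        filter_upwards [h4] with t ht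
        have := ht k hk
        rwa [norm_rp_sub] at this
      have hloc3 : ∀ s ∈ Icc α α', ∀ᶠ t in 𝓝[Icc α α'] s, |φ l t - φ l s| ≤ e * |t - s| := by
        intro s hs
        have h4 := local_row hi hσ.le hx' hs (h3 _ (rp_mem hi hσ.le hx' hs))
        filter_upwards [h4] with t ht
        rwa [norm_rp_sub] at ht
      have hloc2 : ∀ s ∈ Icc α α', s ∉ b → ∀ᶠ t in 𝓝[Icc α α'] s,
          |φ i t - φ i s| ≤ (1 + 2 * e) * |t - s| ∧ |φ j t - φ j s| ≤ e * |t - s| := by
        intro s hs hsb
        have h4 := local_row hi hσ.le hx' hs (h2 _ (rp_mem hi hσ.le hx' hs) hsb)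
        filter_upwards [h4] with t ht
        have h5 := ht i hi
        have h6 := ht j hjl
        rw [norm_rp_sub] at h5 h6
        have e1 : rp a l i x t i - rp a l i x s i = t - s := by simp [rp]
        have e2 : rp a l i x t j - rp a l i x s j = 0 := by simp [rp, hji]
        rw [e1] at h5
        rw [e2, abs_zero, mul_zero, zero_add] at h6
        exact ⟨by linarith, h6⟩
      set Cn : ℝ≥0 := ⟨C, hC⟩ with hCn
      have hLip : ∀ k, k ≠ l → LipschitzOnWith Cn (φ k) (Icc α α') := fun k hk =>
        lipschitzOn_of_local (hloc1 k hk)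
      have hLipl : LipschitzOnWith ⟨e, he⟩ (φ l) (Icc α α') := lipschitzOn_of_local hloc3
      have hdC : ∀ k, k ≠ l → ∀ s ∈ Ioo α α', |deriv (φ k) s| ≤ C := fun k hk s hs =>
        abs_deriv_le_of_local hC hs (hloc1 k hk s (Ioo_subset_Icc_self hs))
      have hdl : ∀ s ∈ Ioo α α', |deriv (φ l) s| ≤ e := fun s hs =>
        abs_deriv_le_of_local he hs (hloc3 s (Ioo_subset_Icc_self hs))
      have hdi : ∀ s ∈ Ioo α α', s ∉ b → |deriv (φ i) s| ≤ 1 + 2 * e := fun s hs hsb =>
        abs_deriv_le_of_local (by positivity) hs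
          ((hloc2 s (Ioo_subset_Icc_self hs) hsb).mono fun t ht => ht.1)
      have hdj : ∀ s ∈ Ioo α α', s ∉ b → |deriv (φ j) s| ≤ e := fun s hs hsb =>
        abs_deriv_le_of_local he hs
          ((hloc2 s (Ioo_subset_Icc_self hs) hsb).mono fun t ht => ht.2)
      -- net displacement
      have hnet : (1 - 5 * r) * (α' - α) ≤ φ i α' - φ i α := by
        have h4 := row_net hr hr1 hσ hside hi (x := rp a l i x (a i))
          (rp_mem hi hσ.le hx' ⟨by linarith, by linarith⟩)
        rw [hlen]
        have e1 : ∀ s, Function.update (rp a l i x (a i)) i s = rp a l i x s := fun s => by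
          simp [rp]
        rw [e1, e1] at h4
        exact h4
      -- almost everywhere differentiable
      have hae : ∀ᵐ s : ℝ, ∀ k, s ∈ Ioo α α' → DifferentiableAt ℝ (φ k) s := by
        rw [ae_all_iff]
        intro k
        have h4 : ∃ D : ℝ≥0, LipschitzOnWith D (φ k) (Icc α α') := by
          by_cases hk : k = l
          · subst hk; exact ⟨_, hLipl⟩
          · exact ⟨_, hLip k hk⟩
        obtain ⟨D, hD⟩ := h4
        have h5 : AbsolutelyContinuousOnInterval (φ k) α α' :=
          LipschitzOnWith.absolutelyContinuousOnInterval (K := D) (by rwa [uIcc_of_le hαα.le])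
        filter_upwards [h5.ae_differentiableAt] with s hs hsI
        exact hs (by rw [uIcc_of_le hαα.le]; exact Ioo_subset_Icc_self hsI)
      -- the left hand side
      have hGrow : ∀ᵐ s : ℝ, G (Function.update x i s) ≤ (Ioo α α').indicator (fun s =>
          ENNReal.ofReal (|deriv (φ i) s - 1| ^ p) + (ENNReal.ofReal (|deriv (φ j) s| ^ p) +
            ENNReal.ofReal (|deriv (φ l) s| ^ p))) s := by
        filter_upwards [hae] with s hs
        by_cases hsI : s ∈ Ioo α α'
        swap
        · rw [hG, indicator_of_notMem (fun h => hsI ((hmem s).1 h))]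
          exact zero_le
        rw [hG, indicator_of_mem ((hmem s).2 hsI), indicator_of_mem hsI, rp_eq hi]
        -- replace `gc` by `g`
        have e1 : lineDeriv ℝ gc (rp a l i x s) (ev i) = lineDeriv ℝ g (rp a l i x s) (ev i) := by
          unfold lineDeriv
          refine Filter.EventuallyEq.deriv_eq ?_
          have h4 : ∀ᶠ t : ℝ in 𝓝 0, s + t ∈ Ioo α α' := by
            have h5 : Tendsto (fun t : ℝ => s + t) (𝓝 0) (𝓝 (s + 0)) :=
              (continuous_const.add continuous_id).tendsto 0
            rw [add_zero] at h5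
            exact h5.eventually (Ioo_mem_nhds hsI.1 hsI.2)
          filter_upwards [h4] with t ht
          show g (toSq a l σ (rp a l i x s + t • ev i)) = g (rp a l i x s + t • ev i)
          rw [← rp_add, toSq_of_mem (rp_mem hi hσ.le hx' (Ioo_subset_Icc_self ht))]
        rw [e1]
        have e2 : ∀ k, (fun t : ℝ => g (rp a l i x s + t • ev i) k) = fun t => φ k (s + t) := by
          intro k
          funext t
          show _ = g (rp a l i x (s + t)) k
          rw [rp_add]
        have hd0 : ∀ k, DifferentiableAt ℝ (fun t : ℝ => g (rp a l i x s + t • ev i) k) 0 := by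
          intro k
          rw [e2]
          have h4 : DifferentiableAt ℝ (φ k) (s + 0) := by rw [add_zero]; exact hs k hsI
          exact h4.comp (0 : ℝ) ((differentiableAt_const s).add differentiableAt_id)
        have e3 : ∀ k, deriv (fun t : ℝ => g (rp a l i x s + t • ev i) k) 0 = deriv (φ k) s := by
          intro k
          rw [e2, deriv_comp_const_add, add_zero]
        refine (norm_lineDeriv_sub_le hp0.le hd0).trans (le_of_eq ?_)
        simp only [e3]
        have e4 : (Finset.univ : Finset (Fin 3)) = {i, j, l} := by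
          ext k
          simp only [Finset.mem_univ, Finset.mem_insert, Finset.mem_singleton, true_iff]
          exact hk3 k
        rw [e4, Finset.sum_insert (by simp [hji.symm, hi]), Finset.sum_pair hjl]
        simp [ev, hji, hi.symm]
      have hLHS : ∫⁻ s : ℝ, G (Function.update x i s) ≤
          (∫⁻ s in Ioo α α', ENNReal.ofReal (|deriv (φ i) s - 1| ^ p)) +
            ((∫⁻ s in Ioo α α', ENNReal.ofReal (|deriv (φ j) s| ^ p)) +
              ∫⁻ s in Ioo α α', ENNReal.ofReal (|deriv (φ l) s| ^ p)) := by
        refine (lintegral_mono_ae hGrow).trans (le_of_eq ?_)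
        have hm : ∀ k, Measurable (deriv (φ k)) := fun k => measurable_deriv _
        have m1 : Measurable fun s => ENNReal.ofReal (|deriv (φ i) s - 1| ^ p) :=
          ((((hm i).sub measurable_const).norm).pow_const p).ennreal_ofReal
        have m2 : ∀ k, Measurable fun s => ENNReal.ofReal (|deriv (φ k) s| ^ p) := fun k =>
          (((hm k).norm).pow_const p).ennreal_ofReal
        rw [lintegral_indicator measurableSet_Ioo, lintegral_add_left m1, lintegral_add_left (m2 j)]
      have r1 := row_le hp hαα (C := Cn) he he1 (δ := 5 * r) (by positivity) (hLip i hi) hbm hdi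
        hnet
      have r2 := row_small hp hαα hC he he1 (hdC j hjl) hbm hdj
      have r3 := row_small hp hαα he he he1 hdl (b := ∅) MeasurableSet.empty
        (fun s hs _ => hdl s hs)
      rw [inter_empty, measure_empty, mul_zero, add_zero] at r3
      -- the right hand side
      have hRHS : ∫⁻ s : ℝ, R (Function.update x i s) =
          ENNReal.ofReal c₁ * ENNReal.ofReal (α' - α) +
            ENNReal.ofReal K * volume (Ioo α α' ∩ b) := by
        have e1 : (fun s => R (Function.update x i s)) = (Ioo α α').indicator fun s =>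
            ENNReal.ofReal c₁ + ENNReal.ofReal K * b.indicator (1 : ℝ → ℝ≥0∞) s := by
          funext s
          by_cases hsI : s ∈ Ioo α α'
          · rw [hR, indicator_of_mem ((hmem s).2 hsI), indicator_of_mem hsI]
            have e2 : (Function.update x i s ∈ B') ↔ s ∈ b := by
              show Function.update (Function.update x i s) l (a l) ∈ B ↔ rp a l i x s ∈ B
              rw [rp_eq hi]
            congr 2
            by_cases hsb : s ∈ b
            · rw [indicator_of_mem hsb, indicator_of_mem (e2.2 hsb)]; rfl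
            · rw [indicator_of_notMem hsb, indicator_of_notMem (fun h => hsb (e2.1 h))]
          · rw [hR, indicator_of_notMem (fun h => hsI ((hmem s).1 h)), indicator_of_notMem hsI]
        rw [e1, lintegral_indicator measurableSet_Ioo, lintegral_add_left measurable_const,
          setLIntegral_const, Real.volume_Ioo,
          lintegral_const_mul _ (hone1.indicator hbm)]
        congr 2
        rw [lintegral_indicator_one hbm, Measure.restrict_apply hbm, inter_comm]
      rw [hRHS]
      refine (hLHS.trans (add_le_add r1 (add_le_add r2 r3))).trans ?_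
      have hd0 : 0 ≤ α' - α := by linarith
      have hCn' : (Cn : ℝ) = C := rfl
      rw [hCn']
      calc ENNReal.ofReal (4 ^ (p - 1) * (4 * e + 5 * r) * (α' - α)) +
            ENNReal.ofReal (4 ^ (p - 1) * C + (C + 1) ^ p) * volume (Ioo α α' ∩ b) +
            (ENNReal.ofReal (e * (α' - α)) + ENNReal.ofReal (C ^ p) * volume (Ioo α α' ∩ b) +
              ENNReal.ofReal (e * (α' - α)))
          = (ENNReal.ofReal (4 ^ (p - 1) * (4 * e + 5 * r) * (α' - α)) +
              ENNReal.ofReal (e * (α' - α)) + ENNReal.ofReal (e * (α' - α))) +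
            (ENNReal.ofReal (4 ^ (p - 1) * C + (C + 1) ^ p) + ENNReal.ofReal (C ^ p)) *
              volume (Ioo α α' ∩ b) := by ring
        _ ≤ ENNReal.ofReal c₁ * ENNReal.ofReal (α' - α) +
            ENNReal.ofReal K * volume (Ioo α α' ∩ b) := by
            refine add_le_add (le_of_eq ?_) (mul_le_mul_left ?_ _)
            · rw [← ENNReal.ofReal_mul hc₁0, ← ENNReal.ofReal_add (by positivity) (by positivity),
                ← ENNReal.ofReal_add (by positivity) (by positivity)]
              congr 1
              rw [hc₁]; ring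
            · rw [← ENNReal.ofReal_add (by positivity) (by positivity)]
              refine ENNReal.ofReal_le_ofReal ?_
              have : 0 ≤ C ^ p := by positivity
              rw [hK]; linarith
    have hfin := lintegral_le_of_rows hGm hRm i hrows
    -- the left hand side
    have eL : ∫⁻ x in cube a σ,
        ENNReal.ofReal (‖lineDeriv ℝ g (Function.update x l (a l)) (ev i) - ev i‖ ^ p) =
          ∫⁻ x, G x := by
      rw [hG, lintegral_indicator hOm, ← setLIntegral_congr (ocube_ae a σ)]
      refine setLIntegral_congr_fun hOm fun x hx => ?_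
      have e1 : lineDeriv ℝ gc (Function.update x l (a l)) (ev i) =
          lineDeriv ℝ g (Function.update x l (a l)) (ev i) := by
        unfold lineDeriv
        refine Filter.EventuallyEq.deriv_eq ?_
        have h4 : ∀ᶠ t : ℝ in 𝓝 0, |x i + t - a i| < σ := by
          have h5 : Tendsto (fun t : ℝ => |x i + t - a i|) (𝓝 0) (𝓝 (|x i + 0 - a i|)) := by
            apply Continuous.tendsto
            fun_prop
          rw [add_zero] at h5
          exact h5.eventually (gt_mem_nhds (hx i))
        filter_upwards [h4] with t ht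
        show g (toSq a l σ _) = g _
        rw [toSq_of_mem]
        refine ⟨by simp [ev, hi.symm], fun k => ?_⟩
        by_cases hk : k = i
        · subst hk
          simpa [ev, hi] using ht.le
        · by_cases hkl : k = l
          · subst hkl; simp [ev, hk, hσ.le]
          · have : (Function.update x l (a l) + t • (ev i : V)) k = x k := by
              simp [ev, hk, hkl]
            rw [this]
            exact (hx k).le
      show ENNReal.ofReal (‖lineDeriv ℝ g (Function.update x l (a l)) (ev i) - ev i‖ ^ p) = _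
      rw [e1]
    have eR : ∫⁻ x, R x ≤ ENNReal.ofReal c₁ * ENNReal.ofReal ((2 * σ) ^ 3) +
        ENNReal.ofReal K * ENNReal.ofReal (β * σ ^ 3) := by
      rw [hR, lintegral_indicator hOm, lintegral_add_left measurable_const, setLIntegral_const,
        volume_ocube hσ.le, lintegral_const_mul _ (hone.indicator hB'm),
        lintegral_indicator_one hB'm, Measure.restrict_apply hB'm]
      gcongr
      refine le_trans (measure_mono fun x hx => ?_) hvol
      exact ⟨fun k => (hx.2 k).le, hx.1⟩
    rw [eL]
    refine hfin.trans (eR.trans (le_of_eq ?_))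
    rw [← ENNReal.ofReal_mul hc₁0]
  -- both directions
  unfold faceI
  refine (Finset.sum_le_sum fun i hi => key i (Finset.ne_of_mem_erase hi)).trans ?_
  rw [Finset.sum_const, Finset.card_erase_of_mem (Finset.mem_univ l), Finset.card_univ,
    Fintype.card_fin, ← ENNReal.ofReal_mul (by positivity),
    ← ENNReal.ofReal_add (by positivity) (by positivity), nsmul_eq_mul]
  have e2 : ((3 - 1 : ℕ) : ℝ≥0∞) = ENNReal.ofReal 2 := by norm_num
  rw [e2, ← ENNReal.ofReal_mul (by norm_num)]
  refine ENNReal.ofReal_le_ofReal ?_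
  have q0 : (0 : ℝ) ≤ 4 ^ (p - 1) := by positivity
  have q1 : 0 ≤ (C + 1) ^ p := by positivity
  have q2 : 0 ≤ C ^ p := by positivity
  have q3 : 0 ≤ σ ^ 3 := by positivity
  have hlin : 2 * ((4 ^ (p - 1) * (4 * e + 5 * r) + 2 * e) * 8 +
      (4 ^ (p - 1) * C + (C + 1) ^ p + 2 * C ^ p) * β) ≤ kRow p C * (e + r + β) := by
    unfold kRow
    have w1 : 0 ≤ 4 ^ (p - 1) * e := by positivity
    have w2 : 0 ≤ 4 ^ (p - 1) * r := by positivity
    have w3 : 0 ≤ 4 ^ (p - 1) * β := by positivity
    have w4 : 0 ≤ (4 ^ (p - 1) * C + (C + 1) ^ p + 2 * C ^ p) * e := by positivity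
    have w5 : 0 ≤ (4 ^ (p - 1) * C + (C + 1) ^ p + 2 * C ^ p) * r := by positivity
    nlinarith
  calc 2 * ((4 ^ (p - 1) * (4 * e + 5 * r) + 2 * e) * (2 * σ) ^ 3 +
        (4 ^ (p - 1) * C + (C + 1) ^ p + 2 * C ^ p) * (β * σ ^ 3))
      = 2 * ((4 ^ (p - 1) * (4 * e + 5 * r) + 2 * e) * 8 +
        (4 ^ (p - 1) * C + (C + 1) ^ p + 2 * C ^ p) * β) * σ ^ 3 := by ring
    _ ≤ _ := mul_le_mul_of_nonneg_right hlin q3

end Vale.Agent.P073.H582
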