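import Vale.Agent.P073.H235.PreParts
import Vale.Agent.P073.H716.RowsE
import Vale.Agent.P073.H687.MinSum
import Vale.Agent.P073.H333.EdgeT
import Vale.Agent.P073.H333.PD3

/-!
# P073, block A16, [XEDGE]: the edges of the middle plane, part one (one edge)
-/

open Set MeasureTheory Filter Topology Metric
open scoped ENNReal NNReal

namespace Vale.Agent.P073.H582

open Vale.Agent.P073.St (V Mat)
open Vale.Agent.P073.SQ (ev)
open Vale.Agent.P073.AB
open Vale.Agent.P073.H235
open Vale.Agent.P073.H732 (conical_diff conical_edge)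
open Vale.Agent.P073.H333 (eInt_mono' eInt_mono_on)
open _root_.P073 (ConHomeo ConicalOn)
open _root_.P073.Gauge (gam)
open _root_.P073.Gauge.C110 (mem_edge_iff)
open _root_.P073.Gauge.O407 (jInt eInt_eq deriv_gam)

variable {Ω Λ : Set V}

theorem P2_ne (x : V) {j : Fin 3} (hj : j ≠ 2) : P2 x j = x j := by
  simp [P2, ev, hj]

theorem P2_two (x : V) : P2 x 2 = 0 := by
  simp [P2, ev]

theorem P2_ev {i : Fin 3} (hi : i ≠ 2) : P2 (ev i) = ev i := by
  funext j
  by_cases hj : j = 2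
  · subst hj; rw [P2_two]; simp [ev, Pi.single_apply, Ne.symm hi]
  · exact P2_ne _ hj

theorem norm_P2_le : ‖P2‖ ≤ 1 := by
  refine ContinuousLinearMap.opNorm_le_bound _ zero_le_one fun x => ?_
  rw [one_mul, pi_norm_le_iff_of_nonneg (norm_nonneg _)]
  intro j
  by_cases hj : j = 2
  · subst hj; rw [P2_two, norm_zero]; exact norm_nonneg _
  · rw [P2_ne x hj]; exact norm_le_pi_norm x j

/-- two conical homeomorphisms with the same component `j` have the same derivatives of this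
component along an edge -/
theorem ae_comp_eq {Λ' : Set V} (g : ConHomeo Ω Λ) (h : ConHomeo Ω Λ') {v : V} {e : Idx × Fin 3}
    (he : edge v e ⊆ Ω) {j : Fin 3} (hj : ∀ x ∈ Ω, g.toFun x j = h.toFun x j) :
    ∀ᵐ t ∂(volume.restrict (Icc (0:ℝ) 1)), lineDeriv ℝ g.toFun (gam v e t) (ev e.2) j =
      lineDeriv ℝ h.toFun (gam v e t) (ev e.2) j := by
  rw [← restrict_Ioo_eq_restrict_Icc, ae_restrict_iff' measurableSet_Ioo]
  filter_upwards [(conical_diff (conical_edge g he)).countable.ae_notMem volume,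
    (conical_diff (conical_edge h he)).countable.ae_notMem volume] with t ht ht' hI
  have hd : DifferentiableAt ℝ (fun t => g.toFun (gam v e t)) t := by
    by_contra hn; exact ht ⟨hI, hn⟩
  have hd' : DifferentiableAt ℝ (fun t => h.toFun (gam v e t)) t := by
    by_contra hn; exact ht' ⟨hI, hn⟩
  have h1 := (hasDerivAt_pi.1 hd.hasDerivAt) j
  have h2 := (hasDerivAt_pi.1 hd'.hasDerivAt) j
  have h3 : (fun s => g.toFun (gam v e s) j) =ᶠ[𝓝 t] fun s => h.toFun (gam v e s) j := by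
    filter_upwards [isOpen_Ioo.mem_nhds hI] with s hs
    exact hj _ (he (mem_edge_iff.2 ⟨s, Ioo_subset_Icc_self hs, rfl⟩))
  have h4 := (h1.congr_of_eventuallyEq h3.symm).unique h2
  rw [deriv_gam, deriv_gam, Pi.smul_apply, Pi.smul_apply, smul_eq_mul, smul_eq_mul] at h4
  exact mul_left_cancel₀ (by positivity) h4

/-- **the error `xE`** of a map whose horizontal components are those of `h₀` -/
theorem xE_le {v : V} {f : V → V} {F : V → Mat} (rat : RatGood v Ω f F) (h₀ : ConHomeo Ω Λ)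
    (T : ConHomeo Λ Λ) (hT : ∀ y ∈ Λ, ∀ j, j ≠ 2 → T.toFun y j = y j) {e : Idx × Fin 3}
    (he : edge v e ⊆ Ω) (he2 : e.2 ≠ 2) {b : ℝ}
    (h : eInt v e (fun x => ENNReal.ofReal ‖lineDeriv ℝ h₀.toFun x (ev e.2) -
      cl (F x) (ev e.2)‖) ≤ ENNReal.ofReal b) :
    xE (h₀.trans T).toFun v e ≤
      2 * (eInt v e (fun x => ‖cl (F x) - P2‖ₑ) + ENNReal.ofReal b) := by
  have hcomp : ∀ j, j ≠ 2 → ∀ x ∈ Ω, (h₀.trans T).toFun x j = h₀.toFun x j := fun j hj x hx =>
    hT _ (h₀.mapsTo hx) j hj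
  have h0 : ∀ᵐ t ∂(volume.restrict (Icc (0:ℝ) 1)),
      lineDeriv ℝ (h₀.trans T).toFun (gam v e t) (ev e.2) 0 =
        lineDeriv ℝ h₀.toFun (gam v e t) (ev e.2) 0 := ae_comp_eq _ _ he (hcomp 0 (by decide))
  have h1 : ∀ᵐ t ∂(volume.restrict (Icc (0:ℝ) 1)),
      lineDeriv ℝ (h₀.trans T).toFun (gam v e t) (ev e.2) 1 =
        lineDeriv ℝ h₀.toFun (gam v e t) (ev e.2) 1 := ae_comp_eq _ _ he (hcomp 1 (by decide))
  have hset : Finset.univ.erase (2 : Fin 3) = {0, 1} := by decide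
  have key : xE (h₀.trans T).toFun v e ≤ eInt v e fun x => 2 * (ENNReal.ofReal
      ‖lineDeriv ℝ h₀.toFun x (ev e.2) - cl (F x) (ev e.2)‖ +
        ENNReal.ofReal ‖cl (F x) (ev e.2) - ev e.2‖) := by
    unfold xE
    rw [eInt_eq, eInt_eq, jInt, jInt]
    gcongr 1
    refine lintegral_mono_ae ?_
    filter_upwards [h0, h1] with t ht0 ht1
    rw [hset, Finset.sum_pair (by decide), ht0, ht1]
    have hb : ∀ j : Fin 3, ENNReal.ofReal |lineDeriv ℝ h₀.toFun (gam v e t) (ev e.2) j - ev e.2 j| ≤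
        ENNReal.ofReal ‖lineDeriv ℝ h₀.toFun (gam v e t) (ev e.2) -
          cl (F (gam v e t)) (ev e.2)‖ +
        ENNReal.ofReal ‖cl (F (gam v e t)) (ev e.2) - ev e.2‖ := by
      intro j
      rw [← ENNReal.ofReal_add (norm_nonneg _) (norm_nonneg _)]
      refine ENNReal.ofReal_le_ofReal (le_trans ?_ (norm_sub_le_norm_sub_add_norm_sub _ _ _))
      exact norm_le_pi_norm (lineDeriv ℝ h₀.toFun (gam v e t) (ev e.2) - ev e.2) j
    rw [two_mul]
    exact add_le_add (hb 0) (hb 1)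
  refine key.trans ?_
  rw [S293.eInt_const_mul _ _ _ (by norm_num), S293.eInt_add, add_comm]
  · gcongr
    refine eInt_mono' v e fun x => ?_
    rw [← ofReal_norm_eq_enorm]
    refine ENNReal.ofReal_le_ofReal ?_
    have h2 : cl (F x) (ev e.2) - ev e.2 = (cl (F x) - P2) (ev e.2) := by
      rw [ContinuousLinearMap.sub_apply, P2_ev he2]
    rw [h2]
    refine ((cl (F x) - P2).le_opNorm _).trans ?_
    rw [S293.ev_norm, mul_one]
  · have := S293.aemeas_pow rat he (ev e.2) 1 1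
    simpa using this

end Vale.Agent.P073.H582
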