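import Vale.Agent.P073.H582.XE

/-!
# P073, block A16, [XEDGE]: the edges of the middle plane, part two (sums)
-/

open Set MeasureTheory Filter Topology Metric
open scoped ENNReal NNReal

namespace Vale.Agent.P073.H582

open Vale.Agent.P073.St (V Mat)
open Vale.Agent.P073.SQ (ev)
open Vale.Agent.P073.AB
open Vale.Agent.P073.H235
open Vale.Agent.P073.H194 (sInt fSum eInSq Rg up mem_rect mem_redge)
open Vale.Agent.P073.H333 (eInt_mono' eInt_mono_on te_le eInt_add_cst)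
open _root_.P073.Net (dyc dyo)

section data

variable {p C₀ θ κ : ℝ} {m₀ : ℕ} {Λ : Set V} {f : V → V} {F : V → Mat}

open Classical in
/-- the root of the energy density on an edge -/
theorem root_le (hp : 1 ≤ p) (D : VData2 p C₀ θ κ m₀ Λ f F) {e : Idx × Fin 3}
    (he : edge D.v e ⊆ Bx (fl θ)) :
    eInt D.v e (fun x => D.H x ^ (1 / p) + 1) ≤
      eInt D.v e (fun x => ‖cl (cmpD (fl θ) F x) - P2‖ₑ) + 2 * ENNReal.ofReal (1 / 2 ^ e.1.1) := by
  have h1 := (D.rep (fun x => D.H x ^ (1 / p) + 1)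
    (fun x => if x ∈ D.N then 0 else D.H x ^ (1 / p) + 1) fun x hx => by rw [if_neg hx]).1 e
  rw [h1, mul_comm, ← eInt_add_cst]
  refine eInt_mono_on fun x hx => ?_
  by_cases hN : x ∈ D.N
  · rw [if_pos hN]; exact zero_le
  · rw [if_neg hN, D.eq x (he hx) hN, ← ENNReal.rpow_mul,
      mul_one_div_cancel (by positivity), ENNReal.rpow_one]
    have h2 : ‖cl (cmpD (fl θ) F x)‖ₑ ≤ ‖cl (cmpD (fl θ) F x) - P2‖ₑ + 1 := by
      have h3 : ‖cl (cmpD (fl θ) F x)‖ ≤ ‖cl (cmpD (fl θ) F x) - P2‖ + 1 := by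
        have h4 := norm_add_le (cl (cmpD (fl θ) F x) - P2) P2
        rw [sub_add_cancel] at h4
        linarith [norm_P2_le]
      rw [← ofReal_norm_eq_enorm, ← ofReal_norm_eq_enorm, ← ENNReal.ofReal_one,
        ← ENNReal.ofReal_add (norm_nonneg _) zero_le_one]
      exact ENNReal.ofReal_le_ofReal h3
    calc ‖cl (cmpD (fl θ) F x)‖ₑ + 1 ≤ ‖cl (cmpD (fl θ) F x) - P2‖ₑ + 1 + 1 := by gcongr
      _ = ‖cl (cmpD (fl θ) F x) - P2‖ₑ + 2 := by rw [add_assoc]; norm_num

open Classical in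
/-- the energy of `f - P2` on an edge -/
theorem diff_le (D : VData2 p C₀ θ κ m₀ Λ f F) {e : Idx × Fin 3}
    (he : edge D.v e ⊆ Bx (fl θ)) :
    eInt D.v e (fun x => ‖cl (cmpD (fl θ) F x) - P2‖ₑ ^ p) ≤ eInt D.v e D.H₁ := by
  have h1 := (D.rep (fun x => if x ∈ Bx (fl θ) then ‖cl (cmpD (fl θ) F x) - P2‖ₑ ^ p
    else D.H₁ x) D.H₁ fun x hx => by
      by_cases hB : x ∈ Bx (fl θ)
      · rw [if_pos hB, D.eq₁ x hB hx]
      · rw [if_neg hB]).1 e
  rw [← h1]
  refine eInt_mono_on fun x hx => ?_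
  rw [if_pos (he hx)]

/-- the power of the error on one edge -/
theorem XE_pow_le (hp : 1 ≤ p) (D : VData2 p C₀ θ κ m₀ Λ f F) {e : Idx × Fin 3}
    (he : edge D.v e ⊆ Bx (fl θ)) {b : ℝ} (hb : 0 < b) (hb1 : b ≤ 1) :
    ENNReal.ofReal ((1 / 2 ^ e.1.1) ^ (1 - p)) * XE θ D.v F b e ^ p ≤
      ENNReal.ofReal (2 ^ p * 2 ^ (p - 1)) * (eInt D.v e D.H₁ + ENNReal.ofReal (b / 2 ^ e.1.1)) := by
  have hp0 : 0 ≤ p := by linarith
  set r : ℝ := 1 / 2 ^ e.1.1 with hr
  have hr0 : 0 < r := by positivity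
  have h1 := te_le hp (v := D.v) (e := e)
    (ℓ := eInt D.v e (fun x => ‖cl (cmpD (fl θ) F x) - P2‖ₑ) + ENNReal.ofReal (b / 2 ^ e.1.1))
    (b := ENNReal.ofReal (b / 2 ^ e.1.1)) (G := fun x => ‖cl (cmpD (fl θ) F x) - P2‖ₑ) le_rfl
  have h2 : ENNReal.ofReal (r ^ (1 - p)) * (2 ^ (p - 1) * ENNReal.ofReal (b / 2 ^ e.1.1) ^ p) ≤
      2 ^ (p - 1) * ENNReal.ofReal (b / 2 ^ e.1.1) := by
    rw [mul_left_comm]
    gcongr
    rw [ENNReal.ofReal_rpow_of_nonneg (by positivity) hp0, ← ENNReal.ofReal_mul (by positivity)]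
    refine ENNReal.ofReal_le_ofReal ?_
    have h3 : b / 2 ^ e.1.1 = b * r := by rw [hr]; ring
    rw [h3, Real.mul_rpow hb.le hr0.le]
    have h4 : r ^ (1 - p) * r ^ p = r := by
      rw [← Real.rpow_add hr0]; simp
    have h5 : b ^ p ≤ b := by
      calc b ^ p ≤ b ^ (1:ℝ) := Real.rpow_le_rpow_of_exponent_ge hb hb1 hp
        _ = b := Real.rpow_one b
    calc r ^ (1 - p) * (b ^ p * r ^ p) = b ^ p * (r ^ (1 - p) * r ^ p) := by ring
      _ = b ^ p * r := by rw [h4]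
      _ ≤ b * r := by gcongr
  have e2 : (2:ℝ≥0∞) ^ p = ENNReal.ofReal (2 ^ p) := by
    rw [← ENNReal.ofReal_rpow_of_pos (by norm_num)]; norm_num
  have e3 : (2:ℝ≥0∞) ^ (p - 1) = ENNReal.ofReal (2 ^ (p - 1)) := by
    rw [← ENNReal.ofReal_rpow_of_pos (by norm_num)]; norm_num
  calc ENNReal.ofReal (r ^ (1 - p)) * XE θ D.v F b e ^ p
      = 2 ^ p * (ENNReal.ofReal (r ^ (1 - p)) * (eInt D.v e
          (fun x => ‖cl (cmpD (fl θ) F x) - P2‖ₑ) + ENNReal.ofReal (b / 2 ^ e.1.1)) ^ p) := by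
        unfold XE
        rw [ENNReal.mul_rpow_of_nonneg _ _ hp0]
        ring
    _ ≤ 2 ^ p * (2 ^ (p - 1) * eInt D.v e D.H₁ +
          2 ^ (p - 1) * ENNReal.ofReal (b / 2 ^ e.1.1)) := by
        gcongr
        refine h1.trans (add_le_add ?_ h2)
        gcongr
        exact diff_le D he
    _ = _ := by
        rw [ENNReal.ofReal_mul (by positivity), ← e2, ← e3]
        ring

end data

/-! ### Positions -/

/-- every edge of the rectangle is in a big square -/
theorem redge_sub {m n : ℕ} {α β : Fin 3 → ℤ} (hαβ : ∀ j, j ≠ 2 → α j < β j) {i : Fin 3}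
    (hi : i ≠ 2) : redge (up m n α) (up m n β) i ⊆
      (rect α β).biUnion fun s => eInSq ((m, s), 2) n i := by
  intro k hk
  obtain ⟨h1, h2, h3⟩ := (mem_redge hi).1 hk
  set d := n - m with hd
  have hD : (0:ℤ) < 2 ^ d := by positivity
  have e1 : ∀ j, up m n α j = 2 ^ d * α j := fun _ => rfl
  have e2 : ∀ j, up m n β j = 2 ^ d * β j := fun _ => rfl
  set s : Fin 3 → ℤ := fun j => if j = 2 then α 2 else min (k j / 2 ^ d) (β j - 1) with hs
  have hk2 : ∀ j, j ≠ 2 → 2 ^ d * α j ≤ k j ∧ k j ≤ 2 ^ d * β j := by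
    intro j hj
    by_cases hji : j = i
    · subst hji
      exact ⟨h2.1, h2.2.le⟩
    · exact h3 j hj hji
  rw [Finset.mem_biUnion]
  have hq : ∀ j, 2 ^ d * (k j / 2 ^ d) ≤ k j ∧ k j < 2 ^ d * (k j / 2 ^ d + 1) := by
    intro j
    constructor
    · exact Int.mul_ediv_self_le hD.ne'
    · have := Int.lt_mul_ediv_self_add (x := k j) hD
      rw [mul_add, mul_one]; exact this
  refine ⟨s, ?_, ?_⟩
  · refine mem_rect.2 ⟨by simp [hs], fun j hj => ?_⟩
    have h4 : s j = min (k j / 2 ^ d) (β j - 1) := by simp [hs, hj]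
    rw [h4]
    refine ⟨le_min ?_ (by have := hαβ j hj; omega), by
      have := min_le_right (k j / 2 ^ d) (β j - 1); omega⟩
    have h5 : α j < k j / 2 ^ d + 1 := by
      have h6 := (hk2 j hj).1.trans_lt (hq j).2
      exact lt_of_mul_lt_mul_left h6 hD.le
    omega
  · unfold eInSq
    rw [Fintype.mem_piFinset]
    intro j
    show k j ∈ if j = 2 then {2 ^ d * s j} else if j = i then
      Finset.Ico (2 ^ d * s j) (2 ^ d * (s j + 1)) else Finset.Icc (2 ^ d * s j) (2 ^ d * (s j + 1))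
    by_cases hj : j = 2
    · subst hj
      rw [if_pos rfl, Finset.mem_singleton, h1, e1]
      simp [hs]
    · have h4 : s j = min (k j / 2 ^ d) (β j - 1) := by simp [hs, hj]
      rw [if_neg hj]
      have h5 : 2 ^ d * s j ≤ k j := by
        refine le_trans ?_ (hq j).1
        rw [h4]
        exact mul_le_mul_of_nonneg_left (min_le_left _ _) hD.le
      by_cases hji : j = i
      · rw [if_pos hji, Finset.mem_Ico]
        refine ⟨h5, ?_⟩
        have h6 : k j / 2 ^ d < β j := by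
          have h7 : k j < 2 ^ d * β j := by subst hji; exact h2.2
          have h8 := (hq j).1.trans_lt h7
          exact lt_of_mul_lt_mul_left h8 hD.le
        rw [h4, min_eq_left (by omega)]
        exact (hq j).2
      · rw [if_neg hji, Finset.mem_Icc]
        refine ⟨h5, ?_⟩
        rw [h4]
        rcases min_cases (k j / 2 ^ d) (β j - 1) with ⟨h7, _⟩ | ⟨h7, _⟩
        · rw [h7]; exact (hq j).2.le
        · rw [h7, sub_add_cancel]; exact (hk2 j hj).2

/-- number of the squares of a rectangle -/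
theorem card_rect (a b : Fin 3 → ℤ) :
    (rect a b).card = (b 0 - a 0).toNat * (b 1 - a 1).toNat := by
  unfold rect
  rw [Fintype.card_piFinset, Fin.prod_univ_three]
  simp [Int.card_Ico]

/-- number of the edges of a rectangle -/
theorem card_redge_le {a b : Fin 3 → ℤ} (hab : ∀ j, j ≠ 2 → a j < b j) {i : Fin 3}
    (hi : i ≠ 2) : (redge a b i).card ≤ 2 * (rect a b).card := by
  have h0 := hab 0 (by decide)
  have h1 := hab 1 (by decide)
  rw [card_rect]
  unfold redge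
  rw [Fintype.card_piFinset, Fin.prod_univ_three]
  obtain ⟨x, hx⟩ : ∃ x : ℕ, b 0 - a 0 = x + 1 := ⟨(b 0 - a 0 - 1).toNat, by omega⟩
  obtain ⟨y, hy⟩ : ∃ y : ℕ, b 1 - a 1 = y + 1 := ⟨(b 1 - a 1 - 1).toNat, by omega⟩
  have e0 : (b 0 - a 0).toNat = x + 1 := by omega
  have e1 : (b 1 - a 1).toNat = y + 1 := by omega
  have e2 : (b 0 + 1 - a 0).toNat = x + 2 := by omega
  have e3 : (b 1 + 1 - a 1).toNat = y + 2 := by omega
  fin_cases i
  · simp [Int.card_Ico, Int.card_Icc, e0, e1, e3]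
    nlinarith
  · simp [Int.card_Ico, Int.card_Icc, e0, e1, e2]
    nlinarith
  · exact absurd rfl hi

/-- the number of the squares of the refined rectangle -/
theorem card_up {m n : ℕ} (h : m ≤ n) {α β : Fin 3 → ℤ} (hc : (rect α β).card ≤ 4 ^ m) :
    (rect (up m n α) (up m n β)).card ≤ 4 ^ n := by
  obtain ⟨d, rfl⟩ := Nat.exists_eq_add_of_le h
  rw [card_rect] at hc ⊢
  have e1 : ∀ j, (up m (m + d) β j - up m (m + d) α j).toNat = 2 ^ d * (β j - α j).toNat := by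
    intro j
    unfold up
    rw [Nat.add_sub_cancel_left, ← mul_sub]
    rcases le_or_gt 0 (β j - α j) with h0 | h0
    · obtain ⟨x, hx⟩ := Int.eq_ofNat_of_zero_le h0
      rw [hx, Int.toNat_natCast]
      have : ((2:ℤ) ^ d * (x : ℤ)) = ((2 ^ d * x : ℕ) : ℤ) := by push_cast; ring
      rw [this, Int.toNat_natCast]
    · rw [Int.toNat_of_nonpos h0.le, mul_zero, Int.toNat_of_nonpos]
      exact mul_nonpos_of_nonneg_of_nonpos (by positivity) h0.le
  rw [e1, e1]
  calc 2 ^ d * (β 0 - α 0).toNat * (2 ^ d * (β 1 - α 1).toNat)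
      = (2 ^ d * 2 ^ d) * ((β 0 - α 0).toNat * (β 1 - α 1).toNat) := by ring
    _ ≤ (2 ^ d * 2 ^ d) * 4 ^ m := Nat.mul_le_mul_left _ hc
    _ = 4 ^ (m + d) := by rw [← mul_pow, pow_add]; norm_num; ring

end Vale.Agent.P073.H582
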